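import Vale.Agent.P130.Full.Params

/-! Hilbert space vectors carried by the towers of a realisation. -/

namespace Vale.Agent.P130.Full

open MeasureTheory Filter Topology Set UnitAddTorus
open Vale.Agent.P130 Vale.Agent.P130.Sol
open scoped ENNReal ComplexConjugate InnerProductSpace

noncomputable section

variable {Ch : Chain}

instance (R : Realisation Ch) : MeasurableSpace R.Ω := R.ms

instance (R : Realisation Ch) : IsProbabilityMeasure R.μ := R.prob

variable (R : Realisation Ch)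

/-- the Hilbert space of a realisation -/
abbrev HR : Type := Lp ℂ 2 R.μ

/-- a tower function as a function on the space -/
def fn (n : ℕ) (F : ℕ → Tor (Ch.D n) → ℂ) (x : R.Ω) : ℂ := ofState F (R.pos n x)

theorem fn_bounded (n : ℕ) {F : ℕ → Tor (Ch.D n) → ℂ} (hF : Nice F) : ∃ c, ∀ x, ‖fn R n F x‖ ≤ c := by
  choose c hc using hF.2
  refine ⟨∑ p ∈ Finset.range (Ch.h n), |c p|, fun x => ?_⟩
  have h0 : 0 ≤ ∑ p ∈ Finset.range (Ch.h n), |c p| := Finset.sum_nonneg fun p _ => abs_nonneg _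
  simp only [fn]
  rcases hpos : R.pos n x with _ | ⟨p, z⟩
  · simpa [ofState] using h0
  · exact (hc p z).trans ((le_abs_self _).trans (Finset.single_le_sum (f := fun p => |c p|)
      (fun p _ => abs_nonneg _) (Finset.mem_range.2 (R.pos_lt n x p z hpos))))

theorem memLp_fn (n : ℕ) {F : ℕ → Tor (Ch.D n) → ℂ} (hF : Nice F) : MemLp (fn R n F) 2 R.μ := by
  obtain ⟨c, hc⟩ := fn_bounded R n hF
  exact MemLp.of_bound (R.pos_meas n F hF.1).aestronglyMeasurable c (Eventually.of_forall hc)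

open Classical in
/-- the vector of a tower function -/
def emb (n : ℕ) (F : ℕ → Tor (Ch.D n) → ℂ) : HR R := if hF : Nice F then (memLp_fn R n hF).toLp _ else 0

theorem coeFn_emb (n : ℕ) {F : ℕ → Tor (Ch.D n) → ℂ} (hF : Nice F) : emb R n F =ᵐ[R.μ] fn R n F := by
  rw [emb, dif_pos hF]; exact MemLp.coeFn_toLp _

theorem nice_sum {D : ℕ} {ι : Type*} (s : Finset ι) (c : ι → ℂ) {F : ι → ℕ → Tor D → ℂ} (hF : ∀ i ∈ s, Nice (F i)) :
    Nice fun p z => ∑ i ∈ s, c i * F i p z := by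
  refine ⟨fun p => Finset.measurable_sum _ fun i hi => ((hF i hi).1 p).const_mul _, fun p => ?_⟩
  have hb : ∀ i, ∃ d, i ∈ s → ∀ z, ‖F i p z‖ ≤ d := fun i => by
    by_cases h : i ∈ s
    · exact ⟨((hF i h).2 p).choose, fun _ => ((hF i h).2 p).choose_spec⟩
    · exact ⟨0, fun h' => absurd h' h⟩
  choose d hd using hb
  refine ⟨∑ i ∈ s, ‖c i‖ * d i, fun z => (norm_sum_le _ _).trans (Finset.sum_le_sum fun i hi => ?_)⟩
  rw [norm_mul]
  exact mul_le_mul_of_nonneg_left (hd i hi z) (norm_nonneg _)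

theorem emb_sum (n : ℕ) {ι : Type*} (s : Finset ι) (c : ι → ℂ) {F : ι → ℕ → Tor (Ch.D n) → ℂ}
    (hF : ∀ i ∈ s, Nice (F i)) : emb R n (fun p z => ∑ i ∈ s, c i * F i p z) = ∑ i ∈ s, c i • emb R n (F i) := by
  refine Lp.ext ((coeFn_emb R n (nice_sum s c hF)).trans ?_)
  have h : ∀ᵐ x ∂(R.μ), ∀ i ∈ s, (c i • emb R n (F i) : HR R) x = c i * fn R n (F i) x := by
    refine (ae_ball_iff s.countable_toSet).2 fun i hi => ?_
    filter_upwards [Lp.coeFn_smul (c i) (emb R n (F i)), coeFn_emb R n (hF i hi)] with x h1 h2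
    rw [h1, Pi.smul_apply, h2, smul_eq_mul]
  filter_upwards [Lp.coeFn_finsetSum s (fun i => c i • emb R n (F i)), h] with x h1 h2
  rw [h1, Finset.sum_apply, Finset.sum_congr rfl fun i hi => h2 i hi]
  simp only [fn]
  rcases R.pos n x with _ | ⟨p, z⟩ <;> simp [ofState]

theorem inner_emb (n : ℕ) {F G : ℕ → Tor (Ch.D n) → ℂ} (hF : Nice F) (hG : Nice G) :
    ⟪emb R n F, emb R n G⟫_ℂ = (R.wt n : ℂ) * ∑ p ∈ Finset.range (Ch.h n), ∫ z, conj (F p z) * G p z := by
  rw [L2.inner_def, ← R.law n (fun p z => conj (F p z) * G p z)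
    (fun p => (Complex.continuous_conj.measurable.comp (hF.1 p)).mul (hG.1 p))
    (fun p => by
      obtain ⟨a, ha⟩ := hF.2 p
      obtain ⟨b, hb⟩ := hG.2 p
      exact ⟨a * b, fun z => by
        rw [norm_mul, Complex.norm_conj]
        exact mul_le_mul (ha z) (hb z) (norm_nonneg _) ((norm_nonneg _).trans (ha z))⟩)]
  refine integral_congr_ae ?_
  filter_upwards [coeFn_emb R n hF, coeFn_emb R n hG] with x h1 h2
  rw [h1, h2, RCLike.inner_apply']
  simp only [fn]
  rcases R.pos n x with _ | ⟨p, z⟩ <;> simp [ofState]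

theorem norm_sq_emb (n : ℕ) {F : ℕ → Tor (Ch.D n) → ℂ} (hF : Nice F) :
    ‖emb R n F‖ ^ 2 = R.wt n * ∑ p ∈ Finset.range (Ch.h n), ∫ z, ‖F p z‖ ^ 2 := by
  have h := inner_emb R n hF hF
  rw [inner_self_eq_norm_sq_to_K] at h
  simp only [Complex.conj_mul', ← Complex.ofReal_pow] at h
  have h2 : ∀ p, ∫ z, ((‖F p z‖ ^ 2 : ℝ) : ℂ) = ((∫ z, ‖F p z‖ ^ 2 : ℝ) : ℂ) := fun p => integral_complex_ofReal
  simp only [h2] at h
  simp only [← Complex.ofReal_sum, ← Complex.ofReal_mul] at h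
  exact Complex.ofReal_injective (by simpa using h)

theorem ofState_pi (n : ℕ) (F : ℕ → Tor (Ch.D n) → ℂ) (s : Option (ℕ × Tor (Ch.D (n + 1)))) :
    ofState F (Ch.pi n s) = ofState (pullF (Ch.h n) (Ch.Q n) (Ch.o n) (Ch.z n) F) s := by
  rcases s with _ | ⟨P, ω⟩
  · rfl
  · simp only [Chain.pi, ofState, pullF]
    rcases visit (Ch.h n) (Ch.Q n) (Ch.o n ω) P with _ | ⟨s, p⟩ <;> rfl

theorem nice_pull (n : ℕ) {F : ℕ → Tor (Ch.D n) → ℂ} (hF : Nice F) :
    Nice (pullF (Ch.h n) (Ch.Q n) (Ch.o n) (Ch.z n) F) :=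
  nice_pullF (Ch.o_meas n) (fun s => (Ch.z_mp n s).measurable) hF

theorem emb_pull (n : ℕ) {F : ℕ → Tor (Ch.D n) → ℂ} (hF : Nice F) :
    emb R n F = emb R (n + 1) (pullF (Ch.h n) (Ch.Q n) (Ch.o n) (Ch.z n) F) := by
  refine Lp.ext ((coeFn_emb R n hF).trans (EventuallyEq.trans (Eventually.of_forall fun x => ?_)
    (coeFn_emb R (n + 1) (nice_pull n hF)).symm))
  simp only [fn, R.compat n x, ofState_pi]

/-- normalised mode -/
def md (n q : ℕ) (v : Fin (Ch.D n) → ℤ) : HR R := ((1 / Real.sqrt (R.wt n) : ℝ) : ℂ) • emb R n (mode1 q v)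

theorem inner_md_emb (n q : ℕ) (v : Fin (Ch.D n) → ℤ) (hq : q < Ch.h n) {F : ℕ → Tor (Ch.D n) → ℂ} (hF : Nice F) :
    ⟪md R n q v, emb R n F⟫_ℂ = (Real.sqrt (R.wt n) : ℂ) * mFourierCoeff (F q) v := by
  rw [md, inner_smul_left, inner_emb R n (nice_mode1 q v) hF, Complex.conj_ofReal,
    Finset.sum_eq_single_of_mem q (Finset.mem_range.2 hq) fun p _ hp => by simp [mode1, hp]]
  have h : ∫ z, conj (mode1 q v q z) * F q z = mFourierCoeff (F q) v := by
    simp [mode1, mFourierCoeff_eq, conj_mFourier]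
  rw [h, ← mul_assoc]
  congr 1
  have h2 : Real.sqrt (R.wt n) * Real.sqrt (R.wt n) = R.wt n := Real.mul_self_sqrt (R.wt_pos n).le
  have h3 : Real.sqrt (R.wt n) ≠ 0 := (Real.sqrt_pos.2 (R.wt_pos n)).ne'
  rw [← Complex.ofReal_mul]
  congr 1
  field_simp
  rw [sq, h2]

theorem inner_md (n p q : ℕ) (v w : Fin (Ch.D n) → ℤ) (hp : p < Ch.h n) :
    ⟪md R n p v, md R n q w⟫_ℂ = if p = q ∧ v = w then 1 else 0 := by
  rw [md.eq_1 R n q w, inner_smul_right, inner_md_emb R n p v hp (nice_mode1 q w)]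
  have h3 : Real.sqrt (R.wt n) ≠ 0 := (Real.sqrt_pos.2 (R.wt_pos n)).ne'
  by_cases h : p = q
  · subst h
    rw [show mode1 p w p = fun z => mFourier w z from funext fun z => if_pos rfl, mFourierCoeff_eq]
    simp only [← conj_mFourier, integral_conj_mFourier_mul]
    rw [← mul_assoc, ← Complex.ofReal_mul, one_div_mul_cancel h3, Complex.ofReal_one, one_mul]
    simp
  · rw [show mode1 q w p = fun _ => (0:ℂ) from funext fun z => if_neg h, mFourierCoeff_eq]
    simp [h]

/-- orthonormal index sets of modes -/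
theorem orthonormal_md (n : ℕ) {ι : Type*} (q : ι → ℕ) (v : ι → Fin (Ch.D n) → ℤ) (hq : ∀ i, q i < Ch.h n)
    (hinj : Function.Injective fun i => (q i, v i)) : Orthonormal ℂ fun i => md R n (q i) (v i) := by
  classical
  rw [orthonormal_iff_ite]
  intro i j
  rw [inner_md R n _ _ _ _ (hq i)]
  exact if_congr ⟨fun h => hinj (Prod.ext h.1 h.2), fun h => h ▸ ⟨rfl, rfl⟩⟩ rfl rfl

theorem ons_split {E : Type*} [NormedAddCommGroup E] [InnerProductSpace ℂ E] {ι : Type*} [Fintype ι]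
    {e : ι → E} (he : Orthonormal ℂ e) (f : E) :
    ‖f - ∑ i, ⟪e i, f⟫_ℂ • e i‖ ^ 2 = ‖f‖ ^ 2 - ∑ i, ‖⟪e i, f⟫_ℂ‖ ^ 2 := by
  rw [@norm_sub_sq ℂ]
  have h1 : RCLike.re ⟪f, ∑ i, ⟪e i, f⟫_ℂ • e i⟫_ℂ = ∑ i, ‖⟪e i, f⟫_ℂ‖ ^ 2 := by
    rw [inner_sum, map_sum]
    refine Finset.sum_congr rfl fun i _ => ?_
    rw [inner_smul_right, ← inner_conj_symm f (e i), Complex.mul_conj', ← Complex.ofReal_pow]
    exact Complex.ofReal_re _
  have h2 : ‖∑ i, ⟪e i, f⟫_ℂ • e i‖ ^ 2 = ∑ i, ‖⟪e i, f⟫_ℂ‖ ^ 2 := by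
    have h := he.inner_sum (fun i => ⟪e i, f⟫_ℂ) (fun i => ⟪e i, f⟫_ℂ) Finset.univ
    rw [inner_self_eq_norm_sq_to_K] at h
    simp only [Complex.conj_mul', ← Complex.ofReal_pow, ← Complex.ofReal_sum] at h
    exact Complex.ofReal_injective (by simpa using h)
  rw [h1, h2]; ring

/-- measurable level of a tower -/
def levelSet (n q : ℕ) : Set R.Ω := {x | ofState (fun p (_ : Tor (Ch.D n)) => if p = q then (1:ℂ) else 0) (R.pos n x) = 1}

theorem measurableSet_levelSet (n q : ℕ) : MeasurableSet (levelSet R n q) :=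
  R.pos_meas n _ (fun _ => measurable_const) (measurableSet_singleton 1)

theorem measure_levelSet (n q : ℕ) (hq : q < Ch.h n) : R.μ.real (levelSet R n q) = R.wt n := by
  have h := R.law n (fun p (_ : Tor (Ch.D n)) => if p = q then (1:ℂ) else 0) (fun _ => measurable_const)
    (fun p => ⟨1, fun z => by split_ifs <;> simp⟩)
  have e : (fun x => ofState (fun p (_ : Tor (Ch.D n)) => if p = q then (1:ℂ) else 0) (R.pos n x))
      = (levelSet R n q).indicator fun _ => (1:ℂ) := by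
    funext x
    by_cases hx : x ∈ levelSet R n q
    · rw [Set.indicator_of_mem hx]; exact hx
    · rw [Set.indicator_of_notMem hx]
      simp only [levelSet, mem_ofPred_eq] at hx
      rcases hp : R.pos n x with _ | ⟨p, z⟩
      · rfl
      · rw [hp] at hx
        simp only [ofState] at hx ⊢
        split_ifs at hx ⊢ <;> simp_all
  rw [e, integral_indicator_const _ (measurableSet_levelSet R n q)] at h
  simp only [integral_const, probReal_univ, one_smul, Finset.sum_ite_eq', Finset.mem_range, if_pos hq, mul_one,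
    Complex.real_smul] at h
  exact_mod_cast h

theorem sum_md_le_level (n q : ℕ) (hq : q < Ch.h n) {ι : Type*} [Fintype ι] (v : ι → Fin (Ch.D n) → ℤ)
    (hv : Function.Injective v) (g : HR R) :
    ∑ i, ‖⟪md R n q (v i), g⟫_ℂ‖ ^ 2 ≤ ∫ x in levelSet R n q, ‖g x‖ ^ 2 ∂(R.μ) := by
  have hm' := (Lp.memLp g).indicator (measurableSet_levelSet R n q)
  have hon : Orthonormal ℂ fun i => md R n q (v i) :=
    orthonormal_md R n (fun _ => q) v (fun _ => hq) fun a b h => hv (congrArg Prod.snd h)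
  have h := hon.sum_inner_products_le (hm'.toLp _) (s := Finset.univ)
  have heq : ∀ i, ⟪md R n q (v i), hm'.toLp _⟫_ℂ = ⟪md R n q (v i), g⟫_ℂ := by
    intro i
    rw [L2.inner_def, L2.inner_def]
    refine integral_congr_ae ?_
    filter_upwards [hm'.coeFn_toLp, Lp.coeFn_smul ((1 / Real.sqrt (R.wt n) : ℝ) : ℂ) (emb R n (mode1 q (v i))),
      coeFn_emb R n (nice_mode1 q (v i))] with x h1 h2 h3
    rw [h1]
    by_cases hx : x ∈ levelSet R n q
    · rw [Set.indicator_of_mem hx]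
    · have hz : (md R n q (v i) : R.Ω → ℂ) x = 0 := by
        rw [md, h2, Pi.smul_apply, h3]
        simp only [levelSet, mem_ofPred_eq] at hx
        simp only [fn]
        rcases hp : R.pos n x with _ | ⟨p, z⟩
        · simp [ofState]
        · rw [hp] at hx
          simp only [ofState] at hx
          have : p ≠ q := fun e => hx (if_pos e)
          simp [ofState, mode1, this]
      rw [RCLike.inner_apply', RCLike.inner_apply', hz, map_zero, zero_mul, zero_mul]
  simp only [heq] at h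
  refine h.trans (le_of_eq ?_)
  rw [← integral_indicator (measurableSet_levelSet R n q)]
  have h2 := L2.inner_def (𝕜 := ℂ) (hm'.toLp _) (hm'.toLp _)
  rw [inner_self_eq_norm_sq_to_K] at h2
  have h3 : (fun x => ⟪(hm'.toLp _ : R.Ω → ℂ) x, (hm'.toLp _ : R.Ω → ℂ) x⟫_ℂ)
      =ᵐ[R.μ] fun x => (((levelSet R n q).indicator (fun x => ‖g x‖ ^ 2) x : ℝ) : ℂ) := by
    filter_upwards [hm'.coeFn_toLp] with x h1
    rw [h1, inner_self_eq_norm_sq_to_K]
    by_cases hx : x ∈ levelSet R n q <;> simp [Set.indicator_of_mem, Set.indicator_of_notMem, hx]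
  rw [integral_congr_ae h3, integral_complex_ofReal] at h2
  exact Complex.ofReal_injective (by simpa using h2)

/-- composition with the transformation -/
def VV : HR R →ₗᵢ[ℂ] HR R := Lp.compMeasurePreservingₗᵢ ℂ R.T R.T_mp

theorem coeFn_VV (g : HR R) : VV R g =ᵐ[R.μ] g ∘ R.T := Lp.coeFn_compMeasurePreserving g R.T_mp

theorem VV_md (n q : ℕ) (v : Fin (Ch.D n) → ℤ) (hq : q + 1 < Ch.h n) :
    VV R (md R n (q + 1) v) = md R n q v := by
  rw [md, md, LinearIsometry.map_smul]
  congr 1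
  refine Lp.ext ((coeFn_VV R _).trans ?_)
  refine ((R.T_mp.quasiMeasurePreserving).ae_eq_comp (coeFn_emb R n (nice_mode1 (q + 1) v))).trans
    (EventuallyEq.trans (Eventually.of_forall fun x => ?_) (coeFn_emb R n (nice_mode1 q v)).symm)
  simp only [Function.comp_apply, fn]
  rcases hx : R.pos n x with _ | ⟨p, z⟩
  · rcases hT : R.pos n (R.T x) with _ | ⟨p', z'⟩
    · rfl
    · simp only [ofState, mode1]
      split_ifs with h
      · subst h
        have := R.shift_symm n _ q z' hT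
        rw [MeasurableEquiv.symm_apply_apply, hx] at this
        exact absurd this (by simp)
      · rfl
  · by_cases hp : p + 1 < Ch.h n
    · rw [R.shift n x p z hx hp]
      simp [ofState, mode1]
    · have hlt := R.pos_lt n x p z hx
      rcases hT : R.pos n (R.T x) with _ | ⟨p', z'⟩
      · simp only [ofState, mode1]
        rw [if_neg (by omega)]
      · simp only [ofState, mode1]
        split_ifs with h1 h2
        · omega
        · subst h1
          have := R.shift_symm n _ q z' hT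
          rw [MeasurableEquiv.symm_apply_apply, hx] at this
          simp only [Option.some.injEq, Prod.mk.injEq] at this
          omega
        · omega
        · rfl

end

end Vale.Agent.P130.Full
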