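import Vale.Agent.P130.Sol.Boxes

/-! Integer directions adapted to a finite set of pairwise independent frequency vectors. -/

namespace Vale.Agent.P130.Full

open Filter Topology
open Vale.Agent.P130.Sol

noncomputable section

variable {ι : Type*} [Fintype ι]

/-- pairing of integer vectors -/
def dot (v w : ι → ℤ) : ℤ := ∑ i, v i * w i

theorem dot_smul_left (a : ℤ) (v w : ι → ℤ) : dot (a • v) w = a * dot v w := by
  simp [dot, Finset.mul_sum, mul_assoc]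

theorem dot_smul_right (a : ℤ) (v w : ι → ℤ) : dot v (a • w) = a * dot v w := by
  simp [dot, Finset.mul_sum, mul_left_comm]

theorem dot_sub_left (u v w : ι → ℤ) : dot (u - v) w = dot u w - dot v w := by
  simp [dot, sub_mul, Finset.sum_sub_distrib]

theorem dot_sub_right (u v w : ι → ℤ) : dot u (v - w) = dot u v - dot u w := by
  simp [dot, mul_sub, Finset.sum_sub_distrib]

theorem dot_add_right (u v w : ι → ℤ) : dot u (v + w) = dot u v + dot u w := by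
  simp [dot, mul_add, Finset.sum_add_distrib]

theorem dot_neg_left (v w : ι → ℤ) : dot (-v) w = -dot v w := by simp [dot]

/-- independence of two vectors -/
def Indep (x y : ι → ℤ) : Prop := ∀ a b : ℤ, a • x = b • y → a = 0 ∧ b = 0

theorem exists_avoid (S : Finset (ι → ℤ)) (hS : ∀ v ∈ S, v ≠ 0) : ∃ u : ι → ℤ, ∀ v ∈ S, dot v u ≠ 0 := by
  classical
  set idx := Fintype.equivFin ι
  set poly : (ι → ℤ) → Polynomial ℤ := fun v => ∑ i, Polynomial.monomial (idx i : ℕ) (v i)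
  have hne : ∀ v ∈ S, poly v ≠ 0 := by
    intro v hv h
    apply hS v hv
    funext i
    have h1 := congrArg (fun p => Polynomial.coeff p (idx i : ℕ)) h
    simp only [poly, Polynomial.finsetSum_coeff, Polynomial.coeff_monomial, Polynomial.coeff_zero] at h1
    rw [Finset.sum_eq_single i (fun j _ hj => if_neg fun e => hj (idx.injective (Fin.ext e))) (by simp),
      if_pos rfl] at h1
    exact h1
  obtain ⟨t, ht⟩ := Infinite.exists_notMem_finset (S.biUnion fun v => (poly v).roots.toFinset)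
  refine ⟨fun i => t ^ (idx i : ℕ), fun v hv h => ht ?_⟩
  refine Finset.mem_biUnion.2 ⟨v, hv, ?_⟩
  rw [Multiset.mem_toFinset, Polynomial.mem_roots (hne v hv), Polynomial.IsRoot.def]
  simpa [poly, Polynomial.eval_finsetSum, dot] using h

theorem exists_dirs (P : Finset (ι → ℤ)) (h0 : ∀ x ∈ P, x ≠ 0)
    (hI : ∀ x ∈ P, ∀ y ∈ P, x ≠ y → Indep x y) :
    ∃ (e : ι → ℤ) (p : (ι → ℤ) → (ι → ℤ)), ∀ x ∈ P, dot x e ≠ 0 ∧ dot x (p x) = 0 ∧
      ∀ y ∈ P, y ≠ x → dot y (p x) ≠ 0 := by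
  classical
  obtain ⟨e, he⟩ := exists_avoid P h0
  set S := ((P ×ˢ P).filter fun q => q.1 ≠ q.2).image fun q => dot q.1 e • q.2 - dot q.2 e • q.1 with hS
  have hS0 : ∀ v ∈ S, v ≠ 0 := by
    intro v hv
    obtain ⟨⟨x, y⟩, hq, rfl⟩ := Finset.mem_image.1 hv
    rw [Finset.mem_filter, Finset.mem_product] at hq
    intro h
    exact he x hq.1.1 ((hI y hq.1.2 x hq.1.1 (Ne.symm hq.2) _ _ (sub_eq_zero.1 h)).1)
  obtain ⟨u, hu⟩ := exists_avoid S hS0
  refine ⟨e, fun x => dot x e • u - dot x u • e, fun x hx => ⟨he x hx, ?_, fun y hy hne => ?_⟩⟩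
  · simp only [dot_sub_right, dot_smul_right]; ring
  · have h := hu (dot x e • y - dot y e • x) (Finset.mem_image.2
      ⟨(x, y), Finset.mem_filter.2 ⟨Finset.mem_product.2 ⟨hx, hy⟩, Ne.symm hne⟩, rfl⟩)
    simp only [dot_sub_left, dot_sub_right, dot_smul_left, dot_smul_right] at h ⊢
    intro hz
    exact h (by linear_combination hz)

theorem exists_separating (P : Finset (ι → ℤ)) (h0 : ∀ x ∈ P, x ≠ 0)
    (hI : ∀ x ∈ P, ∀ y ∈ P, x ≠ y → Indep x y) :
    ∃ (w : ι → ℤ) (π : P → ℕ), (∀ x, (π x).Prime) ∧ (∀ x, π x ≠ 2) ∧ Function.Injective π ∧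
      (∀ x : P, dot x.1 w ≠ 0) ∧
      ∀ x y : P, (dot y.1 w).natAbs.factorization (π x) = if x = y then 1 else 0 := by
  classical
  obtain ⟨e, p, hp⟩ := exists_dirs P h0 hI
  set idx := Fintype.equivFin P
  set Bd := (∑ q ∈ P ×ˢ P, ((dot q.2 (p q.1)).natAbs + (dot q.1 e).natAbs)) + 2 with hBd
  set π : P → ℕ := fun x => pr (Bd + idx x) with hπ
  have hbig : ∀ x, Bd < π x := fun x => by
    have h1 : Bd + idx x + 2 ≤ π x := Nat.add_two_le_nth_prime (Bd + idx x)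
    omega
  have hinj : Function.Injective π := fun a b h => idx.injective (Fin.ext (by
    have := pr_inj h; omega))
  have hb : ∀ x ∈ P, ∀ y ∈ P, (dot y (p x)).natAbs < Bd ∧ (dot x e).natAbs < Bd := fun x hx y hy => by
    have h := Finset.single_le_sum (f := fun q : (ι → ℤ) × (ι → ℤ) => (dot q.2 (p q.1)).natAbs + (dot q.1 e).natAbs)
      (fun q _ => Nat.zero_le _) (Finset.mk_mem_product hx hy)
    simp only [hBd]
    simp only at h
    omega
  have hco : Set.Pairwise ((Finset.univ : Finset P) : Set P) (Function.onFun Nat.Coprime fun x => π x ^ 2) :=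
    fun a _ b _ hab => Nat.Coprime.pow 2 2 ((Nat.coprime_primes (pr_prime _) (pr_prime _)).2 fun h => hab (hinj h))
  set w : ι → ℤ := fun i => ((Nat.chineseRemainderOfFinset
    (fun x : P => ((p x.1 i + (π x : ℤ) * e i) % ((π x ^ 2 : ℕ) : ℤ)).toNat) (fun x => π x ^ 2) Finset.univ
    (fun x _ => pow_ne_zero _ (pr_prime _).ne_zero) hco : ℕ) : ℤ) with hw
  have hwd : ∀ (x : P) i, ((π x ^ 2 : ℕ) : ℤ) ∣ w i - (p x.1 i + (π x : ℤ) * e i) := by
    intro x i
    have h := (Nat.chineseRemainderOfFinset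
      (fun x : P => ((p x.1 i + (π x : ℤ) * e i) % ((π x ^ 2 : ℕ) : ℤ)).toNat) (fun x => π x ^ 2) Finset.univ
      (fun x _ => pow_ne_zero _ (pr_prime _).ne_zero) hco).2 x (Finset.mem_univ _)
    have h1 := Int.natCast_modEq_iff.2 h
    have hm : (0:ℤ) ≤ (p x.1 i + (π x : ℤ) * e i) % ((π x ^ 2 : ℕ) : ℤ) :=
      Int.emod_nonneg _ (by exact_mod_cast pow_ne_zero _ (pr_prime _).ne_zero)
    rw [Int.toNat_of_nonneg hm] at h1
    have h2 : w i ≡ p x.1 i + (π x : ℤ) * e i [ZMOD ((π x ^ 2 : ℕ) : ℤ)] := h1.trans (Int.mod_modEq _ _)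
    exact Int.modEq_iff_dvd.1 h2.symm
  have hdot : ∀ x y : P, ((π x ^ 2 : ℕ) : ℤ) ∣ dot y.1 w - (dot y.1 (p x.1) + (π x : ℤ) * dot y.1 e) := by
    intro x y
    rw [← dot_smul_right, ← dot_add_right, ← dot_sub_right]
    exact Finset.dvd_sum fun i _ => (hwd x i).mul_left _
  have hsmall : ∀ (x : P) (z : ℤ), z ≠ 0 → z.natAbs < Bd → ¬ (π x : ℤ) ∣ z := fun x z hz hlt h => by
    have h1 := Nat.le_of_dvd (Int.natAbs_pos.2 hz) (Int.natCast_dvd.1 h)
    have := hbig x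
    omega
  have hne : ∀ x y : P, x ≠ y → ¬ (π x : ℤ) ∣ dot y.1 w := by
    intro x y hxy h
    obtain ⟨c, hc⟩ := hdot x y
    refine hsmall x _ ((hp _ x.2).2.2 _ y.2 fun h' => hxy (Subtype.ext h'.symm)) (hb _ x.2 _ y.2).1 ?_
    obtain ⟨d, hd⟩ := h
    exact ⟨d - (π x : ℤ) * c - dot y.1 e, by push_cast at hc; linear_combination (-1:ℤ) * hc + hd⟩
  have heq : ∀ x : P, (π x : ℤ) ∣ dot x.1 w ∧ ¬ ((π x ^ 2 : ℕ) : ℤ) ∣ dot x.1 w := by
    intro x
    obtain ⟨c, hc⟩ := hdot x x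
    rw [(hp _ x.2).2.1] at hc
    push_cast at hc
    refine ⟨⟨(π x : ℤ) * c + dot x.1 e, by linear_combination hc⟩, fun ⟨d, hd⟩ => ?_⟩
    push_cast at hd
    refine hsmall x _ (hp _ x.2).1 (hb _ x.2 _ x.2).2 ⟨d - c, ?_⟩
    refine mul_left_cancel₀ (show (π x : ℤ) ≠ 0 by exact_mod_cast (pr_prime _).ne_zero) ?_
    linear_combination hd - hc
  have hnz : ∀ x : P, dot x.1 w ≠ 0 := fun x h => (heq x).2 (h ▸ dvd_zero _)
  refine ⟨w, π, fun x => pr_prime _, fun x => ?_, hinj, hnz, fun x y => ?_⟩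
  · have := hbig x
    omega
  split_ifs with h
  · subst h
    have hN : (dot x.1 w).natAbs ≠ 0 := Int.natAbs_ne_zero.2 (hnz x)
    refine le_antisymm ?_ ?_
    · by_contra hlt
      exact (heq x).2 (Int.natCast_dvd.2 ((Nat.Prime.pow_dvd_iff_le_factorization (pr_prime _) hN).2 (by simp only [hπ] at hlt ⊢; omega)))
    · refine (Nat.Prime.pow_dvd_iff_le_factorization (pr_prime _) hN).1 ?_
      rw [pow_one]
      exact Int.natCast_dvd.1 (heq x).1
  · exact Nat.factorization_eq_zero_of_not_dvd fun hd => hne x y h (Int.natCast_dvd.2 hd)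

theorem exists_equalise (P : Finset (ι → ℤ)) (hne : P.Nonempty) (h0 : ∀ x ∈ P, x ≠ 0)
    (hI : ∀ x ∈ P, ∀ y ∈ P, x ≠ y → Indep x y) (c : (ι → ℤ) → ℝ) (hc : ∀ x ∈ P, 0 < c x)
    (R0 : ℕ) {η : ℝ} (hη : 0 < η) :
    ∃ (w : (ι → ℤ) → (ι → ℤ)) (C : ℝ), 0 < C ∧ (∀ x ∈ P, ∀ y ∈ P, R0 ≤ (dot x (w y)).natAbs) ∧
      ∀ x ∈ P, |(∏ y ∈ P, ((dot x (w y)).natAbs : ℝ)) / (C * c x) - 1| ≤ η := by
  classical
  obtain ⟨e, p, hp⟩ := exists_dirs P h0 hI
  set u : (ι → ℤ) → ℝ := fun x => c x / (|(dot x e : ℝ)| * ∏ z ∈ P.erase x, |(dot x (p z) : ℝ)|) with hu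
  have hprod : ∀ x ∈ P, 0 < ∏ z ∈ P.erase x, |(dot x (p z) : ℝ)| := fun x hx =>
    Finset.prod_pos fun z hz => abs_pos.2 (by
      exact_mod_cast (hp z (Finset.mem_of_mem_erase hz)).2.2 x hx (Ne.symm (Finset.ne_of_mem_erase hz)))
  have hue : ∀ x ∈ P, 0 < |(dot x e : ℝ)| := fun x hx => abs_pos.2 (by exact_mod_cast (hp x hx).1)
  have hu0 : ∀ x ∈ P, 0 < u x := fun x hx => div_pos (hc x hx) (mul_pos (hue x hx) (hprod x hx))
  set w : ℕ → (ι → ℤ) → (ι → ℤ) := fun T y => ((T:ℤ) ^ 2) • p y + (⌊u y * T⌋₊ : ℤ) • e with hw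
  have hdot : ∀ T x y, ((dot x (w T y)).natAbs : ℝ)
      = |(T:ℝ) ^ 2 * (dot x (p y) : ℝ) + (⌊u y * T⌋₊ : ℝ) * (dot x e : ℝ)| := by
    intro T x y
    rw [Nat.cast_natAbs, Int.cast_abs]
    simp only [hw, dot_add_right, dot_smul_right]
    push_cast; rfl
  have hfl : ∀ y ∈ P, Tendsto (fun T : ℕ => (⌊u y * (T:ℝ)⌋₊ : ℝ) / T) atTop (𝓝 (u y)) := fun y hy =>
    (tendsto_nat_floor_mul_div_atTop (hu0 y hy).le).comp tendsto_natCast_atTop_atTop
  have hoff : ∀ x ∈ P, ∀ y ∈ P, Tendsto (fun T : ℕ => ((dot x (w T y)).natAbs : ℝ) / (T:ℝ) ^ 2) atTop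
      (𝓝 |(dot x (p y) : ℝ) + u y * 0 * (dot x e : ℝ)|) := by
    intro x _ y hy
    have h1 : Tendsto (fun T : ℕ => (dot x (p y) : ℝ) + (⌊u y * (T:ℝ)⌋₊ : ℝ) / T * (1 / (T:ℝ)) * (dot x e : ℝ))
        atTop (𝓝 ((dot x (p y) : ℝ) + u y * 0 * (dot x e : ℝ))) :=
      tendsto_const_nhds.add (((hfl y hy).mul tendsto_one_div_atTop_nhds_zero_nat).mul_const _)
    refine h1.abs.congr' ((eventually_ge_atTop 1).mono fun T hT => ?_)
    have hT' : (0:ℝ) < T := by exact_mod_cast hT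
    simp only [hdot]
    rw [eq_div_iff (by positivity), ← abs_of_pos (show (0:ℝ) < (T:ℝ) ^ 2 by positivity), ← abs_mul,
      abs_of_pos (show (0:ℝ) < (T:ℝ) ^ 2 by positivity)]
    congr 1; field_simp
  have hdiag : ∀ x ∈ P, Tendsto (fun T : ℕ => ((dot x (w T x)).natAbs : ℝ) / (T:ℝ)) atTop
      (𝓝 (u x * |(dot x e : ℝ)|)) := by
    intro x hx
    refine ((hfl x hx).mul_const |(dot x e : ℝ)|).congr fun T => ?_
    rw [hdot, (hp x hx).2.1, Int.cast_zero, mul_zero, zero_add, abs_mul, Nat.abs_cast]; ring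
  have hlim : ∀ x ∈ P, Tendsto (fun T : ℕ => (∏ y ∈ P, ((dot x (w T y)).natAbs : ℝ))
      / ((T:ℝ) * ((T:ℝ) ^ 2) ^ (P.card - 1) * c x)) atTop (𝓝 1) := by
    intro x hx
    have h1 : Tendsto (fun T : ℕ => ((dot x (w T x)).natAbs : ℝ) / (T:ℝ)
        * (∏ y ∈ P.erase x, ((dot x (w T y)).natAbs : ℝ) / (T:ℝ) ^ 2) / c x) atTop
        (𝓝 (u x * |(dot x e : ℝ)| * (∏ y ∈ P.erase x, |(dot x (p y) : ℝ)|) / c x)) := by
      refine ((hdiag x hx).mul (tendsto_finsetProd _ fun y hy => ?_)).div_const _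
      simpa using hoff x hx y (Finset.mem_of_mem_erase hy)
    have h2 : u x * |(dot x e : ℝ)| * (∏ y ∈ P.erase x, |(dot x (p y) : ℝ)|) / c x = 1 := by
      have := (hue x hx).ne'; have := (hprod x hx).ne'; have := (hc x hx).ne'
      simp only [hu]; field_simp
    rw [h2] at h1
    refine h1.congr fun T => ?_
    rw [Finset.prod_div_distrib, Finset.prod_const, Finset.card_erase_of_mem hx,
      ← Finset.mul_prod_erase P _ hx]
    ring
  have hbig : ∀ x ∈ P, ∀ y ∈ P, ∀ᶠ T : ℕ in atTop, (R0:ℝ) ≤ ((dot x (w T y)).natAbs : ℝ) := by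
    intro x hx y hy
    by_cases h : x = y
    · subst h
      refine (Tendsto.congr' ?_ ((hdiag x hx).pos_mul_atTop (mul_pos (hu0 x hx) (hue x hx))
        tendsto_natCast_atTop_atTop)).eventually_ge_atTop _
      filter_upwards [eventually_ge_atTop 1] with T hT
      exact div_mul_cancel₀ _ (by exact_mod_cast (by omega : T ≠ 0))
    · have hpos : 0 < |(dot x (p y) : ℝ) + u y * 0 * (dot x e : ℝ)| := by
        simpa using (hp y hy).2.2 x hx h
      refine (Tendsto.congr' ?_ ((hoff x hx y hy).pos_mul_atTop hpos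
        ((tendsto_pow_atTop two_ne_zero).comp tendsto_natCast_atTop_atTop))).eventually_ge_atTop _
      filter_upwards [eventually_ge_atTop 1] with T hT
      exact div_mul_cancel₀ _ (pow_ne_zero 2 (by exact_mod_cast (by omega : T ≠ 0)))
  have hev : ∀ x ∈ P, ∀ᶠ T : ℕ in atTop, |(∏ y ∈ P, ((dot x (w T y)).natAbs : ℝ))
      / ((T:ℝ) * ((T:ℝ) ^ 2) ^ (P.card - 1) * c x) - 1| ≤ η := fun x hx => by
    have h := ((hlim x hx).sub_const 1).abs
    rw [sub_self, abs_zero] at h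
    exact h.eventually (ge_mem_nhds hη)
  obtain ⟨T, ⟨⟨h1, h2⟩, hT⟩⟩ := (((((Finset.eventually_all P).2 fun x hx => (Finset.eventually_all P).2 (hbig x hx))).and
    ((Finset.eventually_all P).2 hev)).and (eventually_ge_atTop 1)).exists
  exact ⟨w T, (T:ℝ) * ((T:ℝ) ^ 2) ^ (P.card - 1), by positivity,
    fun x hx y hy => by exact_mod_cast h1 x hx y hy, h2⟩

end

end Vale.Agent.P130.Full
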