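import Vale.Agent.P130.Sol.Colour

/-! An almost equivariant colouring of the circle, for an abstract finite set of multipliers. -/

namespace Vale.Agent.P130.Full

open MeasureTheory Filter Topology Set
open Vale.Agent.P130 Vale.Agent.P130.Sol
open scoped ENNReal

noncomputable section

/-- signed smooth multipliers indexed by `X`, with a class map separating them -/
structure Tiling (X : Type) where
  d : ℕ
  B : ℕ
  m : X → Bool × (Fin d → ℕ)
  hB : ∀ x i, (m x).2 i ≤ B
  cls : ℤ → X
  unit : ℤ → Prop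
  hcls : ∀ x n, n ≠ 0 → (cls (n * zval (m x)) = x ↔ unit n)

/-- the multiplier -/
def Tiling.mult {X : Type} (S : Tiling X) (x : X) : ℤ := zval (S.m x)

theorem Tiling.mult_ne_zero {X : Type} (S : Tiling X) (x : X) : S.mult x ≠ 0 := zval_ne_zero _

theorem card_sdiff_le {X : Type} (S : Tiling X) {R : ℕ} (x : X) :
    ((Lam S.d R) \ (Lam S.d R).image (· * (S.mult x))).card * R ≤ S.d * (S.B + 1) * (Lam S.d R).card := by
  classical
  set B := S.B + 1
  set bad : Fin S.d → Finset (Fin S.d → Fin R) := fun i =>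
    Finset.univ.filter fun a => ((a i : Fin R) : ℕ) < B
  have hsub : (Lam S.d R) \ (Lam S.d R).image (· * (S.mult x)) ⊆
      ((Finset.univ : Finset Bool) ×ˢ (Finset.univ.biUnion bad)).image
        fun z => zval (z.1, fun i => (z.2 i : ℕ)) := by
    intro n hn
    rw [Finset.mem_sdiff] at hn
    obtain ⟨z, -, rfl⟩ := Finset.mem_image.1 hn.1
    refine Finset.mem_image.2 ⟨z, Finset.mem_product.2 ⟨Finset.mem_univ _, ?_⟩, rfl⟩
    by_contra hne
    simp only [Finset.mem_biUnion, Finset.mem_univ, true_and, bad, Finset.mem_filter, not_exists, not_lt] at hne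
    apply hn.2
    have hb : ∀ i, (S.m x).2 i ≤ B := fun i => (S.hB x i).trans (Nat.le_succ _)
    refine Finset.mem_image.2 ⟨zval (xor z.1 (S.m x).1, fun i => (z.2 i : ℕ) - ((S.m x).2 i)), ?_, ?_⟩
    · refine Finset.mem_image.2 ⟨(xor z.1 (S.m x).1, fun i => ⟨(z.2 i : ℕ) - ((S.m x).2 i),
        lt_of_le_of_lt (Nat.sub_le _ _) (z.2 i).isLt⟩), Finset.mem_univ _, rfl⟩
    · rw [Tiling.mult, ← Prod.mk.eta (p := S.m x), zval_mul]
      congr 1
      refine Prod.ext (by simp) (funext fun i => ?_)
      simp only [Pi.add_apply]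
      have := hne i
      have := hb i
      omega
  have hbad : ∀ i, (bad i).card * R ≤ B * R ^ S.d := by
    intro i
    have he : bad i = Fintype.piFinset (fun j => if j = i then Finset.univ.filter (fun r : Fin R => (r:ℕ) < B) else Finset.univ) := by
      ext a
      simp only [bad, Finset.mem_filter, Finset.mem_univ, true_and, Fintype.mem_piFinset]
      constructor
      · intro h j; split_ifs with hj
        · subst hj; simp [h]
        · simp
      · intro h; have := h i; simpa using this
    have hfil : (Finset.univ.filter (fun r : Fin R => (r:ℕ) < B)).card ≤ B := by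
      refine (Finset.card_le_card_of_injOn (fun r : Fin R => (r:ℕ)) (t := Finset.range B) ?_ ?_).trans (by simp)
      · intro r hr; simp at hr ⊢; exact hr
      · intro a _ b _ h; exact Fin.ext h
    rw [he, Fintype.card_piFinset, ← Finset.mul_prod_erase _ _ (Finset.mem_univ i), if_pos rfl,
      Finset.prod_congr rfl (fun j hj => by rw [if_neg (Finset.ne_of_mem_erase hj)] :
        ∀ j ∈ Finset.univ.erase i, _ = (Finset.univ : Finset (Fin R)).card)]
    simp only [Finset.prod_const, Finset.card_univ, Fintype.card_fin, Finset.card_erase_of_mem (Finset.mem_univ i)]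
    have hd : 0 < S.d := Fin.pos i
    calc (Finset.univ.filter (fun r : Fin R => (r:ℕ) < B)).card * R ^ (S.d - 1) * R
        ≤ B * R ^ (S.d - 1) * R := by gcongr
    _ = B * R ^ S.d := by rw [mul_assoc, ← pow_succ, Nat.sub_add_cancel hd]
  calc ((Lam S.d R) \ (Lam S.d R).image (· * (S.mult x))).card * R
      ≤ (2 * ∑ i, (bad i).card) * R := by
        refine Nat.mul_le_mul_right _ ((Finset.card_le_card hsub).trans (Finset.card_image_le.trans ?_))
        rw [Finset.card_product]
        exact Nat.mul_le_mul (le_of_eq (by simp)) Finset.card_biUnion_le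
  _ = 2 * ∑ i, (bad i).card * R := by rw [mul_assoc, Finset.sum_mul]
  _ ≤ 2 * ∑ _i : Fin S.d, B * R ^ S.d := Nat.mul_le_mul_left _ (Finset.sum_le_sum fun i _ => hbad i)
  _ = S.d * B * (Lam S.d R).card := by rw [card_Lam]; simp; ring

attribute [local irreducible] cidx rep

/-- the colour of a point -/
def colour {X : Type} (S : Tiling X) (R D : ℕ) (hD : 0 < D) (σ : Equiv.Perm (Fin D)) (y : UnitAddCircle) : X :=
  S.cls (amin (Lam S.d R) fun n => keyOf D hD σ n y)

attribute [local instance] Classical.propDecidable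

/-- deviation from exact equivariance -/
def defect {X : Type} (S : Tiling X) (R D : ℕ) (hD : 0 < D) (x : X) (σ : Equiv.Perm (Fin D)) (y : UnitAddCircle) : ℝ :=
  |ind (colour S R D hD σ y = x)
    - ind (S.unit (amin (Lam S.d R) fun n => keyOf D hD σ n ((S.mult x) • y)))|

theorem measurable_amin_key (Λ : Finset ℤ) (D : ℕ) (hD : 0 < D) (σ : Equiv.Perm (Fin D)) (k : ℤ) :
    Measurable fun y : UnitAddCircle => amin Λ fun n => keyOf D hD σ n (k • y) := by
  have h1 : Measurable fun y : UnitAddCircle => fun i : {i : ℤ // i ∈ Λ} => cidx D ((i:ℤ) • k • y) :=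
    measurable_pi_lambda _ fun i => (measurable_cidx D).comp
      ((continuous_zsmul (i:ℤ)).comp (continuous_zsmul k)).measurable
  let Fn : ({i : ℤ // i ∈ Λ} → ℕ) → ℤ := fun v => amin Λ fun n =>
    if h : n ∈ Λ then σ ⟨v ⟨n, h⟩ % D, Nat.mod_lt _ hD⟩ else ⟨0, hD⟩
  have h2 : Measurable Fn := measurable_of_countable Fn
  have h3 : (fun y : UnitAddCircle => amin Λ fun n => keyOf D hD σ n (k • y))
      = fun y => Fn fun i => cidx D ((i:ℤ) • k • y) := by
    funext y
    refine amin_congr Λ fun n hn => ?_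
    rw [dif_pos hn]; rfl
  rw [h3]
  exact h2.comp h1

theorem measurable_colour {X : Type} [MeasurableSpace X] [DiscreteMeasurableSpace X] (S : Tiling X) (R D : ℕ) (hD : 0 < D) (σ : Equiv.Perm (Fin D)) :
    Measurable (colour S R D hD σ) := by
  have h := (measurable_from_top (f := S.cls)).comp (measurable_amin_key (Lam S.d R) D hD σ 1)
  unfold colour
  simpa [Function.comp_def, one_zsmul] using h

theorem defect_le_one {X : Type} (S : Tiling X) (R D : ℕ) (hD : 0 < D) (x : X) (σ : Equiv.Perm (Fin D)) (y : UnitAddCircle) :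
    defect S R D hD x σ y ≤ 1 :=
  abs_sub_le_iff.2 ⟨(sub_le_self _ (ind_nonneg _)).trans (ind_le_one _),
    (sub_le_self _ (ind_nonneg _)).trans (ind_le_one _)⟩

theorem integrable_defect {X : Type} [MeasurableSpace X] [DiscreteMeasurableSpace X] (S : Tiling X) (R D : ℕ) (hD : 0 < D) (x : X) (σ : Equiv.Perm (Fin D)) :
    Integrable (defect S R D hD x σ) hm := by
  refine Integrable.of_bound (Measurable.aestronglyMeasurable ?_) 1 (Eventually.of_forall fun y => ?_)
  · unfold defect ind
    refine Measurable.abs (Measurable.sub ?_ ?_)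
    · exact Measurable.ite (measurable_colour S R D hD σ (measurableSet_singleton x)) measurable_const
        measurable_const
    · exact Measurable.ite (measurable_amin_key (Lam S.d R) D hD σ ((S.mult x))
        (MeasurableSet.of_discrete (s := {n : ℤ | S.unit n}))) measurable_const measurable_const
  · rw [Real.norm_eq_abs, abs_of_nonneg (show 0 ≤ defect S R D hD x σ y from abs_nonneg _)]
    exact defect_le_one ..

theorem sum_defect_le {X : Type} (S : Tiling X) (R D : ℕ) (hR : 0 < R) (hD : 0 < D) (x : X) (y : UnitAddCircle)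
    (hinj : Set.InjOn (fun n : ℤ => cidx D (n • y))
      ((Lam S.d R ∪ (Lam S.d R).image (· * (S.mult x)) : Finset ℤ) : Set ℤ)) :
    (∑ σ : Equiv.Perm (Fin D), defect S R D hD x σ y) * R
      ≤ (2 * S.d * (S.B + 1) : ℕ) * (Fintype.card (Equiv.Perm (Fin D)) : ℝ) := by
  set Λ := Lam S.d R
  set Λ' := Λ.image (· * (S.mult x))
  set U := Λ ∪ Λ'
  set W := (Λ \ Λ') ∪ (Λ' \ Λ)
  set c : ℤ → Fin D := fun n => ⟨cidx D (n • y) % D, Nat.mod_lt _ hD⟩
  have hc : Set.InjOn c (U : Set ℤ) := by
    intro a ha b hb h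
    refine hinj ha hb ?_
    have h' := congrArg Fin.val h
    simpa [c, Nat.mod_eq_of_lt (cidx_lt D hD _)] using h'
  have hgood : ∀ σ : Equiv.Perm (Fin D), amin U (fun n => σ (c n)) ∉ W → defect S R D hD x σ y = 0 := by
    intro σ hσ
    have hkey : ∀ n, keyOf D hD σ n y = σ (c n) := fun n => rfl
    have hne : U.Nonempty := by
      refine Finset.Nonempty.mono Finset.subset_union_left ?_
      rw [← Finset.card_pos, card_Lam]; positivity
    have hm' := amin_mem (fun n => σ (c n)) hne
    set u := amin U (fun n => σ (c n)) with hu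
    have h1 : u ∈ Λ ∧ u ∈ Λ' := by
      simp only [U, W, Finset.mem_union, Finset.mem_sdiff] at hm' hσ
      tauto
    have hinjU : Set.InjOn (fun n => σ (c n)) (U : Set ℤ) := σ.injective.comp_injOn hc
    have hcol : colour S R D hD σ y = S.cls u := by
      rw [colour]; congr 1
      exact amin_eq _ (hinjU.mono (Finset.coe_subset.2 Finset.subset_union_left)) h1.1
        fun n hn => amin_le (fun n => σ (c n)) (Finset.mem_union_left _ hn)
    obtain ⟨n0, hn0, hn0'⟩ := Finset.mem_image.1 h1.2
    have hk : ∀ n, keyOf D hD σ n ((S.mult x) • y) = σ (c (n * (S.mult x))) := fun n => by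
      simp only [keyOf, c, mul_zsmul]
    have hsec : (amin Λ fun n => keyOf D hD σ n ((S.mult x) • y)) = n0 := by
      refine amin_eq _ (fun a ha b hb h => ?_) hn0 fun n hn => ?_
      · simp only [hk] at h
        exact mul_right_cancel₀ (zval_ne_zero _)
          (hinjU (Finset.mem_coe.2 (Finset.mem_union_right _ (Finset.mem_image_of_mem _ ha)))
            (Finset.mem_coe.2 (Finset.mem_union_right _ (Finset.mem_image_of_mem _ hb))) h)
      · simp only [hk, hn0']
        exact amin_le (fun n => σ (c n)) (Finset.mem_union_right _ (Finset.mem_image_of_mem _ hn))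
    rw [defect, hcol, hsec, ← hn0']
    have : S.cls (n0 * S.mult x) = x ↔ S.unit n0 := S.hcls x _ (ne_zero_of_mem_Lam hn0)
    rw [show ind (S.cls (n0 * (S.mult x)) = x) = ind (S.unit n0) by simp only [ind, this], sub_self, abs_zero]
  have hcount := card_min_mem (W := W) (U := U) (by
    intro n hn
    simp only [W, U, Finset.mem_union, Finset.mem_sdiff] at hn ⊢
    tauto) c hc
  set F := (Finset.univ : Finset (Equiv.Perm (Fin D))).filter fun σ => amin U (fun n => σ (c n)) ∈ W
  have hsum : ∑ σ : Equiv.Perm (Fin D), defect S R D hD x σ y ≤ (F.card : ℝ) := by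
    rw [← Finset.sum_subset (Finset.subset_univ F) fun σ _ hσ => hgood σ fun h =>
      hσ (Finset.mem_filter.2 ⟨Finset.mem_univ _, h⟩)]
    refine (Finset.sum_le_card_nsmul _ _ 1 fun σ _ => defect_le_one ..).trans_eq (by simp)
  have hΛ' : Λ'.card = Λ.card := Finset.card_image_of_injective _ (mul_left_injective₀ (zval_ne_zero _))
  have hW : W.card * R ≤ 2 * (S.d * (S.B + 1) * Λ.card) := by
    have h1 := card_sdiff_le S (R := R) x
    have h2 : (Λ' \ Λ).card = (Λ \ Λ').card := Finset.card_sdiff_comm hΛ'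
    have h3 := Finset.card_union_le (Λ \ Λ') (Λ' \ Λ)
    calc W.card * R ≤ ((Λ \ Λ').card + (Λ' \ Λ).card) * R := Nat.mul_le_mul_right _ h3
    _ = 2 * ((Λ \ Λ').card * R) := by rw [h2]; ring
    _ ≤ _ := Nat.mul_le_mul_left _ h1
  have hUpos : 0 < U.card := by
    refine lt_of_lt_of_le ?_ (Finset.card_le_card Finset.subset_union_left)
    rw [card_Lam]; positivity
  have hfin : F.card * R ≤ 2 * S.d * (S.B + 1) * Fintype.card (Equiv.Perm (Fin D)) := by
    refine Nat.le_of_mul_le_mul_right ?_ hUpos
    calc F.card * R * U.card = (F.card * U.card) * R := by ring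
    _ = W.card * R * Fintype.card (Equiv.Perm (Fin D)) := by rw [hcount]; ring
    _ ≤ 2 * (S.d * (S.B + 1) * Λ.card) * Fintype.card (Equiv.Perm (Fin D)) := Nat.mul_le_mul_right _ hW
    _ ≤ 2 * (S.d * (S.B + 1) * U.card) * Fintype.card (Equiv.Perm (Fin D)) := by
        gcongr; exact Finset.subset_union_left
    _ = _ := by ring
  calc (∑ σ : Equiv.Perm (Fin D), defect S R D hD x σ y) * R ≤ (F.card : ℝ) * R := by gcongr
  _ ≤ _ := by exact_mod_cast hfin

theorem exists_perm {X : Type} [Fintype X] [MeasurableSpace X] [DiscreteMeasurableSpace X] (S : Tiling X) (η : ℝ) (hη : 0 < η) :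
    ∃ (R D : ℕ) (hD : 0 < D) (σ : Equiv.Perm (Fin D)), 0 < R ∧
      ∀ x : X, ∫ y, defect S R D hD x σ y ∂hm ≤ η := by
  set K := Fintype.card (X)
  obtain ⟨R, hR⟩ := exists_nat_gt (2 * ((2 * S.d * (S.B + 1) : ℕ) : ℝ) * K / η)
  have hR0 : 0 < R := by
    rcases Nat.eq_zero_or_pos R with rfl | h
    · rw [Nat.cast_zero] at hR
      exact absurd hR (not_lt.2 (by positivity))
    · exact h
  set m := 2 * (2 * R ^ S.d)
  obtain ⟨D, hD⟩ := exists_nat_gt (4 * ((m * m : ℕ) : ℝ) * K / η)
  have hD0 : 0 < D := by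
    rcases Nat.eq_zero_or_pos D with rfl | h
    · rw [Nat.cast_zero] at hD
      exact absurd hD (not_lt.2 (by positivity))
    · exact h
  set N : ℝ := (Fintype.card (Equiv.Perm (Fin D)) : ℝ)
  have hN : 0 < N := Nat.cast_pos.2 Fintype.card_pos
  have hD' : (0:ℝ) < D := by exact_mod_cast hD0
  have hR' : (0:ℝ) < R := by exact_mod_cast hR0
  have hper : ∀ x : X, ∑ σ : Equiv.Perm (Fin D), ∫ y, defect S R D hD0 x σ y ∂hm ≤ N * (η / K) := by
    intro x
    set U := Lam S.d R ∪ (Lam S.d R).image (· * (S.mult x))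
    set pairs := (U ×ˢ U).filter fun p => p.1 ≠ p.2
    set col : UnitAddCircle → ℝ := fun y => ∑ p ∈ pairs,
      {z : UnitAddCircle | cidx D (p.1 • z) = cidx D (p.2 • z)}.indicator (fun _ => (1:ℝ)) y
    have hmeas : ∀ p : ℤ × ℤ, MeasurableSet {z : UnitAddCircle | cidx D (p.1 • z) = cidx D (p.2 • z)} := fun p =>
      measurableSet_eq_fun ((measurable_cidx D).comp (continuous_zsmul p.1).measurable)
        ((measurable_cidx D).comp (continuous_zsmul p.2).measurable)
    have hcoli : Integrable col hm := integrable_finsetSum _ fun p _ => (integrable_const 1).indicator (hmeas p)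
    have hpt : ∀ y, ∑ σ : Equiv.Perm (Fin D), defect S R D hD0 x σ y
        ≤ N * ((2 * S.d * (S.B + 1) : ℕ) / R + col y) := by
      intro y
      have hc0 : 0 ≤ col y := Finset.sum_nonneg fun p _ => Set.indicator_nonneg (fun _ _ => zero_le_one) _
      by_cases hinj : Set.InjOn (fun n : ℤ => cidx D (n • y)) (U : Set ℤ)
      · have h := sum_defect_le S R D hR0 hD0 x y hinj
        rw [← le_div_iff₀ hR'] at h
        calc _ ≤ _ := h
        _ = N * ((2 * S.d * (S.B + 1) : ℕ) / R) := by ring
        _ ≤ _ := by gcongr; linarith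
      · simp only [Set.InjOn] at hinj
        push Not at hinj
        obtain ⟨a, ha, b, hb, hab, hne⟩ := hinj
        have h1 : 1 ≤ col y := by
          refine le_trans ?_ (Finset.single_le_sum (f := fun p : ℤ × ℤ =>
            {z : UnitAddCircle | cidx D (p.1 • z) = cidx D (p.2 • z)}.indicator (fun _ => (1:ℝ)) y)
            (fun p _ => Set.indicator_nonneg (fun _ _ => zero_le_one) _)
            (Finset.mem_filter.2 ⟨Finset.mem_product.2 ⟨ha, hb⟩, hne⟩ : (a, b) ∈ pairs))
          rw [Set.indicator_of_mem (show y ∈ {z : UnitAddCircle | cidx D ((a, b).1 • z) = cidx D ((a, b).2 • z)} from hab)]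
        refine (Finset.sum_le_card_nsmul _ _ 1 fun σ _ => defect_le_one ..).trans ?_
        rw [nsmul_eq_mul, mul_one, Finset.card_univ]
        have : (0:ℝ) ≤ (2 * S.d * (S.B + 1) : ℕ) / (R:ℝ) := by positivity
        nlinarith
    rw [← integral_finsetSum _ fun σ _ => integrable_defect S R D hD0 x σ]
    refine (integral_mono (integrable_finsetSum _ fun σ _ => integrable_defect S R D hD0 x σ)
      (((integrable_const _).add hcoli).const_mul N) hpt).trans ?_
    rw [integral_const_mul]
    refine mul_le_mul_of_nonneg_left ?_ hN.le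
    simp only [Pi.add_apply]
    rw [integral_add (integrable_const _) hcoli, integral_const, probReal_univ, one_smul]
    have hcolint : ∫ y, col y ∂hm ≤ ((m * m : ℕ) : ℝ) * (2 / D) := by
      rw [integral_finsetSum _ fun p _ => (integrable_const 1).indicator (hmeas p)]
      refine (Finset.sum_le_card_nsmul _ _ (2 / (D:ℝ)) fun p hp => ?_).trans ?_
      · rw [integral_indicator_const _ (hmeas p), smul_eq_mul, mul_one]
        exact measure_collide_le D hD0 _ _ (Finset.mem_filter.1 hp).2
      · rw [nsmul_eq_mul]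
        gcongr
        refine (Finset.card_filter_le _ _).trans ?_
        rw [Finset.card_product]
        have hU : U.card ≤ m := by
          refine (Finset.card_union_le _ _).trans ?_
          have := Finset.card_image_le (s := Lam S.d R) (f := (· * (S.mult x)))
          rw [card_Lam] at this ⊢
          omega
        exact Nat.mul_le_mul hU hU
    have hK : (0:ℝ) < K := by exact_mod_cast Fintype.card_pos_iff.2 ⟨x⟩
    have e1 : ((2 * S.d * (S.B + 1) : ℕ) : ℝ) / R ≤ η / K / 2 := by
      rw [div_le_iff₀ hR']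
      have := hR.le
      rw [div_le_iff₀ hη] at this
      field_simp
      nlinarith
    have e2 : ((m * m : ℕ) : ℝ) * (2 / D) ≤ η / K / 2 := by
      rw [mul_div, div_le_iff₀ hD']
      have := hD.le
      rw [div_le_iff₀ hη] at this
      field_simp
      nlinarith
    linarith
  have htot : ∑ σ : Equiv.Perm (Fin D), ∑ x : X, ∫ y, defect S R D hD0 x σ y ∂hm
      ≤ ∑ _σ : Equiv.Perm (Fin D), η := by
    rw [Finset.sum_comm]
    refine (Finset.sum_le_sum fun x _ => hper x).trans_eq ?_
    have : Nonempty X := ⟨S.cls 0⟩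
    have hK : (K:ℝ) ≠ 0 := by exact_mod_cast Fintype.card_ne_zero
    simp only [Finset.sum_const, Finset.card_univ, nsmul_eq_mul]
    field_simp
    ring
  obtain ⟨σ, -, hσ⟩ := Finset.exists_le_of_sum_le Finset.univ_nonempty htot
  exact ⟨R, D, hD0, σ, hR0, fun x => (Finset.single_le_sum
    (f := fun x => ∫ y, defect S R D hD0 x σ y ∂hm) (fun z _ => integral_nonneg fun y => abs_nonneg _)
    (Finset.mem_univ x)).trans hσ⟩

theorem exists_colour {X : Type} [Fintype X] [MeasurableSpace X] [DiscreteMeasurableSpace X] (S : Tiling X) (η : ℝ) (hη : 0 < η) :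
    ∃ (D' G : ℕ) (J : Finset ℕ) (col : UnitAddCircle → X) (Acol : ℕ → X),
      0 < D' ∧ 0 < G ∧ J ⊆ Finset.range D' ∧ Measurable col ∧
      (∀ᵐ y ∂hm, col y = Acol (cidx G y)) ∧
      ∀ x : X, ∫ y, |ind (col y = x) - ind (cidx D' ((S.mult x) • y) ∈ J)| ∂hm ≤ η := by
  obtain ⟨R, D, hD, σ, hR, hσ⟩ := exists_perm S η hη
  set G := D * ∏ n ∈ Lam S.d R, n.natAbs with hG
  have hprod : 0 < ∏ n ∈ Lam S.d R, n.natAbs :=
    Finset.prod_pos fun n hn => Int.natAbs_pos.2 (ne_zero_of_mem_Lam hn)
  have hG0 : 0 < G := Nat.mul_pos hD hprod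
  set gamin : ℕ → ℤ := fun j => amin (Lam S.d R) fun n => σ ⟨cellF G D n j % D, Nat.mod_lt _ hD⟩
  have hae : ∀ᵐ y ∂hm, (amin (Lam S.d R) fun n => keyOf D hD σ n y) = gamin (cidx G y) := by
    filter_upwards [ae_nsmul_ne_zero G hG0] with y hy
    refine amin_congr _ fun n hn => ?_
    have hdvd : D * n.natAbs ∣ G := Nat.mul_dvd_mul_left D (Finset.dvd_prod_of_mem (fun n : ℤ => n.natAbs) hn)
    have hy' : (D * n.natAbs) • y ≠ 0 := by
      intro h; apply hy
      obtain ⟨c, hc⟩ := hdvd
      rw [hc, Nat.mul_comm, mul_smul, h, smul_zero]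
    simp only [keyOf, cellF_eq G D hD hG0 n (ne_zero_of_mem_Lam hn) hdvd y hy']
  refine ⟨G, G, (Finset.range G).filter fun j => S.unit (gamin j), colour S R D hD σ,
    fun j => S.cls (gamin j), hG0, hG0, Finset.filter_subset _ _, measurable_colour .., ?_, fun x => ?_⟩
  · filter_upwards [hae] with y hy
    rw [colour, hy]
  · refine le_of_eq_of_le ?_ (hσ x)
    have hq : ∀ᵐ y ∂hm, (amin (Lam S.d R) fun n => keyOf D hD σ n ((S.mult x) • y))
        = gamin (cidx G ((S.mult x) • y)) :=
      ae_zsmul (p := fun z => (amin (Lam S.d R) fun n => keyOf D hD σ n z) = gamin (cidx G z)) ((S.mult x))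
        (zval_ne_zero _) hae
    refine integral_congr_ae ?_
    filter_upwards [hq] with y hy
    simp only [defect, hy, ind, Finset.mem_filter, Finset.mem_range, cidx_lt G hG0, true_and]

end

end Vale.Agent.P130.Full
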