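import Vale.Agent.P130.Sol.Gauss
import Vale.Agent.P130.Full.Tile
import Vale.Agent.P130.Full.Equal

/-! Colours of the circle and slot phases realising them, for independent frequency vectors. -/

namespace Vale.Agent.P130.Full

open MeasureTheory Filter Topology Set UnitAddTorus
open Vale.Agent.P130 Vale.Agent.P130.Sol
open scoped ENNReal ComplexConjugate

noncomputable section

theorem nval_factorization {d : ℕ} (m : ℕ) (hm0 : m ≠ 0) (hd : ∀ p ∈ m.primeFactors, p < d) :
    nval (fun i : Fin d => m.factorization (pr i)) = m := by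
  classical
  conv_rhs => rw [← Nat.prod_factorization_pow_eq_self hm0]
  rw [nval, ← Finset.prod_image (f := fun p => p ^ m.factorization p) (g := fun i : Fin d => pr i.val)
    (fun a _ b _ h => Fin.ext (pr_inj h)), Finsupp.prod, Nat.support_factorization]
  refine (Finset.prod_subset (fun p hp => ?_) (fun p _ hp => ?_)).symm
  · have hP := Nat.prime_of_mem_primeFactors hp
    refine Finset.mem_image.2 ⟨⟨Nat.count Nat.Prime p, lt_of_le_of_lt (Nat.count_le _) (hd p hp)⟩,
      Finset.mem_univ _, Nat.nth_count hP⟩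
  · rw [← Nat.support_factorization, Finsupp.notMem_support_iff] at hp
    rw [hp, pow_zero]

/-- data of a colour set -/
structure Mults (ι : Type) [Fintype ι] (k : ℕ) where
  vec : Fin k → ι → ℤ
  w : ι → ℤ
  PP : ℕ
  T : Tiling (Fin k)
  hPP : 0 < PP
  kap_mult : ∀ x, dot (vec x) w * T.mult x = PP
  even : ∀ x, 2 ∣ (T.mult x).natAbs

theorem exists_mults {ι : Type} [Fintype ι] (P : Finset (ι → ℤ)) (hne : P.Nonempty) (h0 : ∀ x ∈ P, x ≠ 0)
    (hI : ∀ x ∈ P, ∀ y ∈ P, x ≠ y → Indep x y) :
    ∃ M : Mults ι (2 * P.card), Function.Injective M.vec ∧ ∀ z, (∃ i, M.vec i = z) ↔ z ∈ P ∨ -z ∈ P := by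
  classical
  obtain ⟨w, π, hπp, hπ2, hπi, hw0, hfac⟩ := exists_separating P h0 hI
  haveI : Nonempty P := hne.to_subtype
  haveI : NeZero (Fintype.card P) := ⟨Fintype.card_ne_zero⟩
  set e : P ≃ ZMod (Fintype.card P) := (Fintype.equivFin P).trans (ZMod.finEquiv _).toEquiv
  set κ : P → ℕ := fun q => (dot q.1 w).natAbs
  have hκ : ∀ q, κ q ≠ 0 := fun q => Int.natAbs_ne_zero.2 (hw0 q)
  set mm : P → ℕ := fun q => 2 * ∏ r ∈ Finset.univ.erase q, κ r
  set PP := 2 * ∏ r, κ r with hPP
  have hmm0 : ∀ q, mm q ≠ 0 := fun q => mul_ne_zero two_ne_zero (Finset.prod_ne_zero_iff.2 fun r _ => hκ r)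
  have hPP0 : 0 < PP := Nat.pos_of_ne_zero (mul_ne_zero two_ne_zero (Finset.prod_ne_zero_iff.2 fun r _ => hκ r))
  have hkm : ∀ q, κ q * mm q = PP := fun q => by
    rw [hPP, ← Finset.mul_prod_erase _ κ (Finset.mem_univ q)]; ring
  have hmd : ∀ q, mm q ∣ PP := fun q => ⟨κ q, by rw [← hkm q]; ring⟩
  have hv : ∀ p q : P, (mm q).factorization (π p) = if p = q then 0 else 1 := by
    intro p q
    rw [Nat.factorization_mul two_ne_zero (Finset.prod_ne_zero_iff.2 fun r _ => hκ r), Finsupp.add_apply,
      Nat.Prime.factorization Nat.prime_two, Finsupp.single_apply, if_neg (Ne.symm (hπ2 p)), zero_add,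
      Nat.factorization_prod fun r _ => hκ r, Finset.sum_apply']
    simp only [κ, hfac, Finset.sum_ite_eq, Finset.mem_erase, Finset.mem_univ, and_true]
    split_ifs <;> simp_all
  set d := PP + 1 + ∑ p, π p
  have hdπ : ∀ p, π p < d := fun p => by
    have := Finset.single_le_sum (f := π) (fun i _ => Nat.zero_le _) (Finset.mem_univ p)
    omega
  set tiling : Tiling (Bool × P) :=
    { d := d
      B := PP
      m := fun x => (x.1, fun i => (mm x.2).factorization (pr i))
      hB := fun x i => le_trans (Nat.factorization_lt _ (hmm0 x.2)).le (Nat.le_of_dvd hPP0 (hmd x.2))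
      cls := fun n => (decide (n < 0),
        e.symm ((∑ p, e p) - ∑ p, (n.natAbs.factorization (π p)) • e p))
      unit := fun n => 0 ≤ n ∧ ∑ p, (n.natAbs.factorization (π p)) • e p = 0
      hcls := fun x n hn => by
        obtain ⟨s, q⟩ := x
        set z := zval (s, fun i : Fin d => (mm q).factorization (pr i)) with hz
        have hzabs : z.natAbs = mm q := by
          rw [hz, natAbs_zval]
          refine nval_factorization _ (hmm0 q) fun p hp => ?_
          have := Nat.le_of_dvd hPP0 ((Nat.dvd_of_mem_primeFactors hp).trans (hmd q))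
          omega
        have hz0 : z ≠ 0 := zval_ne_zero _
        have hsum : (∑ p, (n * z).natAbs.factorization (π p) • e p)
            = (∑ p, n.natAbs.factorization (π p) • e p) + ((∑ p, e p) - e q) := by
          have h1 : ∀ p, (n * z).natAbs.factorization (π p) • e p
              = n.natAbs.factorization (π p) • e p + (e p - if p = q then e p else 0) := by
            intro p
            rw [Int.natAbs_mul, Nat.factorization_mul (Int.natAbs_ne_zero.2 hn) (Int.natAbs_ne_zero.2 hz0),
              Finsupp.add_apply, hzabs, hv, add_smul]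
            split_ifs <;> simp
          rw [Finset.sum_congr rfl fun p _ => h1 p, Finset.sum_add_distrib, Finset.sum_sub_distrib,
            Finset.sum_ite_eq' Finset.univ q (fun p => e p), if_pos (Finset.mem_univ q)]
        have hneg := zval_neg_iff (s, fun i : Fin d => (mm q).factorization (pr i))
        rw [← hz] at hneg
        have hsign : decide (n * z < 0) = s ↔ 0 ≤ n := by
          cases s
          · have hp : 0 < z := lt_of_le_of_ne (not_lt.1 fun h => by simpa using hneg.1 h) (Ne.symm hz0)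
            rw [decide_eq_false_iff_not, not_lt]
            exact ⟨fun h => nonneg_of_mul_nonneg_left h hp, fun h => mul_nonneg h hp.le⟩
          · have hp : z < 0 := hneg.2 rfl
            rw [decide_eq_true_eq]
            exact ⟨fun h => by nlinarith, fun h => mul_neg_of_pos_of_neg (lt_of_le_of_ne h (Ne.symm hn)) hp⟩
        simp only [Prod.mk.injEq, hsum, Equiv.symm_apply_eq]
        refine and_congr hsign ⟨fun h => ?_, fun h => ?_⟩
        · linear_combination (exp := 1) -h
        · rw [h]; abel }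
  set vv : Bool × P → (ι → ℤ) := fun x => if decide (dot x.2.1 w < 0) = x.1 then x.2.1 else -x.2.1
  have hcard : Fintype.card (Bool × P) = 2 * P.card := by simp
  set eq : Fin (2 * P.card) ≃ Bool × P := (Fintype.equivFinOfCardEq hcard).symm
  have hkv : ∀ x : Bool × P, dot (vv x) w = sgn x.1 * (κ x.2 : ℤ) := by
    rintro ⟨s, q⟩
    simp only [vv, κ, sgn]
    rcases lt_or_gt_of_ne (hw0 q) with hlt | hlt <;> cases s <;>
      simp [hlt, not_lt.2 hlt.le, dot_neg_left, abs_of_neg, abs_of_pos]
  refine ⟨⟨vv ∘ eq, w, PP,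
    { d := tiling.d
      B := tiling.B
      m := tiling.m ∘ eq
      hB := fun x => tiling.hB (eq x)
      cls := eq.symm ∘ tiling.cls
      unit := tiling.unit
      hcls := fun x n hn => by
        simp only [Function.comp_apply, Equiv.symm_apply_eq]
        exact tiling.hcls (eq x) n hn },
    hPP0, fun x => ?_, fun x => ?_⟩, ?_, fun z => ?_⟩
  · have h := hkv (eq x)
    simp only [Function.comp_apply, Tiling.mult, h, zval, tiling]
    rw [nval_factorization _ (hmm0 _) fun p hp => by
      have := Nat.le_of_dvd hPP0 ((Nat.dvd_of_mem_primeFactors hp).trans (hmd _)); omega]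
    rw [show ∀ a b c : ℤ, a * b * (a * c) = a * a * (b * c) from fun a b c => by ring]
    have : sgn (eq x).1 * sgn (eq x).1 = 1 := by cases (eq x).1 <;> rfl
    rw [this, one_mul]
    exact_mod_cast hkm _
  · simp only [Tiling.mult, natAbs_zval, Function.comp_apply, tiling]
    rw [nval_factorization _ (hmm0 _) fun p hp => by
      have := Nat.le_of_dvd hPP0 ((Nat.dvd_of_mem_primeFactors hp).trans (hmd _)); omega]
    exact dvd_mul_right 2 _
  · show Function.Injective (vv ∘ eq)
    refine Function.Injective.comp ?_ eq.injective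
    rintro ⟨s, p⟩ ⟨t, q⟩ h
    have hpq : p = q := by
      by_contra hne'
      have hi := hI p.1 p.2 q.1 q.2 fun h' => hne' (Subtype.ext h')
      simp only [vv] at h
      split_ifs at h
      · exact absurd (hi 1 1 (by simpa using h)).1 one_ne_zero
      · exact absurd (hi 1 (-1) (by simpa using h)).1 one_ne_zero
      · exact absurd (hi (-1) 1 (by simpa using h)).2 one_ne_zero
      · exact absurd (hi (-1) (-1) (by simpa using h)).1 (by norm_num)
    subst hpq
    have h2 := congrArg (fun v => dot v w) h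
    simp only [hkv] at h2
    have h3 := mul_right_cancel₀ (show (κ p : ℤ) ≠ 0 by exact_mod_cast hκ p) h2
    cases s <;> cases t <;> simp_all [sgn]
  · constructor
    · rintro ⟨i, rfl⟩
      simp only [Function.comp_apply, vv]
      split_ifs
      · exact Or.inl (eq i).2.2
      · exact Or.inr (by rw [neg_neg]; exact (eq i).2.2)
    · intro h
      suffices ∃ x, vv x = z by
        obtain ⟨x, rfl⟩ := this
        exact ⟨eq.symm x, by simp⟩
      rcases h with h | h
      · exact ⟨(decide (dot z w < 0), ⟨z, h⟩), by simp [vv]⟩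
      · refine ⟨(!decide (dot (-z) w < 0), ⟨-z, h⟩), ?_⟩
        simp only [vv]
        rw [if_neg (by cases decide (dot (-z) w < 0) <;> simp), neg_neg]

/-- slot phases -/
def slotPhase {ι : Type} (w : ι → ℤ) (PP : ℕ) (D' Lb : ℕ) (jb : ℕ → ℕ) (s : ℕ) (i : ι) : UnitAddCircle :=
  (((w i : ℝ) * bphase 1 D' Lb (jb (s / Lb)) (s % Lb) / PP : ℝ) : UnitAddCircle)

theorem mFourier_slotPhase {ι : Type} [Fintype ι] {k : ℕ} (M : Mults ι k) (x : Fin k) (D' Lb : ℕ) (jb : ℕ → ℕ)
    (s : ℕ) : mFourier (M.vec x) (slotPhase M.w M.PP D' Lb jb s) = bco (M.T.mult x) D' Lb jb s := by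
  classical
  set b := bphase 1 D' Lb (jb (s / Lb)) (s % Lb) with hb
  have hmv : mFourier (M.vec x) (slotPhase M.w M.PP D' Lb jb s)
      = ∏ i, fourier (M.vec x i) (slotPhase M.w M.PP D' Lb jb s i) := rfl
  have herprod : ∀ (S : Finset ι) (f : ι → ℝ), ∏ i ∈ S, er (f i) = er (∑ i ∈ S, f i) := by
    intro S f
    induction S using Finset.induction with
    | empty => simp [er]
    | insert a S ha ih => rw [Finset.prod_insert ha, Finset.sum_insert ha, ih, er_add]
  rw [hmv]
  simp only [slotPhase, fourier_coe_er, herprod, bco]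
  congr 1
  have hk : ((dot (M.vec x) M.w : ℤ) : ℝ) * ((M.T.mult x : ℤ) : ℝ) = (M.PP : ℝ) := by exact_mod_cast M.kap_mult x
  have hPP : (M.PP : ℝ) ≠ 0 := by exact_mod_cast M.hPP.ne'
  have hm : ((M.T.mult x : ℤ) : ℝ) ≠ 0 := by exact_mod_cast M.T.mult_ne_zero x
  have hsum : (∑ i, (M.vec x i : ℝ) * ((M.w i : ℝ) * b / M.PP)) = ((dot (M.vec x) M.w : ℤ) : ℝ) * b / M.PP := by
    simp only [dot, Int.cast_sum, Int.cast_mul, Finset.sum_mul, Finset.sum_div]
    exact Finset.sum_congr rfl fun i _ => by ring
  rw [← hb, hsum, show bphase (M.T.mult x) D' Lb (jb (s / Lb)) (s % Lb) = b / (M.T.mult x : ℝ) by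
    simp [hb, bphase], eq_div_iff hm, div_mul_eq_mul_div, mul_right_comm, hk, mul_div_cancel_left₀ _ hPP]

theorem block_lower (A : UnitAddCircle → Prop) [DecidablePred A] (n : ℤ) (hn0 : n ≠ 0) (heven : 2 ∣ n.natAbs)
    (D' Lb : ℕ) (J : Finset ℕ) (jb : ℕ → ℕ) (hD' : 0 < D') (hLpos : 0 < Lb) (hJpos : 0 < J.card)
    (hjblt : ∀ b < J.card, jb b < D') (hjbinj : Set.InjOn jb (Set.Iio J.card))
    (himg : (Finset.range J.card).image jb = J) {p et : ℝ} (hp : p = (J.card : ℝ) / D')
    (hintJ : ∫ y, ind (cidx D' (n • y) ∈ J) ∂hm = p)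
    (hmI : Integrable (fun y => ind (A y)) hm) (hmJ : Integrable (fun y => ind (cidx D' (n • y) ∈ J)) hm)
    (hbound : ∫ y, |ind (A y) - ind (cidx D' (n • y) ∈ J)| ∂hm ≤ et)
    (hedev : (J.card * n.natAbs : ℕ) * (1 / Real.sqrt n.natAbs) * edev (n.natAbs / 2 * D') Lb ≤ et)
    (S : UnitAddCircle → ℝ)
    (hS : S = fun y => ‖SN n D' Lb J.card jb y‖ / Real.sqrt ((J.card * Lb : ℕ) : ℝ))
    (hCS : Integrable (fun y => ind (A y) * S y) hm) :
    (p - et) / Real.sqrt p - et ≤ ∫ y, ind (A y) * S y ∂hm := by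
  classical
  have hJr : 0 < Real.sqrt J.card := Real.sqrt_pos.2 (by exact_mod_cast hJpos)
  set L := J.card * Lb with hL
  have hflat := (flat_SN n hn0 heven D' Lb J.card hD' hLpos jb hjblt hjbinj).trans hedev
  rw [himg] at hflat
  set W := fun y => |‖SN n D' Lb J.card jb y‖ / Real.sqrt Lb
    - Real.sqrt D' * (if cidx D' (n • y) ∈ J then 1 else 0)| with hW
  have hWi : Integrable W hm := by
    refine Integrable.of_bound ?_ ((L : ℝ) + Real.sqrt D') (Eventually.of_forall fun y => ?_)
    · refine (((continuous_TS _ _).norm.measurable.div_const _).sub ((Measurable.ite ?_ measurable_const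
        measurable_const).const_mul _)).abs.aestronglyMeasurable
      exact ((measurable_cidx _).comp (continuous_zsmul n).measurable) (MeasurableSet.of_discrete
        (s := {j : ℕ | j ∈ J}))
    · rw [Real.norm_eq_abs, abs_abs]
      refine (abs_sub _ _).trans (add_le_add ?_ ?_)
      · rw [abs_of_nonneg (by positivity)]
        refine (div_le_self (norm_nonneg _) (Real.one_le_sqrt.2 (by exact_mod_cast hLpos))).trans ?_
        show ‖TS L (bco n D' Lb jb) y‖ ≤ _
        refine (norm_sum_le _ _).trans ((Finset.sum_le_card_nsmul _ _ 1 fun s _ => ?_).trans_eq (by simp))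
        simp [bco, norm_er, norm_fourier_apply, -fourier_apply]
      · rw [abs_mul, abs_of_nonneg (Real.sqrt_nonneg _)]
        exact mul_le_of_le_one_right (Real.sqrt_nonneg _) (by split_ifs <;> simp)
  have hlow : ∀ y, (ind (cidx D' (n • y) ∈ J) - |ind (A y) - ind (cidx D' (n • y) ∈ J)|) / Real.sqrt p
      - W y / Real.sqrt J.card ≤ ind (A y) * S y := by
    intro y
    have hW0 : 0 ≤ W y := abs_nonneg _
    have hWge : Real.sqrt D' * ind (cidx D' (n • y) ∈ J) - W y ≤ ‖SN n D' Lb J.card jb y‖ / Real.sqrt Lb := by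
      simp only [hW, ind]
      have := le_abs_self (Real.sqrt D' * (if cidx D' (n • y) ∈ J then (1:ℝ) else 0)
        - ‖SN n D' Lb J.card jb y‖ / Real.sqrt Lb)
      rw [abs_sub_comm] at this
      linarith
    have hSe : S y = ‖SN n D' Lb J.card jb y‖ / Real.sqrt Lb / Real.sqrt J.card := by
      simp only [hS, hL]; rw [Nat.cast_mul, Real.sqrt_mul (Nat.cast_nonneg _), div_div]; ring
    have hsp : Real.sqrt p = Real.sqrt J.card / Real.sqrt D' := by rw [hp, Real.sqrt_div (Nat.cast_nonneg _)]
    set i1 := ind (A y)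
    set i2 := ind (cidx D' (n • y) ∈ J)
    have hi1 : i1 = 0 ∨ i1 = 1 := by simp only [i1, ind]; split_ifs <;> simp
    have hi2 : i2 = 0 ∨ i2 = 1 := by simp only [i2, ind]; split_ifs <;> simp
    have hd0 : 0 ≤ W y / Real.sqrt J.card := by positivity
    have hS0 : 0 ≤ S y := by simp only [hS]; positivity
    rcases hi1 with h1 | h1 <;> rcases hi2 with h2 | h2 <;> simp only [h1, h2] at hWge ⊢ <;> norm_num
    · exact hd0
    · exact hd0
    · have h3 : 0 ≤ 1 / Real.sqrt p := by positivity
      simp only [one_div] at h3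
      ring_nf at h3 hd0 ⊢
      linarith
    · rw [hSe, hsp, inv_div, ← sub_nonneg, ← add_div, ← sub_div]
      exact div_nonneg (by linarith) hJr.le
  have hint1 : Integrable (fun y => |ind (A y) - ind (cidx D' (n • y) ∈ J)|) hm :=
    (hmI.sub hmJ).abs
  refine le_trans ?_ (integral_mono (((hmJ.sub hint1).div_const _).sub (hWi.div_const _)) hCS hlow)
  simp only [Pi.sub_apply]
  rw [integral_sub ((hmJ.sub' hint1).div_const _) (hWi.div_const _), integral_div, integral_div,
    integral_sub hmJ hint1, hintJ]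
  have h1 : (∫ y, W y ∂hm) / Real.sqrt J.card ≤ et :=
    (div_le_self (integral_nonneg fun y => abs_nonneg _) (Real.one_le_sqrt.2 (by exact_mod_cast hJpos))).trans hflat
  have h3 : (p - et) / Real.sqrt p
      ≤ (p - ∫ y, |ind (A y) - ind (cidx D' (n • y) ∈ J)| ∂hm) / Real.sqrt p := by
    gcongr
  linarith

theorem colour_algebra {K p et eps m B : ℝ} (hK1 : 1 ≤ K) (hp0 : 0 < p) (het0 : 0 < et) (hke : K * et = eps)
    (heps1 : eps ≤ 1 / 16) (hkp : |1 - K * p| ≤ eps) (hmux : m ≤ p + et)
    (hB : (p - et) / Real.sqrt p - et ≤ B) : 1 + K * m - 2 * Real.sqrt K * B ≤ 8 * eps := by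
  have hK : 0 < K := lt_of_lt_of_le one_pos hK1
  have heps0 : 0 < eps := by rw [← hke]; positivity
  set t := Real.sqrt (K * p) with ht'
  have ht0 : 0 ≤ t := Real.sqrt_nonneg _
  have ht2 : t ^ 2 = K * p := Real.sq_sqrt (by positivity)
  have ht : (1 - t) ^ 2 ≤ eps := by
    refine le_trans ?_ hkp
    rw [← ht2, show (1:ℝ) - t ^ 2 = (1 - t) * (1 + t) by ring, abs_mul, abs_of_pos (by linarith : 0 < 1 + t),
      ← sq_abs, sq]
    refine mul_le_mul_of_nonneg_left ?_ (abs_nonneg _)
    rw [abs_le]; constructor <;> linarith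
  have hthalf : 1 / 2 ≤ t := by nlinarith
  have hsK : Real.sqrt K * ((p - et) / Real.sqrt p) = t - eps / t := by
    have hts : t = Real.sqrt K * Real.sqrt p := Real.sqrt_mul hK.le p
    have hsp : 0 < Real.sqrt p := Real.sqrt_pos.2 hp0
    have hsK0 : 0 < Real.sqrt K := Real.sqrt_pos.2 hK
    have e1 := Real.sq_sqrt hp0.le
    have e2 := Real.sq_sqrt hK.le
    rw [hts, ← hke]
    field_simp
    rw [e1, e2]
    ring
  have h5 : eps / t ≤ 2 * eps := by
    rw [div_le_iff₀ (by linarith)]; nlinarith
  have h6 : Real.sqrt K * et ≤ eps := by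
    rw [← hke]
    exact mul_le_mul_of_nonneg_right ((Real.sqrt_le_left hK.le).2 (by nlinarith)) het0.le
  have h7 : Real.sqrt K * ((p - et) / Real.sqrt p - et) ≤ Real.sqrt K * B :=
    mul_le_mul_of_nonneg_left hB (Real.sqrt_nonneg _)
  rw [mul_sub, hsK] at h7
  have h8 : K * m ≤ K * p + eps := by rw [← hke]; nlinarith
  nlinarith

theorem exists_colouring {ι : Type} [Fintype ι] {k : ℕ} (M : Mults ι k) (hk : 0 < k) {η : ℝ} (hη : 0 < η) (L0 : ℕ) :
    ∃ (Q : ℕ) (col : UnitAddCircle → Fin k) (φ : ℕ → ι → UnitAddCircle),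
      L0 ≤ Q ∧ 0 < Q ∧ Measurable col ∧
      (∀ x, |(k : ℝ) * (∫ y, ind (col y = x) ∂hm) - 1| ≤ η) ∧
      ∀ x, ∫ y, (‖TS Q (fun s => mFourier (M.vec x) (φ s)) y‖ / Real.sqrt Q
        - Real.sqrt k * ind (col y = x)) ^ 2 ∂hm ≤ η := by
  classical
  set K := (k : ℝ) with hKdef
  have hK : 0 < K := by rw [hKdef]; exact_mod_cast hk
  have hK1 : 1 ≤ K := by rw [hKdef]; exact_mod_cast hk
  set eps := min η 1 / 16 with heps
  have heps0 : 0 < eps := by rw [heps]; positivity
  have heps1 : eps ≤ 1 / 16 := by rw [heps]; linarith [min_le_right η 1]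
  have hepsη : 8 * eps ≤ η := by rw [heps]; linarith [min_le_left η 1]
  set et := eps / K with het
  have het0 : 0 < et := by rw [het]; positivity
  have hke : K * et = eps := by rw [het]; field_simp
  obtain ⟨D', G, J, col, acol, hD', hG, hJ, hcolm, -, hbound0⟩ := exists_colour M.T et het0
  have hbound : ∀ x, ∫ y, |ind (col y = x) - ind (cidx D' (M.T.mult x • y) ∈ J)| ∂hm ≤ et := fun x =>
    le_of_eq_of_le (integral_congr_ae (Eventually.of_forall fun y => by
      simp only [ind]; split_ifs <;> rfl)) (hbound0 x)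
  set p : ℝ := (J.card : ℝ) / D' with hp
  have hmI : ∀ x, Integrable (fun y => ind (col y = x)) hm := fun x => by
    refine Integrable.of_bound (Measurable.aestronglyMeasurable ?_) 1
      (Eventually.of_forall fun y => by rw [Real.norm_eq_abs]; exact abs_ind _)
    simp only [ind]
    exact Measurable.ite (hcolm (measurableSet_singleton x)) measurable_const measurable_const
  have hmeasJ : Measurable fun z : UnitAddCircle => ind (cidx D' z ∈ J) :=
    (measurable_of_countable fun j => ind (j ∈ J)).comp (measurable_cidx _)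
  have hmJ : ∀ x, Integrable (fun y => ind (cidx D' (M.T.mult x • y) ∈ J)) hm := fun x =>
    Integrable.of_bound (hmeasJ.comp (continuous_zsmul (M.T.mult x)).measurable).aestronglyMeasurable 1
      (Eventually.of_forall fun y => by rw [Real.norm_eq_abs]; exact abs_ind _)
  have hintJ : ∀ x, ∫ y, ind (cidx D' (M.T.mult x • y) ∈ J) ∂hm = p := fun x => by
    have hmp := Measure.measurePreserving_zsmul hm (n := M.T.mult x) (M.T.mult_ne_zero x)
    calc ∫ y, ind (cidx D' (M.T.mult x • y) ∈ J) ∂hm = ∫ z, ind (cidx D' z ∈ J) ∂hm := by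
          conv_rhs => rw [← hmp.map_eq]
          rw [integral_map hmp.measurable.aemeasurable (by rw [hmp.map_eq]; exact hmeasJ.aestronglyMeasurable)]
      _ = _ := by
          rw [integral_cell D' hD' (fun j => ind (j ∈ J))]
          simp only [ind, Finset.sum_boole]
          rw [Finset.filter_mem_eq_inter, Finset.inter_eq_right.2 hJ]
  set mu : Fin k → ℝ := fun x => ∫ y, ind (col y = x) ∂hm with hmu
  have hmup : ∀ x, |mu x - p| ≤ et := fun x => by
    simp only [hmu]
    rw [← hintJ x, ← integral_sub (hmI x) (hmJ x)]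
    exact abs_integral_le_integral_abs.trans (hbound x)
  have hsum : ∑ x, mu x = 1 := by
    simp only [hmu]
    rw [← integral_finsetSum _ fun x _ => hmI x]
    simp [ind]
  have hkp : |1 - K * p| ≤ eps := by
    have h : (1:ℝ) - K * p = ∑ x, (mu x - p) := by
      rw [Finset.sum_sub_distrib, hsum, Finset.sum_const, Finset.card_univ, Fintype.card_fin, nsmul_eq_mul]
    rw [h, ← hke]
    refine (Finset.abs_sum_le_sum_abs _ _).trans ((Finset.sum_le_card_nsmul _ _ _ fun x _ => hmup x).trans_eq ?_)
    rw [Finset.card_univ, Fintype.card_fin, nsmul_eq_mul]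
  have hp0 : 0 < p := by
    by_contra hle
    have : p = 0 := le_antisymm (not_lt.1 hle) (by positivity)
    rw [this, mul_zero, sub_zero, abs_one] at hkp
    linarith
  have hJpos : 0 < J.card := by
    rcases Nat.eq_zero_or_pos J.card with h | h
    · simp [hp, h] at hp0
    · exact h
  set jb : ℕ → ℕ := fun b => if h : b < J.card then (J.equivFin.symm ⟨b, h⟩).1 else 0 with hjb
  have hjblt : ∀ b < J.card, jb b < D' := fun b hb => by
    simp only [hjb, dif_pos hb]
    exact Finset.mem_range.1 (hJ (J.equivFin.symm ⟨b, hb⟩).2)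
  have hjbinj : Set.InjOn jb (Set.Iio J.card) := fun a ha b hb h => by
    simp only [hjb, dif_pos (show a < _ from ha), dif_pos (show b < _ from hb)] at h
    exact congrArg Fin.val (J.equivFin.symm.injective (Subtype.ext h))
  have himg : (Finset.range J.card).image jb = J := by
    refine Finset.eq_of_subset_of_card_le (fun j hj => ?_) ?_
    · obtain ⟨b, hb, rfl⟩ := Finset.mem_image.1 hj
      simp only [hjb, dif_pos (Finset.mem_range.1 hb)]; exact Subtype.prop _
    · rw [Finset.card_image_of_injOn (by simpa using hjbinj), Finset.card_range]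
  have hev : ∀ x, ∀ᶠ l : ℕ in atTop, (J.card * (M.T.mult x).natAbs : ℕ) * (1 / Real.sqrt (M.T.mult x).natAbs)
      * edev ((M.T.mult x).natAbs / 2 * D') l ≤ et := by
    intro x
    have hM : 1 ≤ (M.T.mult x).natAbs / 2 * D' :=
      Nat.mul_pos (Nat.div_pos (Nat.le_of_dvd (Int.natAbs_pos.2 (M.T.mult_ne_zero x)) (M.even x)) two_pos) hD'
    have h2 := (tendsto_edev _ hM).const_mul
      (((J.card * (M.T.mult x).natAbs : ℕ) : ℝ) * (1 / Real.sqrt (M.T.mult x).natAbs))
    rw [mul_zero] at h2
    exact (h2.eventually (gt_mem_nhds het0)).mono fun l hl => le_of_lt hl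
  obtain ⟨Lb, hLb, hLb1⟩ := ((eventually_all.2 hev).and (eventually_ge_atTop (L0 + 1))).exists
  have hLpos : 0 < Lb := by omega
  refine ⟨J.card * Lb, col, slotPhase M.w M.PP D' Lb jb,
    le_trans (by omega) (Nat.le_mul_of_pos_left Lb hJpos), Nat.mul_pos hJpos hLpos, hcolm, ?_, ?_⟩
  · intro x
    have h1 := abs_le.1 (hmup x)
    have h2 := abs_le.1 hkp
    rw [abs_le]
    simp only [hmu] at h1
    constructor <;> nlinarith
  intro x
  simp only [mFourier_slotPhase]
  set L := J.card * Lb with hL
  have hLr : (0:ℝ) < L := by rw [hL]; exact_mod_cast Nat.mul_pos hJpos hLpos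
  set n := M.T.mult x with hn
  set S : UnitAddCircle → ℝ := fun y => ‖SN n D' Lb J.card jb y‖ / Real.sqrt L with hS
  change ∫ y, (S y - Real.sqrt K * ind (col y = x)) ^ 2 ∂hm ≤ η
  have hSc : Continuous S := (continuous_TS _ _).norm.div_const _
  have hS2 : Integrable (fun y => S y ^ 2) hm :=
    (hSc.pow 2).integrable_of_hasCompactSupport (HasCompactSupport.of_compactSpace _)
  have hCS : Integrable (fun y => ind (col y = x) * S y) hm :=
    (hSc.integrable_of_hasCompactSupport (HasCompactSupport.of_compactSpace _)).bdd_mul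
      (hmI x).aestronglyMeasurable (c := 1) (Eventually.of_forall fun y => by rw [Real.norm_eq_abs]; exact abs_ind _)
  have hsq : ∀ y, (S y - Real.sqrt K * ind (col y = x)) ^ 2
      = S y ^ 2 + K * ind (col y = x) - 2 * Real.sqrt K * (ind (col y = x) * S y) := fun y => by
    have : ind (col y = x) ^ 2 = ind (col y = x) := by unfold ind; split_ifs <;> norm_num
    rw [sub_sq, mul_pow, Real.sq_sqrt hK.le, this]; ring
  simp_rw [hsq]
  rw [integral_sub (hS2.fun_add ((hmI x).const_mul K)) (hCS.const_mul _), integral_add hS2 ((hmI x).const_mul K),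
    integral_const_mul, integral_const_mul]
  have hone : ∫ y, S y ^ 2 ∂hm = 1 := by
    simp only [hS, div_pow, Real.sq_sqrt hLr.le, integral_div]
    rw [show (fun y => ‖SN n D' Lb J.card jb y‖ ^ 2) = fun y => ‖TS L (bco n D' Lb jb) y‖ ^ 2 from rfl,
      integral_normSq_TS _ (Nat.mul_pos hJpos hLpos)]
    simp [bco, norm_er]
    rw [hL]; push_cast; field_simp
  have hB := block_lower (fun y => col y = x) n (M.T.mult_ne_zero x) (M.even x) D' Lb J jb hD' hLpos hJpos hjblt
    hjbinj himg hp (hintJ x) (hmI x) (hmJ x) (hbound x) (hLb x) S hS hCS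
  rw [hone, show (∫ y, ind (col y = x) ∂hm) = mu x from rfl]
  exact (colour_algebra hK1 hp0 het0 hke heps1 hkp (by linarith [(abs_le.1 (hmup x)).2]) hB).trans hepsη

end

end Vale.Agent.P130.Full
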