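import Vale.Agent.P130.Full.Fresnel
import Vale.Agent.P130.Full.Colouring

/-! Shared definitions of the simple Lebesgue spectrum construction, and the interfaces of its three modules. -/

namespace Vale.Agent.P130.Full

open MeasureTheory Filter Topology Set UnitAddTorus
open Vale.Agent.P130 Vale.Agent.P130.Sol
open scoped ENNReal

noncomputable section

/-- torus of dimension `D` -/
abbrev Tor (D : ℕ) : Type := UnitAddTorus (Fin D)

/-- uniform probability on `Fin q` -/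
def unif (q : ℕ) : Measure (Fin q) := (q : ℝ≥0∞)⁻¹ • Measure.count

/-- symmetrisation of a finite set of frequencies -/
def symF {D : ℕ} (P : Finset (Fin D → ℤ)) : Finset (Fin D → ℤ) := P ∪ P.image fun v => -v

/-- An encoding of a uniform label in `Fin (2 ^ e)` into a torus: the coefficients of a mean-zero
function of the label are a flattened permutation of its values. -/
structure Encoding (e : ℕ) (η : ℝ) where
  D : ℕ
  P : Finset (Fin D → ℤ)
  sel : Tor D → Fin (2 ^ e)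
  cc : Tor D → Tor e
  sl : (Fin D → ℤ) → Fin (2 ^ e)
  ph : (Fin D → ℤ) → ℂ
  nonempty : P.Nonempty
  ne_zero : ∀ x ∈ P, x ≠ 0
  indep : ∀ x ∈ P, ∀ y ∈ P, x ≠ y → Indep x y
  mp : MeasurePreserving (fun ω => (sel ω, cc ω)) volume ((unif (2 ^ e)).prod volume)
  norm_ph : ∀ z, ‖ph z‖ = 1
  total : ∀ G : Fin (2 ^ e) → ℂ, ∑ s, G s = 0 →
    (1 - η) * ((∑ s, ‖G s‖ ^ 2) / (2 ^ e : ℕ)) ≤ ∑ z ∈ symF P, ‖mFourierCoeff (fun ω => G (sel ω)) z‖ ^ 2
  near : ∀ G : Fin (2 ^ e) → ℂ, ∑ s, G s = 0 →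
    ∑ z ∈ symF P, ‖mFourierCoeff (fun ω => G (sel ω)) z
      - ph z * G (sl z) / (Real.sqrt (symF P).card : ℂ)‖ ^ 2 ≤ η * ((∑ s, ‖G s‖ ^ 2) / (2 ^ e : ℕ))

/-- goal of the encoding module -/
def EncodingStatement : Prop := ∀ η : ℝ, 0 < η → ∀ᶠ e : ℕ in atTop, Nonempty (Encoding e η)

/-- colours of the circle with slot phases -/
structure Colours (D : ℕ) where
  k : ℕ
  vec : Fin k → Fin D → ℤ
  col : UnitAddCircle → Fin k
  Q : ℕ
  φ : ℕ → Tor D

/-- quality of colours -/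
structure Colours.Good {D : ℕ} (C : Colours D) (η : ℝ) : Prop where
  k_pos : 0 < C.k
  Q_pos : 0 < C.Q
  inj : Function.Injective C.vec
  ne_zero : ∀ x, C.vec x ≠ 0
  meas : Measurable C.col
  mu : ∀ x, |(C.k : ℝ) * (∫ y, ind (C.col y = x) ∂hm) - 1| ≤ η
  flat : ∀ x, ∫ y, (‖TS C.Q (fun s => mFourier (C.vec x) (C.φ s)) y‖ / Real.sqrt C.Q
    - Real.sqrt C.k * ind (C.col y = x)) ^ 2 ∂hm ≤ η

/-- the slot and in-slot position seen at position `P` of a column with offset `o` -/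
def visit (h Q o P : ℕ) : Option (ℕ × ℕ) :=
  if o ≤ P ∧ P < o + Q * h then some ((P - o) / h, (P - o) % h) else none

/-- transport of a function of a tower to the next tower -/
def pullF {Y Y' : Type*} (h Q : ℕ) (o : Y' → ℕ) (z : ℕ → Y' → Y) (F : ℕ → Y → ℂ) (P : ℕ) (ω : Y') : ℂ :=
  match visit h Q (o ω) P with
  | none => 0
  | some (s, p) => F p (z s ω)

/-- offset of a column -/
def offs {e D' D N M : ℕ} (lab : Fin (2 ^ e) ≃ (Fin D → Fin N) × Fin M) (sel : Tor D' → Fin (2 ^ e))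
    (ω : Tor D') : ℕ :=
  ((lab (sel ω)).2 : ℕ)

/-- coordinate seen in slot `s` -/
def slotMap {e D' D N M : ℕ} (lab : Fin (2 ^ e) ≃ (Fin D → Fin N) × Fin M) (he : D ≤ e)
    (sel : Tor D' → Fin (2 ^ e)) (cc : Tor D' → Tor e) (φ : ℕ → Tor D) (s : ℕ) (ω : Tor D') : Tor D :=
  fun i => ((((((lab (sel ω)).1 i : ℕ) : ℝ) + rep (cc ω (Fin.castLE he i))) / N : ℝ) : UnitAddCircle) + φ s i

/-- frequency box -/
def box (D B : ℕ) : Finset (Fin D → ℤ) := Fintype.piFinset fun _ => Finset.Icc (-(B:ℤ)) B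

/-- combination of modes of a tower -/
def comb {D : ℕ} (K : Finset (Fin D → ℤ)) (α : ℕ → (Fin D → ℤ) → ℂ) (p : ℕ) (z : Tor D) : ℂ :=
  ∑ v ∈ K, α p v * mFourier v z

/-- combination of coloured modes -/
def combC {D : ℕ} (C : Colours D) (α : ℕ → Fin C.k → ℂ) (p : ℕ) (z : Tor D) : ℂ :=
  ∑ x, α p x * mFourier (C.vec x) z

/-- spectral image of a combination of coloured modes -/
def image {D : ℕ} (h : ℕ) (C : Colours D) (α : ℕ → Fin C.k → ℂ) (θ : UnitAddCircle) : ℂ :=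
  ∑ x, TS h (fun p => α p x) θ * ((Real.sqrt C.k * ind (C.col (h • θ) = x) : ℝ) : ℂ)

/-- data of one step -/
structure StepData (ε : ℝ) where
  D : ℕ
  h : ℕ
  C : Colours D
  B : ℕ
  N : ℕ
  M : ℕ
  e : ℕ
  E : Encoding e ε
  lab : Fin (2 ^ e) ≃ (Fin D → Fin N) × Fin M
  he : D ≤ e
  C' : Colours E.D
  h_pos : 0 < h
  good : C.Good (ε / C.k)
  box_vec : ∀ x, C.vec x ∈ box D B
  N_big : 2 * B < N
  N_err : ((box D B).card : ℝ) * ((D : ℝ) * B / N) ^ 2 ≤ ε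
  M_big : (h : ℝ) ^ 2 ≤ ε * (M : ℝ) ^ 2
  M_small : M ≤ C.Q * h
  good' : C'.Good 1
  range' : ∀ z, (∃ i, C'.vec i = z) ↔ z ∈ symF E.P

/-- height of the next tower -/
def StepData.H {ε : ℝ} (S : StepData ε) : ℕ := S.C.Q * S.h + S.M

/-- offsets of a step -/
def StepData.o {ε : ℝ} (S : StepData ε) : Tor S.E.D → ℕ := offs S.lab S.E.sel

/-- slot coordinates of a step -/
def StepData.z {ε : ℝ} (S : StepData ε) : ℕ → Tor S.E.D → Tor S.D :=
  slotMap S.lab S.he S.E.sel S.E.cc S.C.φ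

/-- coefficients of a transported tower function in the next tower -/
def StepData.coef {ε : ℝ} (S : StepData ε) (F : ℕ → Tor S.D → ℂ) (P : ℕ) (x : Fin S.C'.k) : ℂ :=
  mFourierCoeff (fun ω => pullF S.h S.C.Q S.o S.z F P ω) (S.C'.vec x)

/-- bound of one step -/
def stepErr (ε : ℝ) : ℝ := 1000 * Real.sqrt ε

/-- goal of the step module -/
def StepStatement : Prop :=
  ∀ (ε : ℝ), 0 < ε → ε ≤ 1 → ∀ S : StepData ε,
    (∀ s, MeasurePreserving (S.z s) volume volume) ∧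
    (∀ α : ℕ → (Fin S.D → ℤ) → ℂ, ∑ p ∈ Finset.range S.h, α p 0 = 0 →
      (1 - stepErr ε) * ∑ p ∈ Finset.range S.h, ∑ v ∈ box S.D S.B, ‖α p v‖ ^ 2
        ≤ (∑ P ∈ Finset.range S.H, ∑ x, ‖S.coef (comb (box S.D S.B) α) P x‖ ^ 2) / S.C.Q) ∧
    ∃ gam : UnitAddCircle → ℂ, Measurable gam ∧ (∀ θ, ‖gam θ‖ = 1) ∧
      ∀ α : ℕ → Fin S.C.k → ℂ,
        ∫ θ, ‖gam θ * image S.H S.C' (S.coef (combC S.C α)) θ / (Real.sqrt S.C.Q : ℂ)
            - image S.h S.C α θ‖ ^ 2 ∂hm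
          ≤ stepErr ε * ∑ p ∈ Finset.range S.h, ∑ x, ‖α p x‖ ^ 2

/-- tower data for cutting and stacking with torus fibres -/
structure Chain where
  D : ℕ → ℕ
  h : ℕ → ℕ
  Q : ℕ → ℕ
  M : ℕ → ℕ
  o : ∀ n, Tor (D (n + 1)) → ℕ
  z : ∀ n, ℕ → Tor (D (n + 1)) → Tor (D n)
  h_pos : 0 < h 0
  Q_two : ∀ n, 2 ≤ Q n
  h_succ : ∀ n, h (n + 1) = Q n * h n + M n
  M_small : ∀ n, M n * 2 ^ n ≤ Q n * h n
  o_meas : ∀ n, Measurable (o n)
  o_le : ∀ n ω, o n ω ≤ M n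
  z_mp : ∀ n s, MeasurePreserving (z n s) volume volume

/-- state map from one tower to the previous one -/
def Chain.pi (C : Chain) (n : ℕ) :
    Option (ℕ × Tor (C.D (n + 1))) → Option (ℕ × Tor (C.D n))
  | none => none
  | some (P, ω) =>
    match visit (C.h n) (C.Q n) (C.o n ω) P with
    | none => none
    | some (s, p) => some (p, C.z n s ω)

/-- function of a tower state -/
def ofState {Y : Type*} (F : ℕ → Y → ℂ) : Option (ℕ × Y) → ℂ
  | none => 0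
  | some (p, z) => F p z

/-- a probability system realising a chain -/
structure Realisation (C : Chain) where
  Ω : Type
  ms : MeasurableSpace Ω
  std : StandardBorelSpace Ω
  μ : Measure Ω
  prob : IsProbabilityMeasure μ
  atomless : ∀ x, μ {x} = 0
  T : Ω ≃ᵐ Ω
  T_mp : MeasurePreserving T μ μ
  pos : ∀ n, Ω → Option (ℕ × Tor (C.D n))
  wt : ℕ → ℝ
  wt_pos : ∀ n, 0 < wt n
  wt_succ : ∀ n, wt (n + 1) * C.Q n = wt n
  wt_le : ∀ n, wt n * C.h n ≤ 1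
  wt_lim : Tendsto (fun n => wt n * C.h n) atTop (𝓝 1)
  pos_meas : ∀ n (F : ℕ → Tor (C.D n) → ℂ), (∀ p, Measurable (F p)) → Measurable fun x => ofState (F) (pos n x)
  pos_lt : ∀ n x p z, pos n x = some (p, z) → p < C.h n
  compat : ∀ n x, pos n x = C.pi n (pos (n + 1) x)
  shift : ∀ n x p z, pos n x = some (p, z) → p + 1 < C.h n → pos n (T x) = some (p + 1, z)
  shift_symm : ∀ n x p z, pos n x = some (p + 1, z) → pos n (T.symm x) = some (p, z)
  law : ∀ n (F : ℕ → Tor (C.D n) → ℂ), (∀ p, Measurable (F p)) → (∀ p, ∃ c, ∀ z, ‖F p z‖ ≤ c) →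
    ∫ x, ofState F (pos n x) ∂μ = (wt n : ℂ) * ∑ p ∈ Finset.range (C.h n), ∫ z, F p z
  dense : ∀ g : Ω → ℂ, MemLp g 2 μ → ∀ ε : ℝ, 0 < ε → ∃ (n : ℕ) (F : ℕ → Tor (C.D n) → ℂ),
    (∀ p, Measurable (F p)) ∧ (∀ p, ∃ c, ∀ z, ‖F p z‖ ≤ c) ∧
      eLpNorm (g - fun x => ofState F (pos n x)) 2 μ ≤ ENNReal.ofReal ε

/-- goal of the space module -/
def SpaceStatement : Prop := ∀ C : Chain, Nonempty (Realisation C)

end

end Vale.Agent.P130.Full
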