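import Vale.Agent.P130.Full.Estimates

/-! Mean-zero functions are exhausted by the coloured modes. -/

namespace Vale.Agent.P130.Full

open MeasureTheory Filter Topology Set UnitAddTorus
open Vale.Agent.P130 Vale.Agent.P130.Sol
open scoped ENNReal ComplexConjugate InnerProductSpace

noncomputable section

variable {Ch : Chain} (R : Realisation Ch)

/-- index of box modes of a given radius -/
abbrev BX (n B : ℕ) : Type := Fin (Ch.h n) × {v // v ∈ box (Ch.D n) B}

theorem orthonormal_bx (n B : ℕ) :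
    Orthonormal ℂ fun i : BX (Ch := Ch) n B => md R n i.1 i.2.1 :=
  orthonormal_md R n _ _ (fun i => i.1.isLt) fun a b h => by
    have h1 := congrArg Prod.fst h
    have h2 := congrArg Prod.snd h
    exact Prod.ext (Fin.ext h1) (Subtype.ext h2)

/-- projection on the box modes of a given radius -/
def PB (n B : ℕ) (f : HR R) : HR R :=
  ∑ i : BX (Ch := Ch) n B, ⟪md R n i.1 i.2.1, f⟫_ℂ • md R n i.1 i.2.1

theorem norm_sub_PB_emb (n B : ℕ) {F : ℕ → Tor (Ch.D n) → ℂ} (hF : Nice F) :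
    ‖emb R n F - PB R n B (emb R n F)‖ ^ 2 = R.wt n * leak (Ch.h n) B F := by
  rw [PB, ons_split (orthonormal_bx R n B), norm_sq_emb R n hF, leak, Finset.sum_sub_distrib, mul_sub]
  congr 1
  rw [Fintype.sum_prod_type, Finset.sum_range, Finset.mul_sum]
  refine Finset.sum_congr rfl fun p _ => ?_
  rw [← Finset.sum_coe_sort (box (Ch.D n) B), Finset.mul_sum]
  refine Finset.sum_congr rfl fun w _ => ?_
  rw [inner_md_emb R n _ _ p.isLt hF, norm_mul, Complex.norm_real, Real.norm_eq_abs, mul_pow, sq_abs,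
    Real.sq_sqrt (R.wt_pos n).le]

theorem two_pow_le_h (n : ℕ) : 2 ^ n ≤ Ch.h n := by
  induction n with
  | zero => rw [pow_zero]; exact Ch.h_pos
  | succ n ih =>
    rw [Ch.h_succ, pow_succ]
    have := Nat.mul_le_mul (Ch.Q_two n) ih
    linarith

theorem wt_le_one (n : ℕ) : R.wt n ≤ 1 := by
  have h1 : (1:ℝ) ≤ Ch.h n := Nat.one_le_cast.2 (le_trans Nat.one_le_two_pow (two_pow_le_h n))
  nlinarith [R.wt_le n, R.wt_pos n]

theorem tendsto_wt : Tendsto R.wt atTop (𝓝 0) := by
  refine squeeze_zero (fun n => (R.wt_pos n).le) (fun n => ?_)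
    (tendsto_pow_atTop_nhds_zero_of_lt_one (show (0:ℝ) ≤ 1 / 2 by norm_num) (by norm_num))
  have h1 : ((2:ℝ) ^ n) ≤ Ch.h n := by exact_mod_cast two_pow_le_h n
  rw [one_div, inv_pow, ← one_div, le_div_iff₀ (by positivity)]
  nlinarith [R.wt_le n, R.wt_pos n]

/-- the constant function -/
def one : HR R := (memLp_const (1:ℂ)).toLp _

theorem coeFn_one : one R =ᵐ[R.μ] fun _ => (1:ℂ) := MemLp.coeFn_toLp _

theorem norm_one_sq : ‖one R‖ ^ 2 = 1 := by
  rw [norm_sq_Lp, integral_congr_ae (g := fun _ => (1:ℝ))]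
  · simp
  · filter_upwards [coeFn_one R] with x hx
    simp [hx]

theorem inner_one (f : HR R) : ⟪one R, f⟫_ℂ = ∫ x, f x ∂(R.μ) := by
  rw [L2.inner_def]
  refine integral_congr_ae ?_
  filter_upwards [coeFn_one R] with x hx
  rw [hx, RCLike.inner_apply', map_one, one_mul]

theorem inner_one_md (n q : ℕ) (v : Fin (Ch.D n) → ℤ) (hq : q < Ch.h n) :
    ⟪one R, md R n q v⟫_ℂ = if v = 0 then (Real.sqrt (R.wt n) : ℂ) else 0 := by
  rw [md, inner_smul_right, inner_one, integral_congr_ae (coeFn_emb R n (nice_mode1 q v))]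
  simp only [fn]
  rw [R.law n _ (nice_mode1 q v).1 (nice_mode1 q v).2,
    Finset.sum_eq_single_of_mem q (Finset.mem_range.2 hq) fun p _ hp => by simp [mode1, hp]]
  have h : (∫ z, mode1 q v q z) = if v = 0 then 1 else 0 := by
    rw [show mode1 q v q = fun z => mFourier v z from funext fun z => if_pos rfl]
    have h0 := integral_conj_mFourier_mul (D := Ch.D n) 0 v
    simp only [mFourier_zero, ContinuousMap.one_apply, map_one, one_mul] at h0
    rw [h0]
    simp [eq_comm]
  rw [h]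
  split_ifs
  · rw [mul_one, ← Complex.ofReal_mul]
    congr 1
    have h2 : Real.sqrt (R.wt n) * Real.sqrt (R.wt n) = R.wt n := Real.mul_self_sqrt (R.wt_pos n).le
    have h3 : Real.sqrt (R.wt n) ≠ 0 := (Real.sqrt_pos.2 (R.wt_pos n)).ne'
    field_simp
    rw [sq, h2]
  · simp

/-- sum of the constant modes of a tower -/
def uu (n : ℕ) : HR R := ∑ p : Fin (Ch.h n), md R n p 0

theorem inner_uu (n : ℕ) : ⟪uu R n, uu R n⟫_ℂ = (Ch.h n : ℂ) := by
  have hon : Orthonormal ℂ fun p : Fin (Ch.h n) => md R n p 0 :=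
    orthonormal_md R n _ _ (fun p => p.isLt) fun a b h => Fin.ext (congrArg Prod.fst h)
  have h := hon.inner_sum (fun _ => (1:ℂ)) (fun _ => (1:ℂ)) Finset.univ
  simpa [uu] using h

theorem norm_uu_sq (n : ℕ) : ‖uu R n‖ ^ 2 = Ch.h n := by
  rw [← inner_self_eq_norm_sq (𝕜 := ℂ), inner_uu]
  simp

theorem norm_sum_md_zero_le (n : ℕ) (f : HR R) (hf : ⟪one R, f⟫_ℂ = 0) :
    Real.sqrt (R.wt n) * ‖⟪uu R n, f⟫_ℂ‖ ≤ Real.sqrt (1 - R.wt n * Ch.h n) * ‖f‖ := by
  set s : ℝ := Real.sqrt (R.wt n)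
  have hs : 0 ≤ s := Real.sqrt_nonneg _
  set d := (s : ℂ) • uu R n - one R
  have h1 : ⟪one R, uu R n⟫_ℂ = ((Ch.h n * s : ℝ) : ℂ) := by
    rw [uu, inner_sum, Finset.sum_congr rfl fun (p : Fin (Ch.h n)) _ => (inner_one_md R n p 0 p.isLt).trans (if_pos rfl)]
    simp [s]
  have hd : ‖d‖ ^ 2 = 1 - R.wt n * Ch.h n := by
    rw [@norm_sub_sq ℂ, norm_smul, mul_pow, norm_uu_sq, norm_one_sq, Complex.norm_real, Real.norm_eq_abs, sq_abs]
    have h2 : RCLike.re ⟪(s : ℂ) • uu R n, one R⟫_ℂ = s * (Ch.h n * s) := by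
      rw [inner_smul_left, ← inner_conj_symm (uu R n) (one R), h1, Complex.conj_ofReal, Complex.conj_ofReal,
        ← Complex.ofReal_mul]
      exact Complex.ofReal_re _
    rw [h2]
    have h3 : s * s = R.wt n := Real.mul_self_sqrt (R.wt_pos n).le
    rw [← h3]; ring
  have e : ⟪d, f⟫_ℂ = (s : ℂ) * ⟪uu R n, f⟫_ℂ := by
    rw [inner_sub_left, inner_smul_left, hf, sub_zero, Complex.conj_ofReal]
  calc s * ‖⟪uu R n, f⟫_ℂ‖ = ‖⟪d, f⟫_ℂ‖ := by
        rw [e, norm_mul, Complex.norm_real, Real.norm_eq_abs, abs_of_nonneg hs]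
    _ ≤ ‖d‖ * ‖f‖ := norm_inner_le_norm _ _
    _ = _ := by rw [← hd, Real.sqrt_sq (norm_nonneg _)]

end

noncomputable section

variable {hE : EncodingStatement} {hS : StepStatement} (R : Realisation (chain hE hS))

theorem PB_eq_Pb (n : ℕ) (f : HR R) : PB R n (stage hE n).B f = Pb R n f := rfl

theorem norm_sub_Pb_le (n : ℕ) (f : HR R) : ‖f - Pb R n f‖ ≤ ‖f‖ := by
  refine le_of_pow_le_pow_left₀ two_ne_zero (norm_nonneg _) ?_
  rw [Pb, ons_split (orthonormal_mb R n)]
  exact sub_le_self _ (Finset.sum_nonneg fun i _ => sq_nonneg _)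

/-- the defect of the box projection, as a linear map -/
def DD (n : ℕ) : HR R →ₗ[ℂ] HR R where
  toFun f := f - Pb R n f
  map_add' f g := by
    simp only [Pb, inner_add_right, add_smul, Finset.sum_add_distrib]
    abel
  map_smul' c f := by
    simp only [Pb, inner_smul_right, mul_smul, ← Finset.smul_sum, RingHom.id_apply, smul_sub]

theorem exists_anc (m q r : ℕ) (v : Fin (stage hE m).D → ℤ) (hq : q < (stage hE m).h)
    (hv : v ∈ box (stage hE m).D r) : ∀ l, m ≤ l →
      ∃ G ∈ (stage hE l).anc r, emb R l G = emb R m (mode1 q v) := by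
  intro l hl
  induction l, hl using Nat.le_induction with
  | base => exact ⟨mode1 q v, mode1_mem_anc hE m r q v hq hv, rfl⟩
  | succ l hl ih =>
    obtain ⟨G, hG, hemb⟩ := ih
    exact ⟨_, List.mem_append_left _ (List.mem_map_of_mem hG),
      (emb_pull R l ((stage hE l).anc_nice r G hG)).symm.trans hemb⟩

theorem tendsto_DD_emb_mode1 (m q : ℕ) (v : Fin (stage hE m).D → ℤ) (hq : q < (stage hE m).h) :
    Tendsto (fun n => DD R n (emb R m (mode1 q v))) atTop (𝓝 0) := by
  obtain ⟨r, hr⟩ := exists_mem_box v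
  rw [tendsto_zero_iff_norm_tendsto_zero]
  refine squeeze_zero' (Eventually.of_forall fun n => norm_nonneg _) (eventually_atTop.2 ⟨max m r, fun n hn => ?_⟩)
    (tendsto_pow_atTop_nhds_zero_of_lt_one (show (0:ℝ) ≤ 1 / 2 by norm_num) (by norm_num))
  obtain ⟨G, hG, hemb⟩ := exists_anc R m q n v hq (box_mono _ (le_trans (le_max_right _ _) hn) hr) n
    (le_trans (le_max_left _ _) hn)
  rw [← hemb]
  show ‖emb R n G - Pb R n (emb R n G)‖ ≤ _
  refine le_of_pow_le_pow_left₀ two_ne_zero (by positivity) ?_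
  rw [← PB_eq_Pb, norm_sub_PB_emb R n _ ((stage hE n).anc_nice n G hG)]
  refine (mul_le_mul (wt_le_one R n) ((stage hE n).anc_leak G hG)
    (leak_nonneg _ _ ((stage hE n).anc_nice n G hG)) zero_le_one).trans_eq ?_
  rw [one_mul, ← pow_mul, mul_comm n 2, pow_mul, show ((1:ℝ) / 2) ^ 2 = 1 / 4 by norm_num, one_div_pow]

theorem tendsto_Pb (f : HR R) : Tendsto (fun n => ‖f - Pb R n f‖) atTop (𝓝 0) := by
  rw [Metric.tendsto_atTop]
  intro ε hε
  obtain ⟨m, F, hFm, hFb, hF⟩ := R.dense f (Lp.memLp f) (ε / 4) (by positivity)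
  have hFn : Nice F := ⟨hFm, hFb⟩
  have h1 : ‖f - emb R m F‖ ≤ ε / 4 := by
    rw [Lp.norm_def]
    refine ENNReal.toReal_le_of_le_ofReal (by positivity) (le_of_eq_of_le (eLpNorm_congr_ae ?_) hF)
    filter_upwards [Lp.coeFn_sub f (emb R m F), coeFn_emb R m hFn] with x a b
    rw [a, Pi.sub_apply, b, Pi.sub_apply]
    rfl
  obtain ⟨B, hB⟩ := ((tendsto_leak ((chain hE hS).h m) hFn).eventually
    (ge_mem_nhds (show (0:ℝ) < (ε / 4) ^ 2 by positivity))).exists
  have h2 : ‖emb R m F - PB R m B (emb R m F)‖ ≤ ε / 4 := by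
    refine le_of_pow_le_pow_left₀ two_ne_zero (by positivity) ?_
    rw [norm_sub_PB_emb R m B hFn]
    exact (mul_le_of_le_one_left (leak_nonneg _ _ hFn) (wt_le_one R m)).trans hB
  set g := PB R m B (emb R m F) with hg
  have h3 : Tendsto (fun n => DD R n g) atTop (𝓝 0) := by
    simp only [hg, PB, map_sum, map_smul, md]
    have := tendsto_finsetSum (Finset.univ : Finset (BX (Ch := chain hE hS) m B)) fun i _ =>
      ((tendsto_DD_emb_mode1 R m i.1 i.2.1 i.1.isLt).const_smul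
        (((1 / Real.sqrt (R.wt m) : ℝ) : ℂ))).const_smul
          ⟪((1 / Real.sqrt (R.wt m) : ℝ) : ℂ) • emb R m (mode1 i.1 i.2.1), emb R m F⟫_ℂ
    simpa using this
  obtain ⟨N, hN⟩ := Metric.tendsto_atTop.1 h3 (ε / 4) (by positivity)
  refine ⟨N, fun n hn => ?_⟩
  have h4 := hN n hn
  rw [dist_zero_right] at h4
  rw [dist_zero_right, norm_norm]
  calc ‖f - Pb R n f‖ = ‖DD R n (f - g) + DD R n g‖ := by rw [← map_add, sub_add_cancel]; rfl
    _ ≤ ‖DD R n (f - g)‖ + ‖DD R n g‖ := norm_add_le _ _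
    _ < ε := by
      have h5 : ‖DD R n (f - g)‖ ≤ ‖f - g‖ := norm_sub_Pb_le R n _
      have h6 : ‖f - g‖ ≤ ‖f - emb R m F‖ + ‖emb R m F - g‖ := norm_sub_le_norm_sub_add_norm_sub _ _ _
      linarith

theorem norm_Pb_le (n : ℕ) (f : HR R) : ‖Pb R n f‖ ≤ ‖f‖ := by
  refine le_of_pow_le_pow_left₀ two_ne_zero (norm_nonneg _) ?_
  have hon := orthonormal_mb R n
  have h := hon.inner_sum (fun i => ⟪mb R n i, f⟫_ℂ) (fun i => ⟪mb R n i, f⟫_ℂ) Finset.univ
  rw [inner_self_eq_norm_sq_to_K] at h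
  simp only [Complex.conj_mul', ← Complex.ofReal_pow, ← Complex.ofReal_sum] at h
  have h2 : ‖Pb R n f‖ ^ 2 = ∑ i, ‖⟪mb R n i, f⟫_ℂ‖ ^ 2 := Complex.ofReal_injective (by simpa [Pb] using h)
  rw [h2]
  exact hon.sum_inner_products_le f (s := Finset.univ)

theorem PP_zero_sub (n : ℕ) (f g : HR R) : ‖f - PP' R n f‖ ≤ ‖g - PP' R n g‖ + 2 * ‖f - g‖ := by
  have e : f - PP' R n f = (g - PP' R n g) + ((f - g) - PP' R n (f - g)) := by rw [PP_sub]; abel
  rw [e]
  refine (norm_add_le _ _).trans (add_le_add le_rfl ((norm_sub_le _ _).trans ?_))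
  linarith [norm_PP_le R n (f - g)]

theorem tendsto_del : Tendsto (fun n => Real.sqrt (del hE n)) atTop (𝓝 0) := by
  refine squeeze_zero (fun n => Real.sqrt_nonneg _) (fun n => ?_)
    (tendsto_pow_atTop_nhds_zero_of_lt_one (show (0:ℝ) ≤ 1 / 2 by norm_num) (by norm_num))
  rw [del, dlt, Real.sqrt_sq (by positivity), one_div_pow, one_div_le_one_div
    (mul_pos (by positivity) (Nat.cast_pos.2 (stage hE n).kmax_pos)) (by positivity)]
  exact le_mul_of_one_le_right (by positivity) (Nat.one_le_cast.2 (stage hE n).kmax_pos)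

/-- a mean-zero vector lies asymptotically in the coloured modes -/
theorem tendsto_PP (f : HR R) (hf : ⟪one R, f⟫_ℂ = 0) :
    Tendsto (fun n => ‖f - PP' R n f‖) atTop (𝓝 0) := by
  rw [← tendsto_add_atTop_iff_nat 1]
  set a : ℕ → ℝ := fun n => ‖f - Pb R n f‖
    + Real.sqrt ((1 - R.wt n * (chain hE hS).h n) / (R.wt n * (chain hE hS).h n)) * ‖f‖ with ha
  have hbound : ∀ n, ‖f - PP' R (n + 1) f‖ ≤ Real.sqrt (del hE n) * (‖f‖ + a n) + 2 * a n := by
    intro n
    have hh : (0:ℝ) < (chain hE hS).h n := Nat.cast_pos.2 (stage hE n).h_pos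
    have hw := R.wt_pos n
    set S : ℂ := ⟪uu R n, f⟫_ℂ with hSdef
    set c : HR R := (S / ((chain hE hS).h n : ℂ)) • uu R n with hc
    set v : HR R := Pb R n f - c with hv
    have hcn : ‖c‖ ≤ Real.sqrt ((1 - R.wt n * (chain hE hS).h n) / (R.wt n * (chain hE hS).h n)) * ‖f‖ := by
      have h1 := norm_sum_md_zero_le R n f hf
      have h2 : (0:ℝ) ≤ 1 - R.wt n * (chain hE hS).h n := by linarith [R.wt_le n]
      refine le_of_pow_le_pow_left₀ two_ne_zero (by positivity) ?_
      rw [hc, norm_smul, mul_pow, norm_uu_sq, norm_div, Complex.norm_natCast, mul_pow,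
        Real.sq_sqrt (div_nonneg h2 (mul_pos hw hh).le), div_pow, sq (((chain hE hS).h n : ℝ))]
      have h3 := pow_le_pow_left₀ (by positivity) h1 2
      rw [mul_pow, mul_pow, Real.sq_sqrt hw.le, Real.sq_sqrt h2] at h3
      rw [div_mul_eq_mul_div, div_le_iff₀ (by positivity), div_mul_eq_mul_div, div_mul_eq_mul_div,
        le_div_iff₀ (by positivity)]
      nlinarith
    have hPbfix : ∀ (p : Fin ((chain hE hS).h n)) (w : Fin (stage hE n).D → ℤ) (hw : w ∈ box _ (stage hE n).B)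
        (g : HR R), ⟪md R n p w, Pb R n g⟫_ℂ = ⟪md R n p w, g⟫_ℂ :=
      fun p w hw g => inner_mb_Pb R n g (p, ⟨w, hw⟩)
    have hu : Pb R n (uu R n) = uu R n := by
      have := map_sum (DD R n) (fun p : Fin ((chain hE hS).h n) => md R n p 0) Finset.univ
      refine (sub_eq_zero.1 (this.trans (Finset.sum_eq_zero fun p _ => ?_))).symm
      show md R n p 0 - Pb R n (md R n p 0) = 0
      rw [sub_eq_zero, Pb, Finset.sum_eq_single (p, (⟨0, zero_mem_box _ _⟩ :
        {v // v ∈ box (stage hE n).D (stage hE n).B}))]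
      · show md R n p 0 = ⟪md R n p 0, md R n p 0⟫_ℂ • md R n p 0
        rw [inner_md R n _ _ _ _ p.isLt, if_pos ⟨rfl, rfl⟩, one_smul]
      · intro j _ hj
        rw [mb, inner_md R n _ _ _ _ j.1.isLt, if_neg, zero_smul]
        exact fun h => hj (Prod.ext (Fin.ext h.1) (Subtype.ext h.2))
      · simp
    have hfix : Pb R n v = v := by
      have h1 : ∀ g, Pb R n g = g - DD R n g := fun g => (sub_sub_cancel g (Pb R n g)).symm
      have h2 : DD R n (Pb R n f) = 0 := by
        show Pb R n f - Pb R n (Pb R n f) = 0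
        rw [sub_eq_zero]
        refine Finset.sum_congr rfl fun i _ => ?_
        rw [inner_mb_Pb]
      have h3 : DD R n c = 0 := by
        rw [hc, map_smul]
        show _ • (uu R n - Pb R n (uu R n)) = 0
        rw [hu, sub_self, smul_zero]
      rw [h1, hv, map_sub, h2, h3, sub_zero, sub_zero]
    have h0 : ∑ p : Fin ((chain hE hS).h n), ⟪md R n p 0, v⟫_ℂ = 0 := by
      rw [← sum_inner, hv, inner_sub_right, hc, inner_smul_right, show (∑ p : Fin ((chain hE hS).h n), md R n p 0)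
        = uu R n from rfl, inner_uu]
      rw [div_mul_cancel₀ _ (by exact_mod_cast (stage hE n).h_pos.ne'), sub_eq_zero, hSdef]
      simp only [uu, sum_inner]
      exact Finset.sum_congr rfl fun p _ => hPbfix p 0 (zero_mem_box _ _) f
    have hb := box_step R n v hfix h0
    have hvn : ‖v‖ ≤ ‖f‖ + a n := by
      refine (norm_sub_le _ _).trans ?_
      have := norm_Pb_le R n f
      simp only [ha]
      linarith [norm_nonneg (f - Pb R n f)]
    have hfv : ‖f - v‖ ≤ a n := by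
      rw [hv, show f - (Pb R n f - c) = (f - Pb R n f) + c by abel]
      exact (norm_add_le _ _).trans (add_le_add le_rfl hcn)
    have hb' : ‖v - PP' R (n + 1) v‖ ≤ Real.sqrt (del hE n) * ‖v‖ := by
      refine le_of_pow_le_pow_left₀ two_ne_zero (by positivity) ?_
      rwa [mul_pow, Real.sq_sqrt (del_nonneg n)]
    refine (PP_zero_sub R (n + 1) f v).trans (add_le_add (hb'.trans ?_) (by linarith))
    exact mul_le_mul_of_nonneg_left hvn (Real.sqrt_nonneg _)
  have ha0 : Tendsto a atTop (𝓝 0) := by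
    have h := R.wt_lim
    have h2 : Tendsto (fun n => (1 - R.wt n * (chain hE hS).h n) / (R.wt n * (chain hE hS).h n))
        atTop (𝓝 ((1 - 1) / 1)) := (h.const_sub 1).div h one_ne_zero
    have h3 := ((Real.continuous_sqrt.tendsto _).comp h2).mul_const ‖f‖
    have h4 := (tendsto_Pb R f).add h3
    simpa [ha] using h4
  refine squeeze_zero (fun n => norm_nonneg _) hbound ?_
  simpa using ((tendsto_del (hE := hE)).mul (ha0.const_add ‖f‖)).add (ha0.const_mul 2)

end

end Vale.Agent.P130.Full
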