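import Vale.Agent.P130.Full.EncTorus

/-! The frequencies of the encoding: classes of odd frequency vectors and their weights. -/

namespace Vale.Agent.P130.Full

open MeasureTheory Filter Topology Set UnitAddTorus
open Vale.Agent.P130 Vale.Agent.P130.Sol
open scoped ENNReal Real

noncomputable section

/-- product of the half circle coefficients -/
def sig {e : ℕ} (n : Coord e → ℤ) : ℂ := ∏ d, s1 (n d)

/-- odd integers of a box -/
def oset (R : ℕ) : Finset ℤ := (Finset.Icc (-(R:ℤ)) R).filter fun x => (x : ZMod 2) = 1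

/-- weight of the odd integers of a box -/
def oW (R : ℕ) : ℝ := ∑ x ∈ oset R, ‖s1 x‖ ^ 2

/-- frequency vectors of a class in a box -/
def fib {e : ℕ} (R : ℕ) (b : Bits e) : Finset (Coord e → ℤ) :=
  Fintype.piFinset fun d => if b d = 0 then {0} else oset R

/-- number of ones -/
def bitWgt {e : ℕ} (b : Bits e) : ℕ := (Finset.univ.filter fun d => b d ≠ 0).card

theorem zmod2_cases : ∀ x : ZMod 2, x = 0 ∨ x = 1 := by decide

theorem mem_fib {e : ℕ} {R : ℕ} {b : Bits e} {n : Coord e → ℤ} (h : n ∈ fib R b) (d : Coord e) :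
    (b d = 0 ∧ n d = 0) ∨ (b d ≠ 0 ∧ (n d : ZMod 2) = 1 ∧ -(R:ℤ) ≤ n d ∧ n d ≤ R) := by
  have h' := Fintype.mem_piFinset.1 h d
  split_ifs at h' with hb
  · exact Or.inl ⟨hb, Finset.mem_singleton.1 h'⟩
  · simp only [oset, Finset.mem_filter, Finset.mem_Icc] at h'
    exact Or.inr ⟨hb, h'.2, h'.1.1, h'.1.2⟩

theorem cls2_of_mem_fib {e : ℕ} {R : ℕ} {b : Bits e} {n : Coord e → ℤ} (h : n ∈ fib R b) : cls2 n = b := by
  funext d
  rcases mem_fib h d with ⟨hb, hn⟩ | ⟨hb, hn, -⟩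
  · simp [cls2, hb, hn]
  · rw [cls2, hn, (zmod2_cases (b d)).resolve_left hb]

theorem sig_ne_zero {e : ℕ} {R : ℕ} {b : Bits e} {n : Coord e → ℤ} (h : n ∈ fib R b) : sig n ≠ 0 := by
  refine Finset.prod_ne_zero_iff.2 fun d _ => ?_
  rcases mem_fib h d with ⟨-, hn⟩ | ⟨-, hn, -⟩
  · rw [hn, s1_zero]; exact one_ne_zero
  · rw [← norm_ne_zero_iff, s1_odd hn]
    have h0 : n d ≠ 0 := fun h0 => by simp [h0] at hn
    have : (0:ℝ) < |(n d : ℝ)| := abs_pos.2 (by exact_mod_cast h0)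
    positivity

theorem neg_mem_fib {e : ℕ} {R : ℕ} {b : Bits e} {n : Coord e → ℤ} (h : n ∈ fib R b) : -n ∈ fib R b := by
  refine Fintype.mem_piFinset.2 fun d => ?_
  rcases mem_fib h d with ⟨hb, hn⟩ | ⟨hb, hn, h1, h2⟩
  · simp [hb, hn]
  · rw [if_neg hb, oset, Finset.mem_filter, Finset.mem_Icc]
    refine ⟨⟨by simp only [Pi.neg_apply]; omega, by simp only [Pi.neg_apply]; omega⟩, ?_⟩
    rw [Pi.neg_apply, Int.cast_neg, ZMod.neg_eq_self_mod_two, hn]

theorem norm_sig_neg {e : ℕ} {R : ℕ} {b : Bits e} {n : Coord e → ℤ} (h : n ∈ fib R b) :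
    ‖sig (-n)‖ = ‖sig n‖ := by
  rw [sig, sig, norm_prod, norm_prod]
  refine Finset.prod_congr rfl fun d _ => ?_
  rcases mem_fib h d with ⟨-, hn⟩ | ⟨-, hn, -⟩
  · simp [hn]
  · rw [Pi.neg_apply, s1_odd hn, s1_odd (by rw [Int.cast_neg, ZMod.neg_eq_self_mod_two, hn]),
      Int.cast_neg, abs_neg]

theorem sum_sig_fib {e : ℕ} (R : ℕ) (b : Bits e) :
    ∑ n ∈ fib R b, ‖sig n‖ ^ 2 = oW R ^ bitWgt b := by
  simp only [sig, norm_prod, ← Finset.prod_pow]
  rw [fib, ← Finset.prod_univ_sum (fun d => if b d = 0 then ({0} : Finset ℤ) else oset R)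
    fun _ x => ‖s1 x‖ ^ 2]
  rw [show oW R ^ bitWgt b = ∏ d ∈ Finset.univ.filter fun d => b d ≠ 0, oW R from (Finset.prod_const _).symm,
    Finset.prod_filter]
  refine Finset.prod_congr rfl fun d _ => ?_
  by_cases hb : b d = 0
  · simp [hb, s1_zero]
  · rw [if_neg hb, if_pos hb]; rfl

theorem one_add_oW (R : ℕ) : 1 + oW R = ∑ x ∈ Finset.Icc (-(R:ℤ)) R, ‖s1 x‖ ^ 2 := by
  rw [← Finset.sum_filter_add_sum_filter_not (Finset.Icc (-(R:ℤ)) R) fun x => (x : ZMod 2) = 1,
    add_comm (∑ x ∈ _, _)]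
  congr 1
  rw [Finset.sum_eq_single (0:ℤ)]
  · simp [s1_zero]
  · intro x hx hx0
    rw [Finset.mem_filter] at hx
    rw [s1_even hx0 ((zmod2_cases _).resolve_right hx.2), norm_zero, sq, mul_zero]
  · intro h
    simp at h

theorem oW_le_one (R : ℕ) : oW R ≤ 1 := by
  have h := sum_le_hasSum (Finset.Icc (-(R:ℤ)) R) (fun x _ => sq_nonneg _) hasSum_s1
  rw [← one_add_oW] at h
  linarith

theorem oW_nonneg (R : ℕ) : 0 ≤ oW R := Finset.sum_nonneg fun _ _ => sq_nonneg _

theorem tendsto_oW : Tendsto oW atTop (𝓝 1) := by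
  have hm' : Monotone fun R : ℕ => Finset.Icc (-(R:ℤ)) R := fun a b hab => by
    intro x hx; rw [Finset.mem_Icc] at hx ⊢; omega
  have h1 : Tendsto (fun R : ℕ => Finset.Icc (-(R:ℤ)) R) atTop atTop :=
    tendsto_atTop_finset_of_monotone hm' fun x => ⟨x.natAbs, by rw [Finset.mem_Icc]; omega⟩
  have h2 : Tendsto (fun R : ℕ => ∑ x ∈ Finset.Icc (-(R:ℤ)) R, ‖s1 x‖ ^ 2) atTop (𝓝 2) :=
    hasSum_s1.comp h1
  have h3 := h2.sub_const 1
  norm_num at h3
  exact h3.congr fun R => by rw [← one_add_oW]; ring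

/-- coprimality of all coordinates -/
abbrev Prim {e : ℕ} (n : Coord e → ℤ) : Prop := (Finset.univ.gcd fun d => (n d).natAbs) = 1

theorem prim_neg {e : ℕ} {n : Coord e → ℤ} (h : Prim n) : Prim (-n) := by
  simpa [Prim] using h

theorem eq_of_prim {e : ℕ} {n m : Coord e → ℤ} (hn : Prim n) (hm' : Prim m) {a b : ℤ} (h : a • n = b • m) :
    a.natAbs = b.natAbs := by
  have key : ∀ (c : ℤ) (v : Coord e → ℤ), Prim v →
      (Finset.univ.gcd fun d => ((c • v) d).natAbs) = c.natAbs := by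
    intro c v hv
    simp only [Pi.smul_apply, smul_eq_mul, Int.natAbs_mul, Finset.gcd_mul_left]
    rw [hv, mul_one]
    simp
  rw [← key a n hn, h, key b m hm']

theorem sum_bad_le {e : ℕ} (R r : ℕ) (b : Bits e) (hb : r < bitWgt b) :
    ∑ n ∈ (fib R b).filter (fun n => ¬ Prim n), ‖sig n‖ ^ 2 ≤ (1 / 9 : ℝ) ^ r := by
  classical
  obtain ⟨d0, hd0⟩ : ∃ d, b d ≠ 0 := by
    by_contra h; push Not at h
    simp [bitWgt, h] at hb
  have hW : ∑ n ∈ fib R b, ‖sig n‖ ^ 2 ≤ 1 := by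
    rw [sum_sig_fib]; exact pow_le_one₀ (oW_nonneg R) (oW_le_one R)
  set G := (Finset.Icc 3 R).filter fun g : ℕ => (g : ZMod 2) = 1 with hG
  have hsub : (fib R b).filter (fun n => ¬ Prim n)
      ⊆ (G ×ˢ fib R b).image fun p => (p.1 : ℤ) • p.2 := by
    intro n hn
    rw [Finset.mem_filter] at hn
    set g := Finset.univ.gcd fun d => (n d).natAbs with hg
    have hdvd : ∀ d, (g:ℤ) ∣ n d := fun d => Int.natCast_dvd.2 (Finset.gcd_dvd (Finset.mem_univ d))
    rcases mem_fib hn.1 d0 with ⟨hb0, -⟩ | ⟨-, hodd, hl, hu⟩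
    · exact absurd hb0 hd0
    obtain ⟨c, hc⟩ := hdvd d0
    have hgodd : (g : ZMod 2) = 1 := by
      refine (zmod2_cases _).resolve_left fun h => ?_
      rw [hc, Int.cast_mul, Int.cast_natCast, h, zero_mul] at hodd
      exact zero_ne_one hodd
    have h0 : n d0 ≠ 0 := fun h0 => by simp [h0] at hodd
    have hgR : g ≤ R := (Nat.le_of_dvd (Int.natAbs_pos.2 h0) (Finset.gcd_dvd (f := fun d => (n d).natAbs) (Finset.mem_univ d0))).trans (show (n d0).natAbs ≤ R by omega)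
    have hg1 : g ≠ 1 := hn.2
    have hg3 : 3 ≤ g := by
      rcases lt_or_ge g 3 with h | h
      · interval_cases g
        · simp at hgodd
        · exact absurd rfl hg1
        · exact absurd hgodd (by decide)
      · exact h
    have hgpos : (0:ℤ) < g := by omega
    refine Finset.mem_image.2 ⟨(g, fun d => n d / g), Finset.mem_product.2
      ⟨Finset.mem_filter.2 ⟨Finset.mem_Icc.2 ⟨hg3, hgR⟩, hgodd⟩, ?_⟩, ?_⟩
    · refine Fintype.mem_piFinset.2 fun d => ?_
      dsimp only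
      rcases mem_fib hn.1 d with ⟨hb1, hz⟩ | ⟨hb1, ho, h1, h2⟩
      · simp [hb1, hz]
      · obtain ⟨c', hc'⟩ := hdvd d
        have hq : n d / (g:ℤ) = c' := by rw [hc', Int.mul_ediv_cancel_left _ hgpos.ne']
        rw [hq, if_neg hb1, oset, Finset.mem_filter, Finset.mem_Icc]
        refine ⟨⟨?_, ?_⟩, ?_⟩
        · nlinarith
        · nlinarith
        · rw [hc', Int.cast_mul, Int.cast_natCast, hgodd, one_mul] at ho
          exact ho
    · funext d
      exact Int.mul_ediv_cancel' (hdvd d)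
  refine (Finset.sum_le_sum_of_subset_of_nonneg hsub fun _ _ _ => sq_nonneg _).trans
    ((Finset.sum_image_le_of_nonneg fun _ _ => sq_nonneg _).trans ?_)
  rw [Finset.sum_product]
  have hscale : ∀ g ∈ G, ∀ m ∈ fib R b, ‖sig ((g:ℤ) • m)‖ ^ 2 = (((g:ℝ) ^ 2)⁻¹) ^ bitWgt b * ‖sig m‖ ^ 2 := by
    intro g hg m hm'
    rw [hG, Finset.mem_filter, Finset.mem_Icc] at hg
    rw [show (((g:ℝ) ^ 2)⁻¹) ^ bitWgt b = ∏ d ∈ Finset.univ.filter fun d => b d ≠ 0, ((g:ℝ) ^ 2)⁻¹ from
      (Finset.prod_const _).symm, Finset.prod_filter, sig, sig, norm_prod, norm_prod, ← Finset.prod_pow,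
      ← Finset.prod_pow, ← Finset.prod_mul_distrib]
    refine Finset.prod_congr rfl fun d _ => ?_
    rcases mem_fib hm' d with ⟨hb1, hz⟩ | ⟨hb1, ho, -⟩
    · simp [hb1, hz]
    · have ho' : ((((g:ℤ) • m) d : ℤ) : ZMod 2) = 1 := by
        rw [Pi.smul_apply, smul_eq_mul, Int.cast_mul, Int.cast_natCast, hg.2, ho, one_mul]
      rw [if_pos hb1, s1_odd ho', s1_odd ho, Pi.smul_apply, smul_eq_mul, Int.cast_mul, Int.cast_natCast,
        abs_mul, Nat.abs_cast]
      ring
  calc ∑ g ∈ G, ∑ m ∈ fib R b, ‖sig ((g:ℤ) • m)‖ ^ 2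
      ≤ ∑ g ∈ G, (((g:ℝ) ^ 2)⁻¹) ^ bitWgt b * 1 := Finset.sum_le_sum fun g hg => by
        rw [Finset.sum_congr rfl (hscale g hg), ← Finset.mul_sum]
        gcongr
    _ ≤ ∑ g ∈ G, (1 / 9 : ℝ) ^ r * ((g:ℝ) ^ 2)⁻¹ := Finset.sum_le_sum fun g hg => by
        rw [hG, Finset.mem_filter, Finset.mem_Icc] at hg
        have h3 : (3:ℝ) ≤ g := by exact_mod_cast hg.1.1
        have h9 : ((g:ℝ) ^ 2)⁻¹ ≤ 1 / 9 := by
          rw [one_div]; exact inv_anti₀ (by norm_num) (by nlinarith)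
        obtain ⟨k, hk⟩ : ∃ k, bitWgt b = r + k + 1 := ⟨bitWgt b - r - 1, by omega⟩
        rw [mul_one, hk, pow_succ, pow_add]
        have hu1 : (0:ℝ) ≤ ((g:ℝ) ^ 2)⁻¹ := by positivity
        gcongr
        calc (((g:ℝ) ^ 2)⁻¹) ^ r * (((g:ℝ) ^ 2)⁻¹) ^ k ≤ (((g:ℝ) ^ 2)⁻¹) ^ r * 1 := by
              gcongr; exact pow_le_one₀ hu1 (h9.trans (by norm_num))
          _ ≤ (1 / 9 : ℝ) ^ r := by rw [mul_one]; gcongr
    _ ≤ (1 / 9 : ℝ) ^ r := by
        rw [← Finset.mul_sum]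
        refine mul_le_of_le_one_right (by positivity) ?_
        refine (Finset.sum_le_sum_of_subset_of_nonneg (t := Finset.Ioo 1 (R + 1)) ?_ fun _ _ _ => by positivity).trans
          ((sum_Ioo_inv_sq_le 1 (R + 1)).trans (by norm_num))
        intro g hg
        rw [hG, Finset.mem_filter, Finset.mem_Icc] at hg
        rw [Finset.mem_Ioo]; omega

theorem card_low_le (e r : ℕ) (he : 1 ≤ e) :
    (Finset.univ.filter fun b : Bits e => bitWgt b ≤ r).card ≤ (r + 1) * (2 * e) ^ r := by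
  classical
  set S : Bits e → Finset (Coord e) := fun b => Finset.univ.filter fun d => b d ≠ 0 with hS
  have hinj : Function.Injective S := by
    intro a b h
    funext d
    have h' : (a d ≠ 0) ↔ (b d ≠ 0) := by
      have := Finset.ext_iff.1 h d
      simpa [hS] using this
    rcases zmod2_cases (a d) with ha | ha <;> rcases zmod2_cases (b d) with hb | hb <;>
      simp [ha, hb] at h' ⊢
  rw [← Finset.card_image_of_injective _ hinj]
  refine (Finset.card_le_card (t := (Finset.range (r + 1)).biUnion fun k => Finset.univ.powersetCard k) ?_).trans ?_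
  · intro s hs
    obtain ⟨b, hb, rfl⟩ := Finset.mem_image.1 hs
    rw [Finset.mem_filter] at hb
    refine Finset.mem_biUnion.2 ⟨(S b).card, Finset.mem_range.2 (Nat.lt_succ_of_le hb.2),
      Finset.mem_powersetCard.2 ⟨Finset.subset_univ _, rfl⟩⟩
  · refine Finset.card_biUnion_le.trans ?_
    have : ∀ k ∈ Finset.range (r + 1), ((Finset.univ : Finset (Coord e)).powersetCard k).card ≤ (2 * e) ^ r := by
      intro k hk
      rw [Finset.card_powersetCard, Finset.card_univ, Fintype.card_sum, Fintype.card_fin, ← two_mul]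
      exact (Nat.choose_le_pow _ _).trans (Nat.pow_le_pow_right (by omega) (Nat.lt_succ_iff.1 (Finset.mem_range.1 hk)))
    refine (Finset.sum_le_card_nsmul _ _ _ this).trans ?_
    simp

theorem tendsto_low (r : ℕ) :
    Tendsto (fun e : ℕ => (((r + 1) * (2 * e) ^ r + 1 : ℕ) : ℝ) / (2:ℝ) ^ e) atTop (𝓝 0) := by
  have h1 := (tendsto_pow_const_div_const_pow_of_one_lt r (one_lt_two : (1:ℝ) < 2)).const_mul ((r + 1 : ℝ) * 2 ^ r)
  have h2 := tendsto_pow_const_div_const_pow_of_one_lt 0 (one_lt_two : (1:ℝ) < 2)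
  have h := h1.add h2
  rw [mul_zero, add_zero] at h
  refine h.congr fun e => ?_
  push_cast
  rw [mul_pow]
  ring

/-- For large `e`: a set of primitive frequencies carrying almost all the energy of every label. -/
theorem exists_weights {η : ℝ} (hη : 0 < η) :
    ∀ᶠ e : ℕ in atTop, ∃ (s0 sl : Bits e → Fin (2 ^ e)) (K : Finset (Coord e → ℤ)),
      (∀ s, (Finset.univ.filter fun g => s0 g = s).card = 2 ^ e) ∧
      (∀ n ∈ K, -n ∈ K ∧ Prim n ∧ sig n ≠ 0 ∧ ‖sig (-n)‖ = ‖sig n‖) ∧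
      (∀ b, ∑ n ∈ K.filter (fun n => cls2 n = b), ‖sig n‖ ^ 2 ≤ 1) ∧
      (∀ s, (1 - η) * (2:ℝ) ^ e ≤ ∑ n ∈ K.filter (fun n => sl (cls2 n) = s), ‖sig n‖ ^ 2 ∧
        ∑ n ∈ K.filter (fun n => sl (cls2 n) = s), ‖sig n‖ ^ 2 ≤ (2:ℝ) ^ e) ∧
      ∀ G : Fin (2 ^ e) → ℂ, ∑ s, G s = 0 → ∃ E : Bits e → ℂ,
        ∑ b, ‖E b‖ ^ 2 ≤ (∑ s, ‖G s‖ ^ 2) / ((2 : ℝ) ^ e) ^ 2 ∧
        ∀ n ∈ K, (∑ g, G (s0 g) * sgn (bdot g (cls2 n))) / ((2 : ℂ) ^ e) ^ 2
          = G (sl (cls2 n)) / (2 : ℂ) ^ e + E (cls2 n) := by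
  obtain ⟨r, hr⟩ := exists_pow_lt_of_lt_one (div_pos hη (by norm_num : (0:ℝ) < 4)) (by norm_num : (1 / 9 : ℝ) < 1)
  filter_upwards [eventually_ge_atTop 1, (tendsto_low r).eventually (ge_mem_nhds (half_pos hη))] with e he hlow
  classical
  obtain ⟨s0, sl, good, hs0, hgood, hE⟩ := exists_spread e he
  obtain ⟨R, hR⟩ := (((tendsto_oW.pow (2 * e))).eventually
    (eventually_gt_nhds (show 1 - η / 4 < (1:ℝ) ^ (2 * e) by rw [one_pow]; linarith))).exists
  set H := good.filter fun b => r < bitWgt b with hH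
  set F : Bits e → Finset (Coord e → ℤ) := fun b => (fib R b).filter Prim with hF
  set K := H.biUnion F with hK
  have hcls : ∀ b, ∀ n ∈ F b, cls2 n = b := fun b n hn => cls2_of_mem_fib (Finset.mem_filter.1 hn).1
  have hmemK : ∀ n ∈ K, ∃ b ∈ H, n ∈ F b ∧ cls2 n = b := fun n hn => by
    obtain ⟨b, hb, hnb⟩ := Finset.mem_biUnion.1 hn
    exact ⟨b, hb, hnb, hcls b n hnb⟩
  have hdisj : (H : Set (Bits e)).PairwiseDisjoint F := by
    intro a _ b _ hab
    refine Finset.disjoint_left.2 fun n ha hb => hab ?_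
    rw [← hcls a n ha, hcls b n hb]
  have hup : ∀ b, ∑ n ∈ F b, ‖sig n‖ ^ 2 ≤ 1 := fun b =>
    (Finset.sum_le_sum_of_subset_of_nonneg (Finset.filter_subset _ _) fun _ _ _ => sq_nonneg _).trans
      ((sum_sig_fib R b).trans_le (pow_le_one₀ (oW_nonneg R) (oW_le_one R)))
  have hlo : ∀ b ∈ H, 1 - η / 2 ≤ ∑ n ∈ F b, ‖sig n‖ ^ 2 := by
    intro b hb
    have hsum := Finset.sum_filter_add_sum_filter_not (fib R b) Prim fun n => ‖sig n‖ ^ 2
    have hw : bitWgt b ≤ 2 * e := by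
      refine (Finset.card_le_univ _).trans ?_
      simp [two_mul]
    have h1 := pow_le_pow_of_le_one (oW_nonneg R) (oW_le_one R) hw
    have h2 := sum_bad_le R r b (Finset.mem_filter.1 hb).2
    rw [sum_sig_fib] at hsum
    simp only [hF]
    linarith
  refine ⟨s0, sl, K, hs0, fun n hn => ?_, fun b => ?_, fun s => ?_, fun G hG => ?_⟩
  · obtain ⟨b, hb, hnb, -⟩ := hmemK n hn
    rw [hF, Finset.mem_filter] at hnb
    exact ⟨Finset.mem_biUnion.2 ⟨b, hb, Finset.mem_filter.2 ⟨neg_mem_fib hnb.1, prim_neg hnb.2⟩⟩, hnb.2,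
      sig_ne_zero hnb.1, norm_sig_neg hnb.1⟩
  · refine le_trans (Finset.sum_le_sum_of_subset_of_nonneg ?_ fun _ _ _ => sq_nonneg _) (hup b)
    intro n hn
    rw [Finset.mem_filter] at hn
    obtain ⟨b', -, hnb, hc⟩ := hmemK n hn.1
    rwa [← hn.2, hc]
  · have hset : K.filter (fun n => sl (cls2 n) = s) = (H.filter fun b => sl b = s).biUnion F := by
      ext n
      simp only [Finset.mem_filter, Finset.mem_biUnion]
      constructor
      · rintro ⟨hn, hs⟩
        obtain ⟨b, hb, hnb, hc⟩ := hmemK n hn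
        exact ⟨b, ⟨hb, by rw [← hc]; exact hs⟩, hnb⟩
      · rintro ⟨b, ⟨hb, hs⟩, hnb⟩
        exact ⟨Finset.mem_biUnion.2 ⟨b, hb, hnb⟩, by rw [hcls b n hnb]; exact hs⟩
    rw [hset, Finset.sum_biUnion (hdisj.subset (Finset.coe_subset.2 (Finset.filter_subset _ _)))]
    have hq : (0:ℝ) < 2 ^ e := by positivity
    constructor
    · refine le_trans ?_ (Finset.sum_le_sum (f := fun _ => 1 - η / 2) fun b hb => hlo b (Finset.mem_filter.1 hb).1)
      rw [Finset.sum_const, nsmul_eq_mul]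
      have hcount : 2 ^ e ≤ (H.filter fun b => sl b = s).card + ((r + 1) * (2 * e) ^ r + 1) := by
        have h1 : (good.filter fun b => sl b = s)
            ⊆ (H.filter fun b => sl b = s) ∪ (Finset.univ.filter fun b : Bits e => bitWgt b ≤ r) := by
          intro b hb
          simp only [hH, Finset.mem_filter, Finset.mem_union, Finset.mem_univ, true_and] at hb ⊢
          rcases lt_or_ge r (bitWgt b) with h | h
          · exact Or.inl ⟨⟨hb.1, h⟩, hb.2⟩
          · exact Or.inr h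
        have h2 := (Finset.card_le_card h1).trans (Finset.card_union_le _ _)
        have h3 := card_low_le e r he
        rw [hgood] at h2
        omega
      have hc : (2:ℝ) ^ e ≤ ((H.filter fun b => sl b = s).card : ℝ) + (((r + 1) * (2 * e) ^ r + 1 : ℕ) : ℝ) := by
        exact_mod_cast hcount
      rw [div_le_iff₀ hq] at hlow
      rcases le_or_gt η 1 with h | h
      · have h4 : (1 - η / 2) * (2:ℝ) ^ e ≤ ((H.filter fun b => sl b = s).card : ℝ) := by linarith
        have h5 := mul_le_mul_of_nonneg_right h4 (show 0 ≤ 1 - η / 2 by linarith)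
        nlinarith
      · have h4 : (0:ℝ) ≤ ((H.filter fun b => sl b = s).card : ℝ) := Nat.cast_nonneg _
        rcases le_or_gt 0 (1 - η / 2) with h6 | h6
        · nlinarith
        · have h7 : ((H.filter fun b => sl b = s).card : ℝ) ≤ 2 ^ e := by
            have := (Finset.card_le_card (Finset.filter_subset_filter (fun b => sl b = s)
              (Finset.filter_subset (fun b => r < bitWgt b) good))).trans_eq (hgood s)
            exact_mod_cast (this.trans (Nat.sub_le _ _))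
          nlinarith
    · refine (Finset.sum_le_sum fun b _ => hup b).trans ?_
      rw [Finset.sum_const, nsmul_eq_mul, mul_one]
      have h1 : (H.filter fun b => sl b = s).card ≤ 2 ^ e :=
        ((Finset.card_le_card (Finset.filter_subset_filter (fun b => sl b = s)
              (Finset.filter_subset (fun b => r < bitWgt b) good))).trans_eq
          (hgood s)).trans (Nat.sub_le _ _)
      exact_mod_cast h1
  · obtain ⟨E, hE1, hE2⟩ := hE G hG
    refine ⟨E, hE1, fun n hn => ?_⟩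
    obtain ⟨b, hb, -, hc⟩ := hmemK n hn
    rw [hc]
    exact hE2 b (Finset.mem_filter.1 hb).1

end

end Vale.Agent.P130.Full
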