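import Mathlib

/-! Characters of bit strings and the partial-spread map of two field elements to a slope. -/

namespace Vale.Agent.P130.Full

noncomputable section

/-- bit strings of a pair of field elements -/
abbrev Bits (e : ℕ) : Type := Fin e ⊕ Fin e → ZMod 2

/-- sign of a bit -/
def sgn (x : ZMod 2) : ℂ := (-1) ^ x.val

theorem sgn_zero : sgn 0 = 1 := by simp [sgn]

theorem sgn_one : sgn 1 = -1 := by simp [sgn, ZMod.val_one]

theorem sgn_add : ∀ x y : ZMod 2, sgn (x + y) = sgn x * sgn y := by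
  intro x y
  have h : ∀ x y : ZMod 2, (x + y).val % 2 = (x.val + y.val) % 2 := by decide
  rw [sgn, sgn, sgn, ← pow_add, neg_one_pow_eq_pow_mod_two, h x y, ← neg_one_pow_eq_pow_mod_two]

theorem norm_sgn (x : ZMod 2) : ‖sgn x‖ = 1 := by simp [sgn]

theorem sgn_sum {ι : Type*} (s : Finset ι) (f : ι → ZMod 2) :
    sgn (∑ i ∈ s, f i) = ∏ i ∈ s, sgn (f i) := by
  classical
  induction s using Finset.induction_on with
  | empty => simp [sgn_zero]
  | insert a s ha ih => rw [Finset.sum_insert ha, Finset.prod_insert ha, sgn_add, ih]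

/-- pairing of bit strings -/
def bdot {e : ℕ} (g b : Bits e) : ZMod 2 := ∑ d, g d * b d

variable {F : Type*} [Field F] [Fintype F] [DecidableEq F] [Module (ZMod 2) F]

omit [DecidableEq F] in
theorem sum_sgn_lam (lam : F →ₗ[ZMod 2] ZMod 2) {u₀ : F} (hu : lam u₀ = 1) {a : F} (ha : a ≠ 0) :
    ∑ u, sgn (lam (u * a)) = 0 := by
  have h : ∑ u, sgn (lam (u * a)) = -∑ u, sgn (lam (u * a)) := by
    conv_lhs => rw [← Equiv.sum_comp (Equiv.addRight (u₀ / a))]
    rw [← Finset.sum_neg_distrib]
    refine Finset.sum_congr rfl fun u _ => ?_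
    simp [add_mul, div_mul_cancel₀ _ ha, hu, sgn_add, sgn_one]
  linear_combination (1/2 : ℂ) * h

omit [DecidableEq F] in
theorem sum_norm_sq_transform (lam : F →ₗ[ZMod 2] ZMod 2) {u₀ : F} (hu : lam u₀ = 1) (G : F → ℂ) :
    ∑ B, ‖∑ v, G v * sgn (lam (v * B))‖ ^ 2 = (Fintype.card F : ℝ) * ∑ v, ‖G v‖ ^ 2 := by
  classical
  have hc : ∀ x : ZMod 2, (starRingEnd ℂ) (sgn x) = sgn x := fun x => by simp [sgn]
  have hk : ∀ v w : F, ∑ B, sgn (lam (v * B)) * sgn (lam (w * B))
      = if v = w then (Fintype.card F : ℂ) else 0 := by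
    intro v w
    simp only [← sgn_add, ← map_add, ← add_mul]
    split_ifs with h
    · subst h
      have h2 : v + v = 0 := by
        have : (2 : ZMod 2) • v = v + v := two_smul _ v
        rw [← this, show (2 : ZMod 2) = 0 from rfl, zero_smul]
      simp [h2, sgn_zero]
    · have hne : v + w ≠ 0 := by
        intro h0
        have hw : w + w = 0 := by
          have : (2 : ZMod 2) • w = w + w := two_smul _ w
          rw [← this, show (2 : ZMod 2) = 0 from rfl, zero_smul]
        exact h (by linear_combination h0 - hw)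
      simp only [mul_comm (v + w)]
      exact sum_sgn_lam lam hu hne
  apply Complex.ofReal_injective
  push_cast
  simp only [← Complex.mul_conj', map_sum, map_mul, hc, Finset.sum_mul, Finset.mul_sum]
  rw [Finset.sum_comm]
  refine Finset.sum_congr rfl fun v _ => ?_
  rw [Finset.sum_comm]
  rw [Finset.sum_eq_single v]
  · rw [show (∑ y, G v * sgn (lam (v * y)) * ((starRingEnd ℂ) (G v) * sgn (lam (v * y))))
        = G v * (starRingEnd ℂ) (G v) * ∑ y, sgn (lam (v * y)) * sgn (lam (v * y)) by
      rw [Finset.mul_sum]; exact Finset.sum_congr rfl fun y _ => by ring]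
    rw [hk, if_pos rfl]; ring
  · intro w _ hw
    rw [show (∑ y, G w * sgn (lam (w * y)) * ((starRingEnd ℂ) (G v) * sgn (lam (v * y))))
        = G w * (starRingEnd ℂ) (G v) * ∑ y, sgn (lam (w * y)) * sgn (lam (v * y)) by
      rw [Finset.mul_sum]; exact Finset.sum_congr rfl fun y _ => by ring]
    rw [hk, if_neg hw, mul_zero]
  · simp

/-- slope of a pair -/
def slope (p : F × F) : F := if p.1 = 0 then p.2 else p.2 / p.1

theorem sum_slope {M : Type*} [AddCommMonoid M] (f : F → F → M) :
    ∑ p : F × F, f p.1 (slope p) = ∑ u, ∑ m, f u m := by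
  rw [Fintype.sum_prod_type]
  refine Finset.sum_congr rfl fun u _ => ?_
  by_cases hu : u = 0
  · simp [slope, hu]
  · simp only [slope, hu, if_false]
    exact Equiv.sum_comp (Equiv.mulRight₀ u⁻¹ (inv_ne_zero hu)) (fun m => f u m)
      |> fun h => by simpa [div_eq_mul_inv] using h

theorem char_sum (lam : F →ₗ[ZMod 2] ZMod 2) {u₀ : F} (hu : lam u₀ = 1) (G : F → ℂ)
    (hG : ∑ m, G m = 0) (A B : F) (hB : B ≠ 0) :
    ∑ p : F × F, G (slope p) * sgn (lam (p.1 * A + p.2 * B))
      = (Fintype.card F : ℂ) * G (-A / B) + ∑ v, G v * sgn (lam (v * B)) := by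
  have e1 : ∀ p : F × F, G (slope p) * sgn (lam (p.1 * A + p.2 * B))
      = (fun u m => G m * sgn (lam (if u = 0 then m * B else u * (A + m * B)))) p.1 (slope p) := by
    rintro ⟨u, v⟩
    by_cases h : u = 0
    · simp [slope, h]
    · simp only [slope, h, if_false]
      rw [mul_add, ← mul_assoc, mul_div_cancel₀ _ h]
  rw [Finset.sum_congr rfl fun p _ => e1 p,
    sum_slope (fun u m => G m * sgn (lam (if u = 0 then m * B else u * (A + m * B)))),
    Finset.sum_comm]
  beta_reduce
  have e2 : ∀ m, ∑ u, G m * sgn (lam (if u = 0 then m * B else u * (A + m * B)))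
      = G m * (sgn (lam (m * B)) - 1 + if m = -A / B then (Fintype.card F : ℂ) else 0) := by
    intro m
    rw [← Finset.mul_sum]
    congr 1
    have hsp : ∀ u : F, sgn (lam (if u = 0 then m * B else u * (A + m * B)))
        = sgn (lam (u * (A + m * B))) + if u = 0 then sgn (lam (m * B)) - 1 else 0 := by
      intro u
      split_ifs with h
      · simp [h, sgn_zero]
      · simp
    simp only [hsp, Finset.sum_add_distrib, Finset.sum_ite_eq', Finset.mem_univ, if_true]
    rw [add_comm (sgn (lam (m * B)) - 1)]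
    congr 1
    split_ifs with h
    · subst h
      simp [neg_div, div_mul_cancel₀ _ hB, sgn_zero]
    · refine sum_sgn_lam lam hu fun h0 => h ?_
      rw [eq_div_iff hB]
      linear_combination h0
  simp only [e2]
  simp only [mul_add, mul_sub, mul_one, Finset.sum_add_distrib, Finset.sum_sub_distrib, hG,
    sub_zero, mul_ite, mul_zero, Finset.sum_ite_eq', Finset.mem_univ, if_true]
  ring

theorem spread_of_field {F : Type} [Field F] [Fintype F] [DecidableEq F] [Algebra (ZMod 2) F]
    (e : ℕ) (he : 1 ≤ e) (bas : Module.Basis (Fin e) (ZMod 2) F)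
    (hcard : Fintype.card F = 2 ^ e) :
    ∃ (s0 sl : Bits e → Fin (2 ^ e)) (good : Finset (Bits e)),
      (∀ s, (Finset.univ.filter fun g => s0 g = s).card = 2 ^ e) ∧
      (∀ s, (good.filter fun b => sl b = s).card = 2 ^ e - 1) ∧
      ∀ G : Fin (2 ^ e) → ℂ, ∑ s, G s = 0 → ∃ E : Bits e → ℂ,
        ∑ b, ‖E b‖ ^ 2 ≤ (∑ s, ‖G s‖ ^ 2) / ((2 : ℝ) ^ e) ^ 2 ∧
        ∀ b ∈ good, (∑ g, G (s0 g) * sgn (bdot g b)) / ((2 : ℂ) ^ e) ^ 2
          = G (sl b) / (2 : ℂ) ^ e + E b := by
  classical
  let i₀ : Fin e := ⟨0, he⟩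
  let lam : F →ₗ[ZMod 2] ZMod 2 := bas.coord i₀
  have hu : lam (bas i₀) = 1 := by simp [lam]
  let num : F ≃ Fin (2 ^ e) := Fintype.equivFinOfCardEq hcard
  -- bit strings as pairs
  let pr : Bits e ≃ F × F :=
    (Equiv.sumArrowEquivProdArrow _ _ _).trans
      (bas.equivFun.symm.toEquiv.prodCongr bas.equivFun.symm.toEquiv)
  have hpr : ∀ g, pr g = (∑ i, g (Sum.inl i) • bas i, ∑ i, g (Sum.inr i) • bas i) := fun g => by
    simp [pr, Equiv.sumArrowEquivProdArrow, Module.Basis.equivFun_symm_apply]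
  let cls : F × F → Bits e := fun AB d =>
    Sum.elim (fun i => lam (bas i * AB.1)) (fun i => lam (bas i * AB.2)) d
  have hdot : ∀ g AB, bdot g (cls AB) = lam ((pr g).1 * AB.1 + (pr g).2 * AB.2) := by
    intro g AB
    simp only [bdot, Fintype.sum_sum_type, hpr, cls, Sum.elim_inl, Sum.elim_inr, map_add,
      Finset.sum_mul, map_sum, smul_mul_assoc, map_smul, smul_eq_mul]
  have hinj : Function.Injective cls := by
    intro AB AB' h
    have key : ∀ a a' : F, (∀ i, lam (bas i * a) = lam (bas i * a')) → a = a' := by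
      intro a a' hh
      by_contra hne
      have hz : lam ∘ₗ (LinearMap.mulRight (ZMod 2) (a - a')) = 0 := bas.ext fun i => by
        simp [mul_sub, hh i]
      have h0 := congrArg (fun f : F →ₗ[ZMod 2] ZMod 2 => f (bas i₀ / (a - a'))) hz
      simp [div_mul_cancel₀ _ (sub_ne_zero.mpr hne), hu] at h0
    exact Prod.ext (key _ _ fun i => congrFun h (Sum.inl i))
      (key _ _ fun i => congrFun h (Sum.inr i))
  have hbij : Function.Bijective cls :=
    (Fintype.bijective_iff_injective_and_card cls).2 ⟨hinj, by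
      simp [Fintype.card_prod, hcard, ← pow_add]⟩
  let ce : F × F ≃ Bits e := Equiv.ofBijective cls hbij
  refine ⟨fun g => num (slope (pr g)), fun b => num (-(ce.symm b).1 / (ce.symm b).2),
    Finset.univ.filter fun b => (ce.symm b).2 ≠ 0, fun s => ?_, fun s => ?_, fun G hG => ?_⟩
  · have h := sum_slope (F := F) (fun _ m => if num m = s then (1 : ℕ) else 0)
    rw [Finset.card_filter, ← Equiv.sum_comp pr.symm]
    simp only [Equiv.apply_symm_apply]
    rw [h, Finset.sum_const, Finset.card_univ, hcard]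
    simp [← Equiv.eq_symm_apply]
  · have hinj2 : Function.Injective (fun B : F => ce (-(num.symm s) * B, B)) := fun a b h =>
      congrArg Prod.snd (ce.injective h)
    have hEq : (Finset.univ.filter fun b => (ce.symm b).2 ≠ 0).filter
        (fun b => num (-(ce.symm b).1 / (ce.symm b).2) = s)
        = (Finset.univ.erase (0:F)).image fun B => ce (-(num.symm s) * B, B) := by
      ext b
      simp only [Finset.mem_filter, Finset.mem_univ, true_and, Finset.mem_image, Finset.mem_erase,
        and_true]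
      constructor
      · rintro ⟨hB, hs⟩
        refine ⟨(ce.symm b).2, hB, ?_⟩
        rw [← hs, Equiv.symm_apply_apply, neg_div, neg_neg, div_mul_cancel₀ _ hB,
          Prod.mk.eta, Equiv.apply_symm_apply]
      · rintro ⟨B, hB, rfl⟩
        simp [hB]
    rw [hEq, Finset.card_image_of_injective _ hinj2, Finset.card_erase_of_mem (Finset.mem_univ _),
      Finset.card_univ, hcard]
  · set H : F → ℂ := fun m => G (num m)
    have hH : ∑ m, H m = 0 := by rw [← hG]; exact Equiv.sum_comp num G
    have hq : ((2 : ℂ) ^ e) = (Fintype.card F : ℂ) := by rw [hcard]; simp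
    have hqr : ((2 : ℝ) ^ e) = (Fintype.card F : ℝ) := by rw [hcard]; simp
    refine ⟨fun b => (∑ v, H v * sgn (lam (v * (ce.symm b).2))) / ((2 : ℂ) ^ e) ^ 2, ?_, ?_⟩
    · rw [← Equiv.sum_comp ce, Fintype.sum_prod_type]
      simp only [Equiv.symm_apply_apply, norm_div, norm_pow, Complex.norm_ofNat, div_pow,
        ← Finset.sum_div, Finset.sum_const, Finset.card_univ, nsmul_eq_mul]
      rw [sum_norm_sq_transform lam hu H, Equiv.sum_comp num (fun s => ‖G s‖ ^ 2), hqr]
      have : (0:ℝ) < Fintype.card F := by exact_mod_cast Fintype.card_pos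
      refine le_of_eq ?_
      field_simp
    · intro b hb
      rw [Finset.mem_filter] at hb
      obtain ⟨⟨A, B⟩, rfl⟩ := ce.surjective b
      simp only [Equiv.symm_apply_apply] at hb ⊢
      have hbd : ∀ g, sgn (bdot g (ce (A, B))) = sgn (lam ((pr g).1 * A + (pr g).2 * B)) := fun g => by
        rw [show ce (A, B) = cls (A, B) from rfl, hdot]
      simp only [hbd, H]
      rw [Equiv.sum_comp pr (fun p => G (num (slope p)) * sgn (lam (p.1 * A + p.2 * B))),
        char_sum lam hu (fun m => G (num m)) hH A B hb.2, hq]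
      have : (Fintype.card F : ℂ) ≠ 0 := by exact_mod_cast Fintype.card_ne_zero
      field_simp

/-- A uniform label of bit strings whose transform is a relabelling of the values, up to a small error. -/
theorem exists_spread (e : ℕ) (he : 1 ≤ e) :
    ∃ (s0 sl : Bits e → Fin (2 ^ e)) (good : Finset (Bits e)),
      (∀ s, (Finset.univ.filter fun g => s0 g = s).card = 2 ^ e) ∧
      (∀ s, (good.filter fun b => sl b = s).card = 2 ^ e - 1) ∧
      ∀ G : Fin (2 ^ e) → ℂ, ∑ s, G s = 0 → ∃ E : Bits e → ℂ,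
        ∑ b, ‖E b‖ ^ 2 ≤ (∑ s, ‖G s‖ ^ 2) / ((2 : ℝ) ^ e) ^ 2 ∧
        ∀ b ∈ good, (∑ g, G (s0 g) * sgn (bdot g b)) / ((2 : ℂ) ^ e) ^ 2
          = G (sl b) / (2 : ℂ) ^ e + E b := by
  classical
  have he0 : e ≠ 0 := by omega
  haveI : Fintype (GaloisField 2 e) := Fintype.ofFinite _
  have hcard : Fintype.card (GaloisField 2 e) = 2 ^ e := by
    rw [← Nat.card_eq_fintype_card]; exact GaloisField.card 2 e he0
  exact spread_of_field e he ((Module.finBasis (ZMod 2) (GaloisField 2 e)).reindex
    (finCongr (GaloisField.finrank 2 he0))) hcard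

end

end Vale.Agent.P130.Full
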