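import Vale.Agent.P130.Full.Torus
import Vale.Agent.P130.Full.EncChar

/-! The encoding map on a torus: measure preservation and Fourier coefficients. -/

namespace Vale.Agent.P130.Full

open MeasureTheory Filter Topology Set UnitAddTorus
open Vale.Agent.P130 Vale.Agent.P130.Sol
open scoped ENNReal ComplexConjugate Real

noncomputable section

/-- coordinates carrying bits -/
abbrev Coord (e : ℕ) : Type := Fin e ⊕ Fin e

/-- coordinates of the encoding torus -/
abbrev Idx (e J : ℕ) : Type := Coord e ⊕ Fin J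

/-- torus with index type `ι` -/
abbrev TI (ι : Type) : Type := ι → UnitAddCircle

/-- Haar measure of `TI ι` -/
abbrev hI (ι : Type) [Fintype ι] : Measure (TI ι) := Measure.pi fun _ => hm

theorem hI_eq_volume (ι : Type) [Fintype ι] : hI ι = (volume : Measure (TI ι)) := by
  rw [volume_pi, hI, hm_eq_volume]

/-- chirped shift of the bit coordinates -/
def psi {e J : ℕ} (w : Fin J → Coord e → ℤ) (t : TI (Fin J)) (d : Coord e) : UnitAddCircle :=
  ((∑ j, (w j d : ℝ) * rep (t j) ^ 2 / 2 : ℝ) : UnitAddCircle)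

/-- sheared bit coordinates -/
def shr {e J : ℕ} (w : Fin J → Coord e → ℤ) (ω : TI (Idx e J)) (d : Coord e) : UnitAddCircle :=
  ω (Sum.inl d) + psi w (fun j => ω (Sum.inr j)) d

/-- half of the circle -/
def cell (x : UnitAddCircle) : Fin 2 := ⟨cidx 2 x, cidx_lt 2 two_pos x⟩

/-- bit of a point -/
def bitv (c : Fin 2) : ZMod 2 := ((c : ℕ) : ZMod 2)

theorem measurable_cell : Measurable cell :=
  measurable_to_countable' fun i => by
    have : cell ⁻¹' {i} = cidx 2 ⁻¹' {(i : ℕ)} := by ext x; simp [cell, Fin.ext_iff]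
    rw [this]; exact measurable_cidx 2 (measurableSet_singleton _)

theorem bitv_bijective : Function.Bijective bitv := by decide

/-- bits of the sheared coordinates -/
def bitsOf {e : ℕ} (σ : TI (Coord e)) : Bits e := fun d => bitv (cell (σ d))

theorem measurable_psi {e J : ℕ} (w : Fin J → Coord e → ℤ) (d : Coord e) :
    Measurable fun t => psi w t d := by
  refine Measurable.comp (g := fun x : ℝ => (x : UnitAddCircle))
    (AddCircle.continuous_mk' (1:ℝ) : Continuous fun x : ℝ => (x : UnitAddCircle)).measurable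
    (Finset.measurable_sum _ fun j _ => ?_)
  exact (((measurable_rep.comp (measurable_pi_apply (X := fun _ : Fin J => UnitAddCircle) j)).pow_const 2).const_mul _).div_const _

theorem measurePreserving_shr {e J : ℕ} (w : Fin J → Coord e → ℤ) :
    MeasurePreserving (shr w) (hI (Idx e J)) (hI (Coord e)) := by
  have h1 : MeasurePreserving (MeasurableEquiv.sumPiEquivProdPi fun _ : Idx e J => UnitAddCircle)
      (hI (Idx e J)) ((hI (Coord e)).prod (hI (Fin J))) := measurePreserving_sumPiEquivProdPi _
  have h2 : MeasurePreserving (fun p : TI (Fin J) × TI (Coord e) => (p.1, p.2 + fun d => psi w p.1 d))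
      ((hI (Fin J)).prod (hI (Coord e))) ((hI (Fin J)).prod (hI (Coord e))) := by
    refine MeasurePreserving.skew_product (μc := hI (Coord e)) (g := fun t u => u + fun d => psi w t d)
      (MeasurePreserving.id (hI (Fin J))) ?_ (ae_of_all _ fun t => ?_)
    · exact measurable_snd.add (measurable_pi_lambda _ fun d => (measurable_psi w d).comp measurable_fst)
    · exact (measurePreserving_add_right (hI (Coord e)) _).map_eq
  exact measurePreserving_snd.comp (h2.comp (Measure.measurePreserving_swap.comp h1))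

theorem measurePreserving_cell :
    MeasurePreserving (fun x => (cell x, 2 • x)) hm ((unif 2).prod hm) := by
  have hmeas : Measurable fun x : UnitAddCircle => (cell x, 2 • x) :=
    measurable_cell.prodMk (measurePreserving_mul 2 two_pos).measurable
  refine ⟨hmeas, ?_⟩
  have : IsProbabilityMeasure (unif 2) := ⟨by
    simp [unif, ENNReal.inv_mul_cancel]⟩
  refine (Measure.prod_eq fun s t hs ht => ?_).symm
  classical
  rw [Measure.map_apply hmeas (hs.prod ht)]
  set S := (fun x : UnitAddCircle => (cell x, 2 • x)) ⁻¹' (s ×ˢ t) with hS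
  have hSm : MeasurableSet S := hmeas (hs.prod ht)
  have hreal : hm.real S = ((∑ j ∈ Finset.range 2, if j ∈ Fin.val '' s then (1:ℝ) else 0) / 2) * hm.real t := by
    have h := integral_cell_mul_fast 2 2 two_pos dvd_rfl (fun j => if j ∈ Fin.val '' s then (1:ℝ) else 0)
      (g := t.indicator 1) ((integrable_const (1:ℝ)).indicator ht) two_pos
    rw [integral_indicator_one ht] at h
    rw [← integral_indicator_one hSm]
    simp only [Nat.cast_ofNat] at h
    rw [← h]
    refine integral_congr_ae (ae_of_all _ fun x => ?_)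
    have hiff : (cidx 2 x ∈ Fin.val '' s) ↔ cell x ∈ s := by
      constructor
      · rintro ⟨i, hi, hix⟩
        rwa [show cell x = i from Fin.ext hix.symm]
      · exact fun h => ⟨cell x, h, rfl⟩
    by_cases h1 : cell x ∈ s <;> by_cases h2 : 2 • x ∈ t <;>
      simp [hS, Set.indicator, h1, h2, hiff]
  have hu : (unif 2).real s = (∑ j ∈ Finset.range 2, if j ∈ Fin.val '' s then (1:ℝ) else 0) / 2 := by
    rw [← integral_indicator_one hs, integral_fintype Integrable.of_finite]
    rw [Finset.sum_range_succ, Finset.sum_range_one]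
    by_cases h0 : (0 : Fin 2) ∈ s <;> by_cases h1 : (1 : Fin 2) ∈ s <;>
      simp [h0, h1, unif, Fin.sum_univ_two, Fin.exists_fin_two, measureReal_def, Set.indicator] <;> norm_num
  rw [← ENNReal.toReal_eq_toReal_iff' (measure_ne_top _ _) (ENNReal.mul_ne_top (measure_ne_top _ _)
    (measure_ne_top _ _)), ENNReal.toReal_mul]
  change hm.real S = (unif 2).real s * hm.real t
  rw [hreal, hu]

instance isProb_unif_enc (n : ℕ) [NeZero n] : IsProbabilityMeasure (unif n) := ⟨by
  simp [unif, ENNReal.inv_mul_cancel, NeZero.ne n]⟩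

theorem measurePreserving_label {e : ℕ} (s0 : Bits e → Fin (2 ^ e))
    (hs : ∀ s, (Finset.univ.filter fun g => s0 g = s).card = 2 ^ e) :
    MeasurePreserving (fun c : Coord e → Fin 2 => s0 fun d => bitv (c d))
      (Measure.pi fun _ => unif 2) (unif (2 ^ e)) := by
  classical
  refine ⟨measurable_of_countable _, Measure.ext_of_singleton fun s => ?_⟩
  rw [Measure.map_apply (measurable_of_countable _) (measurableSet_singleton s)]
  have hset : (fun c : Coord e → Fin 2 => s0 fun d => bitv (c d)) ⁻¹' {s}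
      = ↑(Finset.univ.filter fun c : Coord e → Fin 2 => s0 (fun d => bitv (c d)) = s) := by
    ext; simp
  have hcard : (Finset.univ.filter fun c : Coord e → Fin 2 => s0 (fun d => bitv (c d)) = s).card = 2 ^ e := by
    refine (Finset.card_equiv (t := Finset.univ.filter fun g => s0 g = s)
      (Equiv.piCongrRight fun _ => Equiv.ofBijective bitv bitv_bijective) fun c => ?_).trans (hs s)
    simp [Equiv.piCongrRight]
    rfl
  rw [hset, ← sum_measure_singleton]
  simp only [Measure.pi_singleton]
  have h1 : ∀ i : Fin 2, unif 2 {i} = (2 : ℝ≥0∞)⁻¹ := fun i => by simp [unif]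
  simp only [h1, Finset.prod_const, Finset.sum_const, hcard, Finset.card_univ, Fintype.card_sum,
    Fintype.card_fin, nsmul_eq_mul]
  simp only [unif, Measure.smul_apply, Measure.count_singleton, smul_eq_mul, mul_one, Nat.cast_pow,
    Nat.cast_ofNat]
  rw [← two_mul, pow_mul', pow_two, ← mul_assoc, ← mul_pow,
    ENNReal.mul_inv_cancel (by norm_num) (by norm_num), one_pow, one_mul, ENNReal.inv_pow]

theorem measurePreserving_enc {e J : ℕ} (w : Fin J → Coord e → ℤ) (s0 : Bits e → Fin (2 ^ e))
    (hs : ∀ s, (Finset.univ.filter fun g => s0 g = s).card = 2 ^ e) :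
    MeasurePreserving (fun ω => (s0 (bitsOf (shr w ω)), fun i : Fin e => 2 • shr w ω (Sum.inl i)))
      (hI (Idx e J)) ((unif (2 ^ e)).prod (hI (Fin e))) := by
  have h1 : MeasurePreserving (fun σ : TI (Coord e) => fun d => (cell (σ d), 2 • σ d)) (hI (Coord e))
      (Measure.pi fun _ : Coord e => (unif 2).prod hm) :=
    measurePreserving_pi _ _ fun _ => measurePreserving_cell
  have h2 : MeasurePreserving (MeasurableEquiv.arrowProdEquivProdArrow (Fin 2) UnitAddCircle (Coord e))
      (Measure.pi fun _ : Coord e => (unif 2).prod hm)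
      ((Measure.pi fun _ : Coord e => unif 2).prod (hI (Coord e))) :=
    measurePreserving_arrowProdEquivProdArrow _ _ _ _ _
  have h3 : MeasurePreserving (fun u : TI (Coord e) => fun i : Fin e => u (Sum.inl i)) (hI (Coord e))
      (hI (Fin e)) :=
    measurePreserving_fst.comp (measurePreserving_sumPiEquivProdPi (X := fun _ : Coord e => UnitAddCircle) _)
  exact ((measurePreserving_label s0 hs).prod h3).comp (h2.comp (h1.comp (measurePreserving_shr w)))

/-- Fourier coefficient of a half circle -/
def c1 (n : ℤ) (b : ZMod 2) : ℂ := ∫ x, (if bitv (cell x) = b then (1:ℂ) else 0) * fourier (-n) x ∂hm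

/-- normalised coefficient of a half circle -/
def s1 (n : ℤ) : ℂ := 2 * c1 n 0

theorem er_half : er (1 / 2) = -1 := by
  rw [er, show ((2 * π * (1 / 2) : ℝ) : ℂ) = (π : ℂ) by push_cast; ring, Complex.exp_pi_mul_I]

theorem fourier_half (n : ℤ) :
    fourier n ((((1 : ℕ) : ℝ) / ((2 : ℕ) : ℝ) : ℝ) : UnitAddCircle) = sgn (n : ZMod 2) := by
  rw [fourier_coe_er]
  rcases Int.even_or_odd n with ⟨m, rfl⟩ | ⟨m, rfl⟩
  · rw [show ((m + m : ℤ) : ℝ) * (((1 : ℕ) : ℝ) / ((2 : ℕ) : ℝ)) = (m : ℝ) by push_cast; ring, er_int,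
      show (((m + m : ℤ)) : ZMod 2) = 0 by push_cast; exact CharTwo.add_self_eq_zero _, sgn_zero]
  · rw [show ((2 * m + 1 : ℤ) : ℝ) * (((1 : ℕ) : ℝ) / ((2 : ℕ) : ℝ)) = 1 / 2 + (m : ℝ) by push_cast; ring,
      er_add_int, er_half, show (((2 * m + 1 : ℤ)) : ZMod 2) = 1 by
        push_cast; rw [show (2 : ZMod 2) = 0 from rfl, zero_mul, zero_add], sgn_one]

theorem c1_one (n : ℤ) : c1 n 1 = sgn (n : ZMod 2) * c1 n 0 := by
  rw [c1, c1, ← integral_const_mul]
  rw [← integral_add_right_eq_self (fun x => (if bitv (cell x) = 1 then (1:ℂ) else 0) * fourier (-n) x)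
    ((((1 : ℕ) : ℝ) / ((2 : ℕ) : ℝ) : ℝ) : UnitAddCircle)]
  refine integral_congr_ae (ae_of_all _ fun x => ?_)
  simp only [fourier_arg_add, fourier_half]
  have hb : (bitv (cell (x + ((((1 : ℕ) : ℝ) / ((2 : ℕ) : ℝ) : ℝ) : UnitAddCircle))) = 1)
      ↔ bitv (cell x) = 0 := by
    have h := cidx_shift 2 two_pos 1 x
    have hlt := cidx_lt 2 two_pos x
    simp only [bitv, cell, h]
    interval_cases cidx 2 x <;> decide
  simp only [hb, Int.cast_neg, ZMod.neg_eq_self_mod_two]
  ring

theorem c1_eq (n : ℤ) (b : ZMod 2) : c1 n b = sgn (b * n) * (s1 n / 2) := by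
  obtain rfl | rfl : b = 0 ∨ b = 1 := by revert b; decide
  · simp [s1, sgn_zero]
  · rw [c1_one, one_mul, s1]; ring

theorem c1_zero_add_one (n : ℤ) : c1 n 0 + c1 n 1 = if n = 0 then 1 else 0 := by
  have hint : ∀ b, Integrable (fun x => (if bitv (cell x) = b then (1:ℂ) else 0) * fourier (-n) x) hm := by
    intro b
    refine Integrable.of_bound ?_ 1 (ae_of_all _ fun x => ?_)
    · exact (((measurable_of_countable fun c : Fin 2 => if bitv c = b then (1:ℂ) else 0).comp
        measurable_cell).mul (fourier (-n)).continuous.measurable).aestronglyMeasurable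
    · rw [norm_mul, norm_fourier_apply, mul_one]; split_ifs <;> simp
  rw [c1, c1, ← integral_add (hint 0) (hint 1)]
  have h := integral_fourier (-n)
  simp only [neg_eq_zero] at h
  rw [← h]
  refine integral_congr_ae (ae_of_all _ fun x => ?_)
  rcases (by decide : ∀ b : ZMod 2, b = 0 ∨ b = 1) (bitv (cell x)) with hb | hb <;> simp [hb]

theorem s1_zero : s1 0 = 1 := by
  have h := c1_zero_add_one 0
  rw [c1_one, Int.cast_zero, sgn_zero, if_pos rfl] at h
  rw [s1]; linear_combination h

theorem s1_even {n : ℤ} (h0 : n ≠ 0) (h : (n : ZMod 2) = 0) : s1 n = 0 := by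
  have h1 := c1_zero_add_one n
  rw [c1_one, h, sgn_zero, if_neg h0] at h1
  rw [s1]; linear_combination h1

theorem hasSum_s1 : HasSum (fun n => ‖s1 n‖ ^ 2) 2 := by
  set f : UnitAddCircle → ℂ := fun x => if bitv (cell x) = 0 then 1 else 0 with hf
  have hfm : Measurable f := (measurable_of_countable fun c : Fin 2 => if bitv c = 0 then (1:ℂ) else 0).comp
    measurable_cell
  have hL : MemLp f 2 hm := MemLp.of_bound hfm.aestronglyMeasurable 1
    (ae_of_all _ fun x => by simp only [hf]; split_ifs <;> simp)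
  have h := hasSum_sq_fourierCoeff (hL.toLp f)
  have h1 : ∫ y, ‖(hL.toLp f : UnitAddCircle → ℂ) y‖ ^ 2 ∂hm = 1 / 2 := by
    rw [integral_congr_ae (g := fun y => (fun j : ℕ => if j = 0 then (1:ℝ) else 0) (cidx 2 y)) ?_]
    · exact (integral_cell 2 two_pos fun j : ℕ => if j = 0 then (1:ℝ) else 0).trans (by simp)
    · filter_upwards [hL.coeFn_toLp] with y hy
      have hlt := cidx_lt 2 two_pos y
      rw [hy]
      simp only [hf, bitv, cell]
      rcases (by omega : cidx 2 y = 0 ∨ cidx 2 y = 1) with hc | hc <;> simp [hc]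
  rw [h1] at h
  have h2 := h.mul_left 4
  norm_num at h2
  refine h2.congr_fun fun n => ?_
  have hc : fourierCoeff (hL.toLp f : UnitAddCircle → ℂ) n = c1 n 0 := by
    rw [fourierCoeff, c1]
    refine integral_congr_ae ?_
    filter_upwards [hL.coeFn_toLp] with y hy
    rw [hy, smul_eq_mul, mul_comm]
  rw [hc, s1, norm_mul, mul_pow, Complex.norm_ofNat]
  norm_num

theorem s1_odd {n : ℤ} (h : (n : ZMod 2) = 1) : ‖s1 n‖ = 2 / (π * |(n : ℝ)|) := by
  have hn : n ≠ 0 := fun h0 => by simp [h0] at h
  have hn' : (n : ℂ) ≠ 0 := by exact_mod_cast hn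
  set c : ℂ := -(2 * π * Complex.I * n) with hc
  have hc0 : c ≠ 0 := by
    simp only [hc, neg_ne_zero]
    exact mul_ne_zero (mul_ne_zero (mul_ne_zero two_ne_zero (by exact_mod_cast Real.pi_ne_zero))
      Complex.I_ne_zero) hn'
  have hval : c1 n 0 = (Complex.exp (c * (1/2 : ℝ)) - Complex.exp (c * (0:ℝ))) / c := by
    rw [c1, integral_hm_eq fun x => (if bitv (cell x) = 0 then (1:ℂ) else 0) * fourier (-n) x,
      ← integral_exp_mul_complex hc0]
    have hint : ∀ a b : ℝ, IntervalIntegrable (fun t : ℝ => Complex.exp (c * t)) volume a b :=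
      fun a b => (by fun_prop : Continuous fun t : ℝ => Complex.exp (c * t)).intervalIntegrable a b
    have hcell : ∀ t : ℝ, 0 ≤ t → t < 1 → (bitv (cell (t : UnitAddCircle)) = 0 ↔ t < 1 / 2) := by
      intro t h0 h1
      have hr : rep (t : UnitAddCircle) = t := by rw [rep_coe, Int.fract_eq_self]; exact ⟨h0, h1⟩
      have hlt := cidx_lt 2 two_pos (t : UnitAddCircle)
      have hz : cidx 2 (t : UnitAddCircle) = 0 ↔ t < 1 / 2 := by
        rw [cidx, hr, Nat.floor_eq_zero]; push_cast; constructor <;> intro <;> linarith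
      rw [← hz]
      simp only [bitv, cell]
      interval_cases cidx 2 (t : UnitAddCircle) <;> decide
    have hexp : ∀ t : ℝ, fourier (-n) (t : UnitAddCircle) = Complex.exp (c * t) := fun t => by
      rw [fourier_coe_apply, hc]; congr 1; push_cast; ring
    set g : ℝ → ℂ := fun t => if t < 1 / 2 then Complex.exp (c * t) else 0 with hg
    have hcongr : ∫ t in (0:ℝ)..1, (if bitv (cell (t : UnitAddCircle)) = 0 then (1:ℂ) else 0)
        * fourier (-n) (t : UnitAddCircle) = ∫ t in (0:ℝ)..1, g t := by
      refine intervalIntegral.integral_congr_ae ?_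
      filter_upwards [Measure.ae_ne volume (1:ℝ)] with t ht hmem
      rw [uIoc_of_le zero_le_one, mem_Ioc] at hmem
      rw [hexp]
      simp only [hg, hcell t hmem.1.le (lt_of_le_of_ne hmem.2 ht)]
      split_ifs <;> simp
    have e1 : ∫ t in (0:ℝ)..(1/2), g t = ∫ t in (0:ℝ)..(1/2), Complex.exp (c * t) := by
      refine intervalIntegral.integral_congr_ae ?_
      filter_upwards [Measure.ae_ne volume (1/2:ℝ)] with t ht hmem
      rw [uIoc_of_le (by norm_num), mem_Ioc] at hmem
      simp only [hg]
      rw [if_pos (lt_of_le_of_ne hmem.2 ht)]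
    have hzero : EqOn (fun _ => (0:ℂ)) g (uIoc (1/2:ℝ) 1) := fun t ht => by
      rw [uIoc_of_le (by norm_num), mem_Ioc] at ht
      simp only [hg]
      rw [if_neg (not_lt.2 ht.1.le)]
    have i1 : IntervalIntegrable g volume 0 (1/2) := by
      refine (hint 0 (1/2)).congr_ae ?_
      rw [Filter.EventuallyEq, ae_restrict_iff' measurableSet_uIoc]
      filter_upwards [Measure.ae_ne volume (1/2:ℝ)] with t ht hmem
      rw [uIoc_of_le (by norm_num), mem_Ioc] at hmem
      simp only [hg]
      rw [if_pos (lt_of_le_of_ne hmem.2 ht)]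
    have i2 : IntervalIntegrable g volume (1/2) 1 := intervalIntegrable_const.congr hzero
    rw [hcongr, ← intervalIntegral.integral_add_adjacent_intervals i1 i2, e1,
      intervalIntegral.integral_congr_ae (a := (1/2:ℝ)) (b := 1) (f := g) (g := fun _ => 0)
        (ae_of_all _ fun t ht => (hzero ht).symm)]
    simp
  have hone : Complex.exp (c * (1/2 : ℝ)) = -1 := by
    have h2 : fourier (-n) ((((1 : ℕ) : ℝ) / ((2 : ℕ) : ℝ) : ℝ) : UnitAddCircle) = -1 := by
      rw [fourier_half, Int.cast_neg, ZMod.neg_eq_self_mod_two, h, sgn_one]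
    rw [fourier_coe_apply] at h2
    rw [← h2]; congr 1; rw [hc]; push_cast; ring
  rw [hone, Complex.ofReal_zero, mul_zero, Complex.exp_zero] at hval
  rw [s1, hval, norm_mul, norm_div, hc, norm_neg, norm_mul, norm_mul, norm_mul, Complex.norm_real,
    Complex.norm_I, Complex.norm_ofNat, Complex.norm_intCast, Real.norm_eq_abs, abs_of_pos Real.pi_pos,
    show ‖(-1 - 1 : ℂ)‖ = 2 by norm_num]
  field_simp

theorem prod_fourier_psi {e J : ℕ} (w : Fin J → Coord e → ℤ) (n : Coord e → ℤ) (t : TI (Fin J)) :
    ∏ d, fourier (n d) (psi w t d) = ∏ j, cf (dot n (w j)) (t j) := by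
  have her : ∀ {ι : Type} (s : Finset ι) (f : ι → ℝ), er (∑ i ∈ s, f i) = ∏ i ∈ s, er (f i) := by
    intro ι s f
    classical
    induction s using Finset.induction_on with
    | empty => simp [er]
    | insert a s ha ih => rw [Finset.sum_insert ha, Finset.prod_insert ha, er_add, ih]
  simp only [psi, fourier_coe_er, Finset.mul_sum, her, cf]
  rw [Finset.prod_comm]
  refine Finset.prod_congr rfl fun j _ => ?_
  rw [← her]
  congr 1
  simp only [dot, Int.cast_sum, Int.cast_mul, Finset.sum_mul, Finset.sum_div]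
  exact Finset.sum_congr rfl fun d _ => by ring

/-- the sign of a bit pattern against a frequency -/
def cls2 {e : ℕ} (n : Coord e → ℤ) : Bits e := fun d => (n d : ZMod 2)

theorem coeff_enc {e J : ℕ} (w : Fin J → Coord e → ℤ) (G : Bits e → ℂ) (z : Idx e J → ℤ) :
    ∫ ω, (∏ i, fourier (-z i) (ω i)) * G (bitsOf (shr w ω)) ∂hI (Idx e J)
      = (∑ g, G g * sgn (bdot g (cls2 fun d => z (Sum.inl d)))) / ((2:ℂ) ^ e) ^ 2
        * (∏ d, s1 (z (Sum.inl d))) * ∏ j, ch (dot (fun d => z (Sum.inl d)) (w j)) (z (Sum.inr j)) := by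
  set n : Coord e → ℤ := fun d => z (Sum.inl d) with hn
  set B : ℝ := ∑ g, ‖G g‖ with hB
  have hGB : ∀ g, ‖G g‖ ≤ B := fun g =>
    Finset.single_le_sum (f := fun g => ‖G g‖) (fun _ _ => norm_nonneg _) (Finset.mem_univ g)
  have hbits : Measurable fun u : TI (Coord e) => G (bitsOf u) :=
    (measurable_of_countable fun c : Coord e → Fin 2 => G fun d => bitv (c d)).comp
      (measurable_pi_lambda _ fun d => measurable_cell.comp (measurable_pi_apply d))
  rw [← (measurePreserving_sumPiEquivProdPi_symm (X := fun _ : Idx e J => UnitAddCircle) fun _ => hm).integral_comp']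
  have hfun : ∀ p : TI (Coord e) × TI (Fin J),
      (∏ i, fourier (-z i) (((MeasurableEquiv.sumPiEquivProdPi fun _ : Idx e J => UnitAddCircle).symm p) i))
        * G (bitsOf (shr w ((MeasurableEquiv.sumPiEquivProdPi fun _ : Idx e J => UnitAddCircle).symm p)))
      = ((∏ d, fourier (-n d) (p.1 d)) * G (bitsOf (p.1 + fun d => psi w p.2 d)))
          * ∏ j, fourier (-z (Sum.inr j)) (p.2 j) := by
    intro p
    rw [Fintype.prod_sum_type]
    simp only [MeasurableEquiv.sumPiEquivProdPi, MeasurableEquiv.symm_mk, MeasurableEquiv.coe_mk,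
      Equiv.sumPiEquivProdPi, Equiv.coe_fn_symm_mk, hn]
    have : (shr w fun i => Sum.rec (motive := fun _ => UnitAddCircle) p.1 p.2 i)
        = p.1 + fun d => psi w p.2 d := by
      funext d; rfl
    rw [this]
    ring
  simp only [hfun]
  have hint : Integrable (fun p : TI (Coord e) × TI (Fin J) =>
      ((∏ d, fourier (-n d) (p.1 d)) * G (bitsOf (p.1 + fun d => psi w p.2 d)))
          * ∏ j, fourier (-z (Sum.inr j)) (p.2 j)) ((hI (Coord e)).prod (hI (Fin J))) := by
    refine Integrable.of_bound ?_ B (ae_of_all _ fun p => ?_)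
    · have m1 : Measurable fun p : TI (Coord e) × TI (Fin J) => p.1 + fun d => psi w p.2 d :=
        measurable_fst.add (measurable_pi_lambda _ fun d => (measurable_psi w d).comp measurable_snd)
      exact ((((by fun_prop : Continuous fun p : TI (Coord e) × TI (Fin J) =>
        ∏ d, fourier (-n d) (p.1 d)).measurable).mul (hbits.comp m1)).mul
          (by fun_prop : Continuous fun p : TI (Coord e) × TI (Fin J) =>
            ∏ j, fourier (-z (Sum.inr j)) (p.2 j)).measurable).aestronglyMeasurable
    · simp only [norm_mul, norm_prod, norm_fourier_apply, Finset.prod_const_one, mul_one, one_mul]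
      exact hGB _
  rw [integral_prod_symm _ hint]
  have inner : ∀ t : TI (Fin J), ∫ u, ((∏ d, fourier (-n d) (u d)) * G (bitsOf (u + fun d => psi w t d)))
          * ∏ j, fourier (-z (Sum.inr j)) (t j) ∂hI (Coord e)
      = ((∏ d, fourier (n d) (psi w t d)) * ∏ j, fourier (-z (Sum.inr j)) (t j))
        * ∫ u, (∏ d, fourier (-n d) (u d)) * G (bitsOf u) ∂hI (Coord e) := by
    intro t
    rw [← integral_const_mul, ← integral_add_right_eq_self _ (-fun d => psi w t d)]
    refine integral_congr_ae (ae_of_all _ fun u => ?_)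
    simp only [neg_add_cancel_right, Pi.add_apply, Pi.neg_apply, fourier_arg_add, fourier_arg_neg,
      neg_neg, Finset.prod_mul_distrib]
    ring
  simp only [inner]
  rw [integral_mul_const]
  have hout : ∫ t, (∏ d, fourier (n d) (psi w t d)) * ∏ j, fourier (-z (Sum.inr j)) (t j) ∂hI (Fin J)
      = ∏ j, ch (dot n (w j)) (z (Sum.inr j)) := by
    simp only [prod_fourier_psi, ← Finset.prod_mul_distrib]
    exact integral_fintype_prod_eq_prod (fun j y => cf (dot n (w j)) y * fourier (-z (Sum.inr j)) y)
  have hin : ∫ u, (∏ d, fourier (-n d) (u d)) * G (bitsOf u) ∂hI (Coord e)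
      = (∑ g, G g * sgn (bdot g (cls2 n))) / ((2:ℂ) ^ e) ^ 2 * ∏ d, s1 (n d) := by
    have hsplit : ∀ u : TI (Coord e), (∏ d, fourier (-n d) (u d)) * G (bitsOf u)
        = ∑ g, G g * ∏ d, (if bitv (cell (u d)) = g d then (1:ℂ) else 0) * fourier (-n d) (u d) := by
      intro u
      rw [Finset.sum_eq_single (bitsOf u)]
      · simp [bitsOf, mul_comm]
      · intro g _ hg
        obtain ⟨d, hd⟩ : ∃ d, bitv (cell (u d)) ≠ g d := by
          by_contra hc; push Not at hc; exact hg (funext fun d => (hc d).symm)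
        rw [Finset.prod_eq_zero (Finset.mem_univ d) (by simp [hd]), mul_zero]
      · simp
    simp only [hsplit]
    rw [integral_finsetSum]
    · simp only [integral_const_mul]
      have hp : ∀ g : Bits e, ∫ u, (∏ d, (if bitv (cell (u d)) = g d then (1:ℂ) else 0) * fourier (-n d) (u d)) ∂hI (Coord e)
          = ∏ d, c1 (n d) (g d) := fun g =>
        integral_fintype_prod_eq_prod (fun d y => (if bitv (cell y) = g d then (1:ℂ) else 0) * fourier (-n d) y)
      simp only [hp]
      simp only [c1_eq, Finset.prod_mul_distrib, Finset.prod_div_distrib, Finset.prod_const, Finset.card_univ,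
        Fintype.card_sum, Fintype.card_fin, bdot, cls2, sgn_sum, Finset.sum_div, Finset.sum_mul]
      refine Finset.sum_congr rfl fun g _ => ?_
      rw [← two_mul, pow_mul']
      ring
    · intro g _
      refine (Integrable.of_bound ?_ 1 (ae_of_all _ fun u => ?_)).const_mul _
      · exact (Finset.measurable_prod _ fun d _ =>
          (((measurable_of_countable fun c : Fin 2 => if bitv c = g d then (1:ℂ) else 0).comp
            (measurable_cell.comp (measurable_pi_apply d)))).mul
          ((fourier (-n d)).continuous.measurable.comp (measurable_pi_apply d))).aestronglyMeasurable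
      · rw [norm_prod]
        refine Finset.prod_le_one (fun d _ => norm_nonneg _) fun d _ => ?_
        rw [norm_mul, norm_fourier_apply, mul_one]; split_ifs <;> simp
  rw [hout, hin]
  ring

theorem coeff_fin {e J D : ℕ} (en : Idx e J ≃ Fin D) (w : Fin J → Coord e → ℤ) (G : Bits e → ℂ)
    (z : Idx e J → ℤ) :
    mFourierCoeff (fun ω : Tor D => G (bitsOf (shr w fun i => ω (en i)))) (fun k => z (en.symm k))
      = (∑ g, G g * sgn (bdot g (cls2 fun d => z (Sum.inl d)))) / ((2:ℂ) ^ e) ^ 2
        * (∏ d, s1 (z (Sum.inl d))) * ∏ j, ch (dot (fun d => z (Sum.inl d)) (w j)) (z (Sum.inr j)) := by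
  rw [← coeff_enc, mFourierCoeff_eq, volume_eq_pi]
  have hmp := measurePreserving_piCongrLeft (α := fun _ : Fin D => UnitAddCircle) (fun _ => hm) en
  rw [← hmp.integral_comp']
  refine integral_congr_ae (ae_of_all _ fun ω => ?_)
  have hap : ∀ i, (MeasurableEquiv.piCongrLeft (fun _ : Fin D => UnitAddCircle) en ω) (en i) = ω i :=
    fun i => Equiv.piCongrLeft_apply_apply _ _ _ _
  simp only [hap, mFourier, ContinuousMap.coe_mk, Pi.neg_apply]
  rw [← en.prod_comp]
  simp only [hap, Equiv.symm_apply_apply]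

theorem measurePreserving_fin {e J D : ℕ} (en : Idx e J ≃ Fin D) :
    MeasurePreserving (fun ω : Tor D => fun i => ω (en i)) volume (hI (Idx e J)) := by
  rw [volume_eq_pi]
  have h := (measurePreserving_piCongrLeft (α := fun _ : Fin D => UnitAddCircle) (fun _ => hm) en).symm
  have e1 : (fun ω : Tor D => fun i => ω (en i))
      = ⇑(MeasurableEquiv.piCongrLeft (fun _ : Fin D => UnitAddCircle) en).symm := by
    funext ω i; rfl
  rw [e1]
  exact h

end

end Vale.Agent.P130.Full
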