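import Vale.Agent.P130.Full.EncBox

/-! The encoding of a uniform label into a torus with a flattened permutation of Fourier coefficients. -/

namespace Vale.Agent.P130.Full

open MeasureTheory Filter Topology Set UnitAddTorus
open Vale.Agent.P130 Vale.Agent.P130.Sol
open scoped ENNReal Real

noncomputable section

theorem sq_split {x y d δ : ℝ} (hy : 0 ≤ y) (hδ : 0 < δ) (hδ1 : δ < 1) (h : y ≤ x + d) :
    (1 - δ) * y ^ 2 ≤ x ^ 2 + d ^ 2 / δ := by
  have h1 : y ^ 2 ≤ (x + d) ^ 2 := pow_le_pow_left₀ hy h 2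
  have h2 : (1 - δ) * (x + d) ^ 2 ≤ x ^ 2 + d ^ 2 / δ := by
    rw [← sub_nonneg]
    have e1 : x ^ 2 + d ^ 2 / δ - (1 - δ) * (x + d) ^ 2 = ((δ * x - (1 - δ) * d) ^ 2 + δ * d ^ 2) / δ := by
      field_simp; ring
    rw [e1]; positivity
  exact (mul_le_mul_of_nonneg_left h1 (by linarith)).trans h2

theorem flat_term {s T S2 q k N η : ℝ} (hs : 0 ≤ s) (hq : 0 < q) (hk : 0 < k) (hN : 0 ≤ N)
    (hη : 0 ≤ η) (hη1 : η ≤ 1 / 10) (hT : s * (1 - η) * Real.sqrt N ≤ T) (hS : S2 ≤ s ^ 2)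
    (hlo : (1 - 2 * η) * s ^ 2 / q ^ 2 ≤ N / k) (hhi : N / k ≤ (1 + 5 * η) * s ^ 2 / q ^ 2) :
    S2 / q ^ 2 - 2 * T / (q * Real.sqrt k) + N / k ≤ 11 * η * (s ^ 2 / q ^ 2) := by
  have hsk : 0 < Real.sqrt k := Real.sqrt_pos.2 hk
  have hr : (1 - 2 * η) * (s / q) ≤ Real.sqrt N / Real.sqrt k := by
    rw [← Real.sqrt_div hN]
    refine Real.le_sqrt_of_sq_le ?_
    rw [mul_pow, div_pow]
    refine le_trans ?_ hlo
    rw [mul_div_assoc]
    gcongr
    nlinarith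
  have h1 : 2 * (1 - η) * (1 - 2 * η) * (s ^ 2 / q ^ 2) ≤ 2 * T / (q * Real.sqrt k) := by
    calc 2 * (1 - η) * (1 - 2 * η) * (s ^ 2 / q ^ 2)
        = 2 * (1 - η) * (s / q) * ((1 - 2 * η) * (s / q)) := by ring
      _ ≤ 2 * (1 - η) * (s / q) * (Real.sqrt N / Real.sqrt k) := by
          refine mul_le_mul_of_nonneg_left hr ?_
          have : 0 ≤ 1 - η := by linarith
          positivity
      _ = 2 * (s * (1 - η) * Real.sqrt N) / (q * Real.sqrt k) := by field_simp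
      _ ≤ 2 * T / (q * Real.sqrt k) := by gcongr
  have h2 : S2 / q ^ 2 ≤ s ^ 2 / q ^ 2 := by gcongr
  have h3 : (0:ℝ) ≤ s ^ 2 / q ^ 2 := by positivity
  rw [mul_div_assoc] at hhi
  nlinarith [mul_nonneg (mul_nonneg hη hη) h3]

/-- Choice of the chirp directions of a symmetric set of primitive frequencies. -/
theorem exists_directions {e : ℕ} (K : Finset (Coord e → ℤ)) (hne : K.Nonempty)
    (hK : ∀ n ∈ K, -n ∈ K ∧ Prim n ∧ sig n ≠ 0 ∧ ‖sig (-n)‖ = ‖sig n‖) {η : ℝ} (hη : 0 < η) :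
    ∃ (P0 : Finset (Coord e → ℤ)) (J : ℕ) (wj : Fin J → Coord e → ℤ) (C : ℝ), 0 < C ∧ 0 < J ∧ P0.Nonempty ∧
      (∀ n ∈ K, n ≠ 0) ∧ P0 ⊆ K ∧ (∀ n ∈ K, n ∈ P0 ∨ -n ∈ P0) ∧
      (∀ x ∈ P0, ∀ y ∈ P0, x ≠ y → Indep x y) ∧
      (∀ n ∈ K, ∀ j, dot n (wj j) ≠ 0 ∧
        (1 - η / J) * Real.sqrt (dot n (wj j)).natAbs ≤ ∑ i ∈ Iset (dot n (wj j)), ‖ch (dot n (wj j)) i‖) ∧
      ∀ n ∈ K, (1 - η) * (C * ‖sig n‖ ^ 2) ≤ ((∏ j, (dot n (wj j)).natAbs : ℕ) : ℝ) ∧
        ((∏ j, (dot n (wj j)).natAbs : ℕ) : ℝ) ≤ (1 + η) * (C * ‖sig n‖ ^ 2) := by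
  classical
  have hKne0 : ∀ n ∈ K, n ≠ 0 := by
    intro n hn h
    have hP := (hK n hn).2.1
    rw [Prim, h] at hP
    rw [Finset.gcd_eq_zero_iff.2 (fun x _ => by simp)] at hP
    exact zero_ne_one hP
  obtain ⟨u, hu⟩ := exists_avoid K hKne0
  set P0 := K.filter fun n => 0 < dot n u with hP0
  have hP0K : ∀ n ∈ P0, n ∈ K := fun n hn => (Finset.mem_filter.1 hn).1
  have hcase : ∀ n ∈ K, n ∈ P0 ∨ -n ∈ P0 := by
    intro n hn
    rcases lt_or_gt_of_ne (hu n hn) with h | h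
    · exact Or.inr (Finset.mem_filter.2 ⟨(hK n hn).1, by rw [dot_neg_left]; linarith⟩)
    · exact Or.inl (Finset.mem_filter.2 ⟨hn, h⟩)
  have hind : ∀ x ∈ P0, ∀ y ∈ P0, x ≠ y → Indep x y := by
    intro x hx y hy hxy a b hab
    have habs := eq_of_prim (hK x (hP0K x hx)).2.1 (hK y (hP0K y hy)).2.1 hab
    have hd : a * dot x u = b * dot y u := by rw [← dot_smul_left, ← dot_smul_left, hab]
    have hx0 := (Finset.mem_filter.1 hx).2
    have hy0 := (Finset.mem_filter.1 hy).2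
    rcases Int.natAbs_eq_natAbs_iff.1 habs with h | h
    · subst h
      by_cases ha : a = 0
      · exact ⟨ha, ha⟩
      · exact absurd (smul_right_injective _ ha hab) hxy
    · subst h
      by_contra hne
      have hb : b ≠ 0 := fun hb => hne ⟨by simp [hb], hb⟩
      have h2 : b * (dot x u + dot y u) = 0 := by linear_combination -hd
      rcases mul_eq_zero.1 h2 with h3 | h3
      · exact hb h3
      · linarith
  obtain ⟨n1, hn1⟩ := hne
  have hP0ne : P0.Nonempty := (hcase n1 hn1).elim (fun h => ⟨_, h⟩) fun h => ⟨_, h⟩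
  have hJ0 : (0:ℝ) < P0.card := by exact_mod_cast hP0ne.card_pos
  obtain ⟨R0, hR0⟩ := exists_flat_chirp (div_pos hη hJ0)
  obtain ⟨w, C, hC, hwR, hwC⟩ := exists_equalise P0 hP0ne (fun x hx => hKne0 x (hP0K x hx)) hind
    (fun n => ‖sig n‖ ^ 2) (fun x hx => by have := (hK x (hP0K x hx)).2.2.1; positivity) (max R0 1) hη
  refine ⟨P0, P0.card, fun j => w (P0.equivFin.symm j).1, C, hC, hP0ne.card_pos, hP0ne, hKne0, hP0K, hcase,
    hind, fun n hn j => ?_, fun n hn => ?_⟩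
  · have hb : max R0 1 ≤ (dot n (w (P0.equivFin.symm j).1)).natAbs := by
      rcases hcase n hn with h | h
      · exact hwR n h _ (P0.equivFin.symm j).2
      · have h2 := hwR (-n) h _ (P0.equivFin.symm j).2
        rwa [dot_neg_left, Int.natAbs_neg] at h2
    refine ⟨fun h0 => ?_, hR0 _ (le_trans (le_max_left _ _) hb)⟩
    rw [h0] at hb
    simp at hb
  · have key : ∀ x ∈ P0, (1 - η) * (C * ‖sig x‖ ^ 2) ≤ (∏ y ∈ P0, ((dot x (w y)).natAbs : ℝ)) ∧
        (∏ y ∈ P0, ((dot x (w y)).natAbs : ℝ)) ≤ (1 + η) * (C * ‖sig x‖ ^ 2) := by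
      intro x hx
      have h := hwC x hx
      have hpos : 0 < C * ‖sig x‖ ^ 2 := by
        have := (hK x (hP0K x hx)).2.2.1; positivity
      rw [abs_le, le_sub_iff_add_le, le_div_iff₀ hpos, sub_le_iff_le_add, div_le_iff₀ hpos] at h
      constructor <;> linarith [h.1, h.2]
    have hpr : ((∏ j, (dot n (w (P0.equivFin.symm j).1)).natAbs : ℕ) : ℝ)
        = ∏ y ∈ P0, ((dot n (w y)).natAbs : ℝ) := by
      push_cast
      rw [← Finset.prod_coe_sort P0]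
      exact Equiv.prod_comp P0.equivFin.symm fun y : P0 => ((dot n (w y.1)).natAbs : ℝ)
    rw [hpr]
    rcases hcase n hn with h | h
    · exact key n h
    · have h2 := key (-n) h
      simp only [dot_neg_left, Int.natAbs_neg] at h2
      rwa [(hK n hn).2.2.2] at h2

/-- The chirped block of one frequency is flat. -/
theorem flat_block {J : ℕ} (hJ : 0 < J) (R : Fin J → ℤ) (σ : ℂ) {η q k : ℝ} (hη : 0 < η) (hη1 : η ≤ 1 / 10)
    (hq : 0 < q) (hk : 0 < k)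
    (hch : ∀ j, (1 - η / J) * Real.sqrt (R j).natAbs ≤ ∑ i ∈ Iset (R j), ‖ch (R j) i‖)
    (hlo : (1 - 2 * η) * ‖σ‖ ^ 2 / q ^ 2 ≤ ((∏ j, (R j).natAbs : ℕ) : ℝ) / k)
    (hhi : ((∏ j, (R j).natAbs : ℕ) : ℝ) / k ≤ (1 + 5 * η) * ‖σ‖ ^ 2 / q ^ 2) :
    (∑ i ∈ Fintype.piFinset (fun j => Iset (R j)), ‖σ * ∏ j, ch (R j) (i j)‖ ^ 2 ≤ ‖σ‖ ^ 2) ∧
    ∑ i ∈ Fintype.piFinset (fun j => Iset (R j)), (‖σ * ∏ j, ch (R j) (i j)‖ / q - 1 / Real.sqrt k) ^ 2
      ≤ 11 * η * (‖σ‖ ^ 2 / q ^ 2) := by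
  have hA2 : ∑ i ∈ Fintype.piFinset (fun j => Iset (R j)), ‖σ * ∏ j, ch (R j) (i j)‖ ^ 2 ≤ ‖σ‖ ^ 2 := by
    simp only [norm_mul, norm_prod, mul_pow, ← Finset.prod_pow, ← Finset.mul_sum]
    refine mul_le_of_le_one_right (sq_nonneg _) ?_
    rw [← Finset.prod_univ_sum (fun j => Iset (R j)) fun j i => ‖ch (R j) i‖ ^ 2]
    exact Finset.prod_le_one (fun j _ => Finset.sum_nonneg fun _ _ => sq_nonneg _) fun j _ => sum_ch_sq_le _ _
  refine ⟨hA2, ?_⟩
  have hA1 : ‖σ‖ * (1 - η) * Real.sqrt ((∏ j, (R j).natAbs : ℕ) : ℝ)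
      ≤ ∑ i ∈ Fintype.piFinset (fun j => Iset (R j)), ‖σ * ∏ j, ch (R j) (i j)‖ := by
    simp only [norm_mul, norm_prod, ← Finset.mul_sum, mul_assoc]
    refine mul_le_mul_of_nonneg_left ?_ (norm_nonneg _)
    rw [← Finset.prod_univ_sum (fun j => Iset (R j)) fun j i => ‖ch (R j) i‖]
    have hJ0 : (0:ℝ) < J := by exact_mod_cast hJ
    have hηJ : η / J ≤ 1 := by
      rw [div_le_one hJ0]
      have : (1:ℝ) ≤ J := by exact_mod_cast hJ
      linarith
    refine le_trans ?_ (Finset.prod_le_prod (fun j _ => mul_nonneg (by linarith) (Real.sqrt_nonneg _))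
      fun j _ => hch j)
    rw [Finset.prod_mul_distrib, Finset.prod_const, Finset.card_univ, Fintype.card_fin,
      ← Real.sqrt_prod _ (fun j _ => Nat.cast_nonneg _)]
    push_cast
    refine mul_le_mul_of_nonneg_right ?_ (Real.sqrt_nonneg _)
    have h := one_add_mul_le_pow (a := -(η / J)) (by linarith) J
    have e1 : (J:ℝ) * -(η / J) = -η := by field_simp
    rw [e1] at h
    simpa [sub_eq_add_neg] using h
  have hc : ((Fintype.piFinset (fun j => Iset (R j))).card : ℝ) = ((∏ j, (R j).natAbs : ℕ) : ℝ) := by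
    simp [Fintype.card_piFinset, card_Iset]
  have he : ∀ a : ℝ, (a / q - 1 / Real.sqrt k) ^ 2
      = a ^ 2 / q ^ 2 - 2 * a / (q * Real.sqrt k) + 1 / k := by
    intro a
    have : Real.sqrt k ^ 2 = k := Real.sq_sqrt hk.le
    rw [sub_sq, div_pow, div_pow, this]
    ring
  simp only [he, Finset.sum_add_distrib, Finset.sum_sub_distrib, ← Finset.sum_div, ← Finset.mul_sum,
    Finset.sum_const, nsmul_eq_mul, mul_one, hc]
  exact flat_term (norm_nonneg _) hq hk (Nat.cast_nonneg _) hη.le hη1 hA1 hA2 hlo hhi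

/-- phase of a number -/
def phase (a : ℂ) : ℂ := if a = 0 then 1 else a / (‖a‖ : ℂ)

theorem norm_phase (a : ℂ) : ‖phase a‖ = 1 := by
  rw [phase]
  split_ifs with h
  · simp
  · simp [norm_ne_zero_iff.2 h]

theorem phase_mul_norm (a : ℂ) : phase a * (‖a‖ : ℂ) = a := by
  rw [phase]
  split_ifs with h
  · simp [h]
  · exact div_mul_cancel₀ _ (by simp [h])

/-- Flattened amplitudes transport the values of a function of a label. -/
theorem energy {ι S B : Type*} [Fintype S] [Fintype B] (Z : Finset ι) (lab : ι → S) (cls : ι → B)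
    (amp x : ι → ℂ) (G : S → ℂ) (E : B → ℂ) {q k η0 η : ℝ} (hq : 0 < q) (hk : 0 < k)
    (hη : 0 < η) (hη1 : η ≤ 1) (hη0 : η0 = η ^ 2 / 2000) (hq2 : 2 / q ≤ η0)
    (hE : ∑ b, ‖E b‖ ^ 2 ≤ (∑ s, ‖G s‖ ^ 2) / q ^ 2)
    (hflat : ∀ f : S → ℝ, (∀ s, 0 ≤ f s) →
      ∑ z ∈ Z, f (lab z) * (‖amp z‖ / q - 1 / Real.sqrt k) ^ 2 ≤ 11 * η0 * ((∑ s, f s) / q))
    (hcls : ∀ f : B → ℝ, (∀ b, 0 ≤ f b) → ∑ z ∈ Z, f (cls z) * ‖amp z‖ ^ 2 ≤ ∑ b, f b)
    (hcount : ∀ f : S → ℝ, (∀ s, 0 ≤ f s) → (1 - 3 * η0) * ((∑ s, f s) / q) ≤ ∑ z ∈ Z, f (lab z) / k)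
    (hx : ∀ z ∈ Z, x z = (G (lab z) / (q : ℂ) + E (cls z)) * amp z) :
    (1 - η) * ((∑ s, ‖G s‖ ^ 2) / q) ≤ ∑ z ∈ Z, ‖x z‖ ^ 2 ∧
    ∑ z ∈ Z, ‖x z - phase (amp z) * G (lab z) / (Real.sqrt k : ℂ)‖ ^ 2 ≤ η * ((∑ s, ‖G s‖ ^ 2) / q) := by
  have hpos : 0 < η0 := by rw [hη0]; positivity
  set A := (∑ s, ‖G s‖ ^ 2) / q with hA
  have hA0 : 0 ≤ A := by positivity
  have hnear : ∑ z ∈ Z, ‖x z - phase (amp z) * G (lab z) / (Real.sqrt k : ℂ)‖ ^ 2 ≤ 23 * η0 * A := by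
    calc ∑ z ∈ Z, ‖x z - phase (amp z) * G (lab z) / (Real.sqrt k : ℂ)‖ ^ 2
        ≤ ∑ z ∈ Z, (2 * (‖G (lab z)‖ ^ 2 * (‖amp z‖ / q - 1 / Real.sqrt k) ^ 2)
          + 2 * (‖E (cls z)‖ ^ 2 * ‖amp z‖ ^ 2)) := by
          refine Finset.sum_le_sum fun z hz => ?_
          rw [hx z hz]
          have e1 : ∀ (p g ee : ℂ) (r : ℝ), (g / (q : ℂ) + ee) * (p * (r : ℂ)) - p * g / (Real.sqrt k : ℂ)
              = p * g * ((r / q - 1 / Real.sqrt k : ℝ) : ℂ) + ee * (p * (r : ℂ)) := by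
            intro p g ee r; push_cast; ring
          have e2 := e1 (phase (amp z)) (G (lab z)) (E (cls z)) ‖amp z‖
          rw [phase_mul_norm] at e2
          rw [e2]
          refine ((pow_le_pow_left₀ (norm_nonneg _) (norm_add_le _ _) 2).trans add_sq_le).trans (le_of_eq ?_)
          simp only [norm_mul, norm_phase, one_mul, Complex.norm_real, Real.norm_eq_abs, mul_pow, sq_abs]
          ring
      _ ≤ 2 * (11 * η0 * A) + 2 * ((∑ s, ‖G s‖ ^ 2) / q ^ 2) := by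
          rw [Finset.sum_add_distrib, ← Finset.mul_sum, ← Finset.mul_sum]
          exact add_le_add (mul_le_mul_of_nonneg_left (hflat (fun s => ‖G s‖ ^ 2) fun _ => sq_nonneg _) (by norm_num))
            (mul_le_mul_of_nonneg_left ((hcls (fun b => ‖E b‖ ^ 2) fun _ => sq_nonneg _).trans hE) (by norm_num))
      _ ≤ 23 * η0 * A := by
          have e3 : 2 * ((∑ s, ‖G s‖ ^ 2) / q ^ 2) = 2 / q * A := by rw [hA]; field_simp
          have := mul_le_mul_of_nonneg_right hq2 hA0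
          linarith
  refine ⟨?_, hnear.trans (mul_le_mul_of_nonneg_right (by rw [hη0]; nlinarith) hA0)⟩
  set δ := η / 4 with hδ
  have hδ0 : 0 < δ := by linarith
  have h2 : (1 - 3 * η0) * A ≤ ∑ z ∈ Z, ‖phase (amp z) * G (lab z) / (Real.sqrt k : ℂ)‖ ^ 2 := by
    refine (hcount (fun s => ‖G s‖ ^ 2) fun _ => sq_nonneg _).trans_eq (Finset.sum_congr rfl fun z _ => ?_)
    rw [norm_div, norm_mul, norm_phase, one_mul, Complex.norm_real, Real.norm_eq_abs,
      abs_of_nonneg (Real.sqrt_nonneg _), div_pow, Real.sq_sqrt hk.le]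
  have h3 : (1 - δ) * ∑ z ∈ Z, ‖phase (amp z) * G (lab z) / (Real.sqrt k : ℂ)‖ ^ 2
      ≤ (∑ z ∈ Z, ‖x z‖ ^ 2)
        + (∑ z ∈ Z, ‖x z - phase (amp z) * G (lab z) / (Real.sqrt k : ℂ)‖ ^ 2) / δ := by
    rw [Finset.mul_sum, Finset.sum_div, ← Finset.sum_add_distrib]
    exact Finset.sum_le_sum fun z _ => sq_split (norm_nonneg _) hδ0 (by linarith) (norm_le_norm_add_norm_sub _ _)
  have h4 : (∑ z ∈ Z, ‖x z - phase (amp z) * G (lab z) / (Real.sqrt k : ℂ)‖ ^ 2) / δ ≤ η / 20 * A := by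
    rw [div_le_iff₀ hδ0]
    refine hnear.trans ?_
    have h5 : 23 * η0 ≤ η / 20 * δ := by rw [hη0, hδ]; nlinarith
    have := mul_le_mul_of_nonneg_right h5 hA0
    linarith
  have h6 := mul_le_mul_of_nonneg_left h2 (show 0 ≤ 1 - δ by linarith)
  have h8 : 1 - η ≤ (1 - δ) * (1 - 3 * η0) - η / 20 := by rw [hδ, hη0]; nlinarith
  have := mul_le_mul_of_nonneg_right h8 hA0
  linarith

/-- frequency built from its bit part and its chirp part -/
def encEmb {e J D : ℕ} (en : Idx e J ≃ Fin D) (n : Coord e → ℤ) (i : Fin J → ℤ) : Fin D → ℤ :=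
  fun k => Sum.elim n i (en.symm k)

/-- bit part of a frequency -/
def bitPart {e J D : ℕ} (en : Idx e J ≃ Fin D) (z : Fin D → ℤ) : Coord e → ℤ := fun d => z (en (Sum.inl d))

/-- chirp part of a frequency -/
def chirpPart {e J D : ℕ} (en : Idx e J ≃ Fin D) (z : Fin D → ℤ) : Fin J → ℤ := fun j => z (en (Sum.inr j))

theorem bitPart_encEmb {e J D : ℕ} (en : Idx e J ≃ Fin D) (n : Coord e → ℤ) (i : Fin J → ℤ) :
    bitPart en (encEmb en n i) = n := by
  funext d; simp [bitPart, encEmb]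

theorem chirpPart_encEmb {e J D : ℕ} (en : Idx e J ≃ Fin D) (n : Coord e → ℤ) (i : Fin J → ℤ) :
    chirpPart en (encEmb en n i) = i := by
  funext d; simp [chirpPart, encEmb]

theorem neg_encEmb {e J D : ℕ} (en : Idx e J ≃ Fin D) (n : Coord e → ℤ) (i : Fin J → ℤ) :
    -encEmb en n i = encEmb en (-n) (-i) := by
  funext k; rcases h : en.symm k with d | j <;> simp [encEmb, h]

/-- chirp frequencies of a bit frequency -/
def bx {e J : ℕ} (wj : Fin J → Coord e → ℤ) (n : Coord e → ℤ) : Finset (Fin J → ℤ) :=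
  Fintype.piFinset fun j => Iset (dot n (wj j))

theorem neg_mem_bx {e J : ℕ} (wj : Fin J → Coord e → ℤ) {n : Coord e → ℤ} {i : Fin J → ℤ}
    (hi : i ∈ bx wj n) : -i ∈ bx wj (-n) := by
  simp only [bx, Fintype.mem_piFinset] at hi ⊢
  intro j
  rw [dot_neg_left, Pi.neg_apply, neg_mem_Iset]
  exact hi j

/-- all frequencies over a set of bit frequencies -/
def allFreq {e J D : ℕ} (en : Idx e J ≃ Fin D) (wj : Fin J → Coord e → ℤ) (S : Finset (Coord e → ℤ)) :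
    Finset (Fin D → ℤ) :=
  S.biUnion fun n => (bx wj n).image (encEmb en n)

theorem mem_allFreq {e J D : ℕ} {en : Idx e J ≃ Fin D} {wj : Fin J → Coord e → ℤ}
    {S : Finset (Coord e → ℤ)} {z : Fin D → ℤ} :
    z ∈ allFreq en wj S ↔ ∃ n ∈ S, ∃ i ∈ bx wj n, encEmb en n i = z := by
  simp [allFreq]

theorem sum_allFreq {e J D : ℕ} (en : Idx e J ≃ Fin D) (wj : Fin J → Coord e → ℤ)
    (S : Finset (Coord e → ℤ)) (f : (Fin D → ℤ) → ℝ) :
    ∑ z ∈ allFreq en wj S, f z = ∑ n ∈ S, ∑ i ∈ bx wj n, f (encEmb en n i) := by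
  rw [allFreq, Finset.sum_biUnion]
  · refine Finset.sum_congr rfl fun n _ => ?_
    exact Finset.sum_image fun a _ b _ h => by rw [← chirpPart_encEmb en n a, h, chirpPart_encEmb]
  · intro a _ b _ hab
    refine Finset.disjoint_left.2 fun z ha hb => hab ?_
    simp only [Finset.mem_image] at ha hb
    obtain ⟨i, -, rfl⟩ := ha
    obtain ⟨i', -, h⟩ := hb
    rw [← bitPart_encEmb en a i, ← h, bitPart_encEmb]

theorem symF_allFreq {e J D : ℕ} (en : Idx e J ≃ Fin D) (wj : Fin J → Coord e → ℤ)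
    {K P0 : Finset (Coord e → ℤ)} (hP0 : P0 ⊆ K) (hneg : ∀ n ∈ K, -n ∈ K)
    (hcase : ∀ n ∈ K, n ∈ P0 ∨ -n ∈ P0) : symF (allFreq en wj P0) = allFreq en wj K := by
  ext z
  simp only [symF, Finset.mem_union, Finset.mem_image, mem_allFreq]
  constructor
  · rintro (⟨n, hn, i, hi, rfl⟩ | ⟨v, ⟨n, hn, i, hi, rfl⟩, rfl⟩)
    · exact ⟨n, hP0 hn, i, hi, rfl⟩
    · exact ⟨-n, hneg n (hP0 hn), -i, neg_mem_bx wj hi, (neg_encEmb en n i).symm⟩
  · rintro ⟨n, hn, i, hi, rfl⟩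
    rcases hcase n hn with h | h
    · exact Or.inl ⟨n, h, i, hi, rfl⟩
    · exact Or.inr ⟨encEmb en (-n) (-i), ⟨-n, h, -i, neg_mem_bx wj hi, rfl⟩, by rw [← neg_encEmb, neg_neg]⟩

theorem indep_allFreq {e J D : ℕ} (en : Idx e J ≃ Fin D) (wj : Fin J → Coord e → ℤ)
    {P0 : Finset (Coord e → ℤ)} (h0 : ∀ n ∈ P0, n ≠ 0) (hind : ∀ x ∈ P0, ∀ y ∈ P0, x ≠ y → Indep x y) :
    ∀ z ∈ allFreq en wj P0, ∀ z' ∈ allFreq en wj P0, z ≠ z' → Indep z z' := by
  intro z hz z' hz' hne a b hab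
  obtain ⟨n, hn, i, hi, rfl⟩ := mem_allFreq.1 hz
  obtain ⟨n', hn', i', hi', rfl⟩ := mem_allFreq.1 hz'
  have hab' : a • n = b • n' := by
    rw [← bitPart_encEmb en n i, ← bitPart_encEmb en n' i']
    funext d
    exact congrFun hab (en (Sum.inl d))
  by_cases h : n = n'
  · subst h
    have hab2 : a = b := smul_left_injective ℤ (h0 n hn) hab'
    subst hab2
    by_contra hc
    exact hne (smul_right_injective _ (fun ha : a = 0 => hc ⟨ha, ha⟩) hab)
  · exact hind n hn n' hn' h a b hab'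

/-- amplitude of a frequency -/
def ampl {e J D : ℕ} (en : Idx e J ≃ Fin D) (wj : Fin J → Coord e → ℤ) (z : Fin D → ℤ) : ℂ :=
  sig (bitPart en z) * ∏ j, ch (dot (bitPart en z) (wj j)) (chirpPart en z j)

theorem ampl_encEmb {e J D : ℕ} (en : Idx e J ≃ Fin D) (wj : Fin J → Coord e → ℤ) (n : Coord e → ℤ)
    (i : Fin J → ℤ) : ampl en wj (encEmb en n i) = sig n * ∏ j, ch (dot n (wj j)) (i j) := by
  rw [ampl, bitPart_encEmb, chirpPart_encEmb]

/-- The three transport bounds for flattened amplitudes. -/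
theorem bounds_allFreq {e J D : ℕ} (en : Idx e J ≃ Fin D) (wj : Fin J → Coord e → ℤ) (hJ : 0 < J)
    (K : Finset (Coord e → ℤ)) (sl : Bits e → Fin (2 ^ e)) {η C q : ℝ} (hη : 0 < η) (hη1 : η ≤ 1 / 10)
    (hC : 0 < C) (hq : q = (2:ℝ) ^ e)
    (hKcls : ∀ b, ∑ n ∈ K.filter (fun n => cls2 n = b), ‖sig n‖ ^ 2 ≤ 1)
    (hKlab : ∀ s, (1 - η) * q ≤ ∑ n ∈ K.filter (fun n => sl (cls2 n) = s), ‖sig n‖ ^ 2 ∧
        ∑ n ∈ K.filter (fun n => sl (cls2 n) = s), ‖sig n‖ ^ 2 ≤ q)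
    (hch : ∀ n ∈ K, ∀ j, dot n (wj j) ≠ 0 ∧
        (1 - η / J) * Real.sqrt (dot n (wj j)).natAbs ≤ ∑ i ∈ Iset (dot n (wj j)), ‖ch (dot n (wj j)) i‖)
    (hN : ∀ n ∈ K, (1 - η) * (C * ‖sig n‖ ^ 2) ≤ ((∏ j, (dot n (wj j)).natAbs : ℕ) : ℝ) ∧
        ((∏ j, (dot n (wj j)).natAbs : ℕ) : ℝ) ≤ (1 + η) * (C * ‖sig n‖ ^ 2)) :
    0 < ((allFreq en wj K).card : ℝ) ∧
    (∀ f : Fin (2 ^ e) → ℝ, (∀ s, 0 ≤ f s) → ∑ z ∈ allFreq en wj K, f (sl (cls2 (bitPart en z)))
        * (‖ampl en wj z‖ / q - 1 / Real.sqrt (allFreq en wj K).card) ^ 2 ≤ 11 * η * ((∑ s, f s) / q)) ∧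
    (∀ f : Bits e → ℝ, (∀ b, 0 ≤ f b) →
        ∑ z ∈ allFreq en wj K, f (cls2 (bitPart en z)) * ‖ampl en wj z‖ ^ 2 ≤ ∑ b, f b) ∧
    (∀ f : Fin (2 ^ e) → ℝ, (∀ s, 0 ≤ f s) → (1 - 3 * η) * ((∑ s, f s) / q)
        ≤ ∑ z ∈ allFreq en wj K, f (sl (cls2 (bitPart en z))) / ((allFreq en wj K).card : ℝ)) := by
  classical
  have hq0 : 0 < q := by rw [hq]; positivity
  set N : (Coord e → ℤ) → ℝ := fun n => ((∏ j, (dot n (wj j)).natAbs : ℕ) : ℝ) with hNdef
  have hcard : ∀ n, ((bx wj n).card : ℝ) = N n := fun n => by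
    simp [bx, hNdef, Fintype.card_piFinset, card_Iset]
  set k : ℝ := ((allFreq en wj K).card : ℝ) with hk
  have hkN : k = ∑ n ∈ K, N n := by
    have h := sum_allFreq en wj K fun _ => 1
    simpa [hcard] using h
  have hfib : ∀ f : Fin (2 ^ e) → ℝ, ∑ n ∈ K, f (sl (cls2 n)) * ‖sig n‖ ^ 2
      = ∑ s, f s * ∑ n ∈ K.filter (fun n => sl (cls2 n) = s), ‖sig n‖ ^ 2 := by
    intro f
    rw [← Finset.sum_fiberwise K fun n => sl (cls2 n)]
    refine Finset.sum_congr rfl fun s _ => ?_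
    rw [Finset.mul_sum]
    exact Finset.sum_congr rfl fun n hn => by rw [(Finset.mem_filter.1 hn).2]
  have hSlo : (1 - η) * q * q ≤ ∑ n ∈ K, ‖sig n‖ ^ 2 := by
    rw [← Finset.sum_fiberwise K fun n => sl (cls2 n)]
    refine le_trans ?_ (Finset.sum_le_sum fun s _ => (hKlab s).1)
    rw [Finset.sum_const, Finset.card_univ, Fintype.card_fin, nsmul_eq_mul, hq]
    push_cast
    exact le_of_eq (by ring)
  have hShi : ∑ n ∈ K, ‖sig n‖ ^ 2 ≤ q * q := by
    rw [← Finset.sum_fiberwise K fun n => sl (cls2 n)]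
    refine (Finset.sum_le_sum fun s _ => (hKlab s).2).trans ?_
    rw [Finset.sum_const, Finset.card_univ, Fintype.card_fin, nsmul_eq_mul, hq]
    push_cast
    exact le_rfl
  have h1η : 0 < 1 - η := by linarith
  have hklo : (1 - η) ^ 2 * (C * (q * q)) ≤ k := by
    rw [hkN]
    refine le_trans ?_ (Finset.sum_le_sum fun n hn => (hN n hn).1)
    rw [← Finset.mul_sum, ← Finset.mul_sum]
    have := mul_le_mul_of_nonneg_left hSlo (mul_nonneg h1η.le hC.le)
    linarith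
  have hkhi : k ≤ (1 + η) * (C * (q * q)) := by
    rw [hkN]
    refine (Finset.sum_le_sum fun n hn => (hN n hn).2).trans ?_
    rw [← Finset.mul_sum, ← Finset.mul_sum]
    gcongr
  have hk0 : 0 < k := lt_of_lt_of_le (by positivity) hklo
  have hNk : ∀ n ∈ K, (1 - 2 * η) * ‖sig n‖ ^ 2 / q ^ 2 ≤ N n / k ∧
      N n / k ≤ (1 + 5 * η) * ‖sig n‖ ^ 2 / q ^ 2 := by
    intro n hn
    obtain ⟨hl, hh⟩ := hN n hn
    have hσ : (0:ℝ) ≤ ‖sig n‖ ^ 2 := sq_nonneg _
    rw [div_le_div_iff₀ (by positivity) hk0, div_le_div_iff₀ hk0 (by positivity)]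
    constructor
    · calc (1 - 2 * η) * ‖sig n‖ ^ 2 * k
          ≤ (1 - 2 * η) * ‖sig n‖ ^ 2 * ((1 + η) * (C * (q * q))) :=
            mul_le_mul_of_nonneg_left hkhi (mul_nonneg (by linarith) hσ)
        _ = ((1 - 2 * η) * (1 + η)) * (C * ‖sig n‖ ^ 2) * q ^ 2 := by ring
        _ ≤ (1 - η) * (C * ‖sig n‖ ^ 2) * q ^ 2 := by
            gcongr
            nlinarith
        _ ≤ N n * q ^ 2 := by gcongr
    · calc N n * q ^ 2 ≤ (1 + η) * (C * ‖sig n‖ ^ 2) * q ^ 2 := by gcongr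
        _ ≤ ((1 + 5 * η) * (1 - η) ^ 2) * (C * ‖sig n‖ ^ 2) * q ^ 2 := by
            gcongr
            nlinarith [pow_pos hη 3]
        _ = (1 + 5 * η) * ‖sig n‖ ^ 2 * ((1 - η) ^ 2 * (C * (q * q))) := by ring
        _ ≤ (1 + 5 * η) * ‖sig n‖ ^ 2 * k := mul_le_mul_of_nonneg_left hklo (by positivity)
  have hblock := fun n hn => flat_block hJ (fun j => dot n (wj j)) (sig n) hη hη1 hq0 hk0
    (fun j => (hch n hn j).2) (hNk n hn).1 (hNk n hn).2
  refine ⟨hk0, fun f hf => ?_, fun f hf => ?_, fun f hf => ?_⟩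
  · rw [sum_allFreq]
    calc ∑ n ∈ K, ∑ i ∈ bx wj n, f (sl (cls2 (bitPart en (encEmb en n i))))
            * (‖ampl en wj (encEmb en n i)‖ / q - 1 / Real.sqrt k) ^ 2
        ≤ ∑ n ∈ K, 11 * η / q ^ 2 * (f (sl (cls2 n)) * ‖sig n‖ ^ 2) := by
          refine Finset.sum_le_sum fun n hn => ?_
          simp only [bitPart_encEmb, ampl_encEmb, ← Finset.mul_sum]
          exact (mul_le_mul_of_nonneg_left (hblock n hn).2 (hf _)).trans_eq (by ring)
      _ ≤ 11 * η / q ^ 2 * ∑ s, f s * q := by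
          rw [← Finset.mul_sum, hfib f]
          exact mul_le_mul_of_nonneg_left
            (Finset.sum_le_sum fun s _ => mul_le_mul_of_nonneg_left (hKlab s).2 (hf s)) (by positivity)
      _ = 11 * η * ((∑ s, f s) / q) := by rw [← Finset.sum_mul]; field_simp
  · rw [sum_allFreq]
    calc ∑ n ∈ K, ∑ i ∈ bx wj n, f (cls2 (bitPart en (encEmb en n i))) * ‖ampl en wj (encEmb en n i)‖ ^ 2
        ≤ ∑ n ∈ K, f (cls2 n) * ‖sig n‖ ^ 2 := by
          refine Finset.sum_le_sum fun n hn => ?_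
          simp only [bitPart_encEmb, ampl_encEmb, ← Finset.mul_sum]
          exact mul_le_mul_of_nonneg_left (hblock n hn).1 (hf _)
      _ ≤ ∑ b, f b := by
          rw [← Finset.sum_fiberwise K cls2]
          refine Finset.sum_le_sum fun b _ => ?_
          rw [Finset.sum_congr rfl fun n hn => by rw [(Finset.mem_filter.1 hn).2], ← Finset.mul_sum]
          exact mul_le_of_le_one_right (hf b) (hKcls b)
  · rw [sum_allFreq]
    calc (1 - 3 * η) * ((∑ s, f s) / q) ≤ (1 - 2 * η) / q ^ 2 * ∑ s, f s * ((1 - η) * q) := by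
          rw [← Finset.sum_mul]
          calc (1 - 3 * η) * ((∑ s, f s) / q) ≤ ((1 - 2 * η) * (1 - η)) * ((∑ s, f s) / q) :=
                mul_le_mul_of_nonneg_right (by nlinarith) (div_nonneg (Finset.sum_nonneg fun s _ => hf s) hq0.le)
            _ = _ := by field_simp
      _ ≤ (1 - 2 * η) / q ^ 2 * ∑ n ∈ K, f (sl (cls2 n)) * ‖sig n‖ ^ 2 := by
          rw [hfib f]
          exact mul_le_mul_of_nonneg_left
            (Finset.sum_le_sum fun s _ => mul_le_mul_of_nonneg_left (hKlab s).1 (hf s))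
            (div_nonneg (by linarith) (sq_nonneg _))
      _ ≤ _ := by
          rw [Finset.mul_sum]
          refine Finset.sum_le_sum fun n hn => ?_
          simp only [bitPart_encEmb, Finset.sum_const, nsmul_eq_mul, hcard]
          calc (1 - 2 * η) / q ^ 2 * (f (sl (cls2 n)) * ‖sig n‖ ^ 2)
              = (1 - 2 * η) * ‖sig n‖ ^ 2 / q ^ 2 * f (sl (cls2 n)) := by ring
            _ ≤ N n / k * f (sl (cls2 n)) := mul_le_mul_of_nonneg_right (hNk n hn).1 (hf _)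
            _ = _ := by ring

/-- An encoding exists for every small error and large exponent. -/
theorem exists_encoding (η : ℝ) (hη : 0 < η) (hη1 : η ≤ 1) : ∀ᶠ e : ℕ in atTop, Nonempty (Encoding e η) := by
  set η0 := η ^ 2 / 2000 with hη0def
  have hη0 : 0 < η0 := by positivity
  have hη0s : η0 ≤ 1 / 10 := by rw [hη0def]; nlinarith
  filter_upwards [exists_weights hη0, ((tendsto_pow_const_div_const_pow_of_one_lt 0
    (one_lt_two : (1:ℝ) < 2)).const_mul 2).eventually (ge_mem_nhds (show 2 * 0 < η0 by linarith))] with e hw hq2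
  obtain ⟨s0, sl, K, hs0, hKprop, hKcls, hKlab, hspread⟩ := hw
  have hKne : K.Nonempty := by
    by_contra h
    rw [Finset.not_nonempty_iff_eq_empty] at h
    have h1 := (hKlab ⟨0, Nat.two_pow_pos e⟩).1
    rw [h] at h1
    simp only [Finset.filter_empty, Finset.sum_empty] at h1
    nlinarith [show (0:ℝ) < 2 ^ e by positivity]
  obtain ⟨P0, J, wj, C, hC, hJ, hP0ne, hK0, hP0, hcase, hind, hch, hN⟩ := exists_directions K hKne hKprop hη0
  let en : Idx e J ≃ Fin (Fintype.card (Idx e J)) := Fintype.equivFin _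
  obtain ⟨hk0, hflat, hcls, hcount⟩ := bounds_allFreq en wj hJ K sl hη0 hη0s hC rfl hKcls hKlab hch hN
  have hsym : symF (allFreq en wj P0) = allFreq en wj K :=
    symF_allFreq en wj hP0 (fun n hn => (hKprop n hn).1) hcase
  have hq2' : 2 / (2:ℝ) ^ e ≤ η0 := by
    rw [pow_zero, mul_one_div] at hq2
    exact hq2
  set sel : Tor (Fintype.card (Idx e J)) → Fin (2 ^ e) :=
    fun ω => s0 (bitsOf (shr wj fun i => ω (en i))) with hsel
  have hmp : MeasurePreserving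
      (fun ω => (sel ω, fun i : Fin e => 2 • shr wj (fun i => ω (en i)) (Sum.inl i)))
      volume ((unif (2 ^ e)).prod (volume : Measure (Tor e))) := by
    have h := (measurePreserving_enc wj s0 hs0).comp (measurePreserving_fin en)
    rwa [hI_eq_volume (Fin e)] at h
  have hmain : ∀ G : Fin (2 ^ e) → ℂ, ∑ s, G s = 0 →
      (1 - η) * ((∑ s, ‖G s‖ ^ 2) / (2:ℝ) ^ e)
        ≤ ∑ z ∈ allFreq en wj K, ‖mFourierCoeff (fun ω => G (sel ω)) z‖ ^ 2 ∧
      ∑ z ∈ allFreq en wj K, ‖mFourierCoeff (fun ω => G (sel ω)) z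
        - phase (ampl en wj z) * G (sl (cls2 (bitPart en z))) / (Real.sqrt (allFreq en wj K).card : ℂ)‖ ^ 2
        ≤ η * ((∑ s, ‖G s‖ ^ 2) / (2:ℝ) ^ e) := by
    intro G hG
    obtain ⟨E, hE, hEK⟩ := hspread G hG
    refine energy (allFreq en wj K) (fun z => sl (cls2 (bitPart en z))) (fun z => cls2 (bitPart en z))
      (ampl en wj) _ G E (by positivity) hk0 hη hη1 hη0def hq2' hE hflat hcls hcount fun z hz => ?_
    obtain ⟨n, hn, i, hi, rfl⟩ := mem_allFreq.1 hz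
    have h := coeff_fin en wj (fun g => G (s0 g)) (Sum.elim n i)
    simp only [Sum.elim_inl, Sum.elim_inr, hEK n hn] at h
    refine h.trans ?_
    simp only [bitPart_encEmb, ampl_encEmb, Complex.ofReal_pow, Complex.ofReal_ofNat, sig]
    ring
  refine ⟨{ D := _, P := allFreq en wj P0, sel := sel, cc := _, sl := fun z => sl (cls2 (bitPart en z)),
            ph := fun z => phase (ampl en wj z), nonempty := ?_, ne_zero := ?_,
            indep := indep_allFreq en wj (fun n hn => hK0 n (hP0 hn)) hind, mp := hmp,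
            norm_ph := fun z => norm_phase _, total := ?_, near := ?_ }⟩
  · obtain ⟨n, hn⟩ := hP0ne
    refine ⟨encEmb en n fun j => 0, mem_allFreq.2 ⟨n, hn, _, ?_, rfl⟩⟩
    simp only [bx, Fintype.mem_piFinset]
    intro j
    have h1 := (hch n (hP0 hn) j).1
    simp only [Iset]
    split_ifs with h <;> simp only [Finset.mem_Ico, Finset.mem_Ioc] <;> omega
  · intro z hz h0
    obtain ⟨n, hn, i, hi, rfl⟩ := mem_allFreq.1 hz
    refine hK0 n (hP0 hn) ?_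
    rw [← bitPart_encEmb en n i, h0]
    rfl
  · intro G hG
    rw [hsym, Nat.cast_pow, Nat.cast_ofNat]
    exact (hmain G hG).1
  · intro G hG
    rw [hsym, Nat.cast_pow, Nat.cast_ofNat]
    exact (hmain G hG).2

/-- The encoding module. -/
theorem encoding : EncodingStatement := by
  intro η hη
  filter_upwards [exists_encoding (min η 1) (lt_min hη one_pos) (min_le_right _ _)] with e he
  obtain ⟨E⟩ := he
  refine ⟨{ D := E.D, P := E.P, sel := E.sel, cc := E.cc, sl := E.sl, ph := E.ph, nonempty := E.nonempty,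
            ne_zero := E.ne_zero, indep := E.indep, mp := E.mp, norm_ph := E.norm_ph,
            total := fun G hG => ?_, near := fun G hG => ?_ }⟩
  · refine le_trans (mul_le_mul_of_nonneg_right ?_ (by positivity)) (E.total G hG)
    linarith [min_le_left η 1]
  · refine (E.near G hG).trans (mul_le_mul_of_nonneg_right (min_le_left _ _) (by positivity))

end

end Vale.Agent.P130.Full
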