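import Vale.Agent.P130.Full.Spec

/-! The estimates of one step in the Hilbert space. -/

namespace Vale.Agent.P130.Full

open MeasureTheory Filter Topology Set UnitAddTorus
open Vale.Agent.P130 Vale.Agent.P130.Sol
open scoped ENNReal ComplexConjugate InnerProductSpace

noncomputable section

theorem norm_sq_Lp {α : Type*} [MeasurableSpace α] {μ : Measure α} (u : Lp ℂ 2 μ) :
    ‖u‖ ^ 2 = ∫ x, ‖u x‖ ^ 2 ∂μ := by
  have h := L2.inner_def (𝕜 := ℂ) u u
  rw [inner_self_eq_norm_sq_to_K] at h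
  have h2 : ∫ x, ⟪u x, u x⟫_ℂ ∂μ = ((∫ x, ‖u x‖ ^ 2 ∂μ : ℝ) : ℂ) := by
    rw [← integral_complex_ofReal]
    refine integral_congr_ae (Eventually.of_forall fun x => ?_)
    simp [inner_self_eq_norm_sq_to_K]
  rw [h2] at h
  exact Complex.ofReal_injective (by simpa using h)

theorem nice_comb {D : ℕ} (K : Finset (Fin D → ℤ)) (α : ℕ → (Fin D → ℤ) → ℂ) : Nice (comb K α) := by
  refine ⟨fun p => Finset.measurable_sum _ fun v _ => (mFourier v).continuous.measurable.const_mul _,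
    fun p => ⟨∑ v ∈ K, ‖α p v‖, fun z => (norm_sum_le _ _).trans (Finset.sum_le_sum fun v _ => ?_)⟩⟩
  rw [norm_mul, norm_mFourier', mul_one]

theorem nice_combC {D : ℕ} (C : Colours D) (α : ℕ → Fin C.k → ℂ) : Nice (combC C α) := by
  refine ⟨fun p => Finset.measurable_sum _ fun x _ => (mFourier (C.vec x)).continuous.measurable.const_mul _,
    fun p => ⟨∑ x, ‖α p x‖, fun z => (norm_sum_le _ _).trans (Finset.sum_le_sum fun x _ => ?_)⟩⟩
  rw [norm_mul, norm_mFourier', mul_one]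

theorem emb_congr {Ch : Chain} (R : Realisation Ch) (n : ℕ) {F G : ℕ → Tor (Ch.D n) → ℂ} (hF : Nice F) (hG : Nice G)
    (h : ∀ p < Ch.h n, ∀ z, F p z = G p z) : emb R n F = emb R n G := by
  refine Lp.ext ((coeFn_emb R n hF).trans (EventuallyEq.trans (Eventually.of_forall fun x => ?_)
    (coeFn_emb R n hG).symm))
  simp only [fn]
  rcases hx : R.pos n x with _ | ⟨p, z⟩
  · rfl
  · exact h p (R.pos_lt n x p z hx) z

theorem sum_smul_md {Ch : Chain} (R : Realisation Ch) (n : ℕ) {ι : Type*} [Fintype ι] (c : ι → ℂ) (q : ι → ℕ)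
    (v : ι → Fin (Ch.D n) → ℤ) : ∑ i, c i • md R n (q i) (v i)
      = ((1 / Real.sqrt (R.wt n) : ℝ) : ℂ) • emb R n (fun p z => ∑ i, c i * mode1 (q i) (v i) p z) := by
  rw [emb_sum R n Finset.univ c (fun i _ => nice_mode1 (q i) (v i)), Finset.smul_sum]
  refine Finset.sum_congr rfl fun i _ => ?_
  rw [md, smul_smul, smul_smul, mul_comm]

variable {hE : EncodingStatement} {hS : StepStatement} (R : Realisation (chain hE hS))

theorem inner_em_succ (n : ℕ) {F : ℕ → Tor ((chain hE hS).D n) → ℂ} (hF : Nice F)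
    (i : II (hE := hE) (hS := hS) (n + 1)) :
    ⟪em R (n + 1) i, ((1 / Real.sqrt (R.wt n) : ℝ) : ℂ) • emb R n F⟫_ℂ
      = (sdata hE n).coef F i.1 i.2 / (Real.sqrt ((chain hE hS).Q n) : ℂ) := by
  rw [inner_smul_right, emb_pull R n hF, em, inner_md_emb R (n + 1) _ _ i.1.isLt (nice_pull n hF)]
  have hw := R.wt_succ n
  have hQ : (0:ℝ) < (chain hE hS).Q n := by
    exact_mod_cast lt_of_lt_of_le two_pos ((chain hE hS).Q_two n)
  have h1 : Real.sqrt (R.wt n) = Real.sqrt (R.wt (n + 1)) * Real.sqrt ((chain hE hS).Q n) := by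
    rw [← Real.sqrt_mul (R.wt_pos _).le, hw]
  have h2 : Real.sqrt (R.wt (n + 1)) ≠ 0 := (Real.sqrt_pos.2 (R.wt_pos _)).ne'
  have h3 : Real.sqrt ((chain hE hS).Q n) ≠ 0 := (Real.sqrt_pos.2 hQ).ne'
  have e : (sdata hE n).coef F i.1 i.2 = mFourierCoeff
      (pullF ((chain hE hS).h n) ((chain hE hS).Q n) ((chain hE hS).o n) ((chain hE hS).z n) F ↑i.1)
      ((Cl hE hS (n + 1)).vec i.2) := rfl
  rw [h1, e, ← mul_assoc, div_eq_mul_inv]
  refine Eq.trans ?_ (mul_comm _ _)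
  congr 1
  rw [← Complex.ofReal_mul, ← Complex.ofReal_inv]
  congr 1
  field_simp

/-- coefficients of a vector on coloured modes -/
def alph (n : ℕ) (f : HR R) (p : ℕ) (x : Fin (kk hE n)) : ℂ :=
  if h : p < (chain hE hS).h n then ⟪em R n (⟨p, h⟩, x), f⟫_ℂ else 0

theorem PP_eq_emb (n : ℕ) (f : HR R) :
    PP' R n f = ((1 / Real.sqrt (R.wt n) : ℝ) : ℂ) • emb R n (combC (Cl hE hS n) (alph R n f)) := by
  have h := sum_smul_md R n (fun i : II (hE := hE) (hS := hS) n => ⟪em R n i, f⟫_ℂ) (fun i => (i.1 : ℕ))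
    (fun i => (Cl hE hS n).vec i.2)
  refine (h.trans ?_ : PP' R n f = _)
  congr 1
  refine emb_congr R n (nice_sum _ _ fun i _ => nice_mode1 _ _) (nice_combC _ _) fun p hp z => ?_
  rw [Fintype.sum_prod_type, Finset.sum_eq_single ⟨p, hp⟩]
  · refine Finset.sum_congr rfl fun x _ => ?_
    simp [alph, dif_pos hp, mode1]
  · intro q _ hq
    refine Finset.sum_eq_zero fun x _ => ?_
    rw [mode1, if_neg, mul_zero]
    exact fun e => hq (Fin.ext e.symm)
  · simp

theorem sum_alph_sq (n : ℕ) (f : HR R) :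
    ∑ p ∈ Finset.range ((chain hE hS).h n), ∑ x, ‖alph R n f p x‖ ^ 2
      = ∑ i : II (hE := hE) (hS := hS) n, ‖⟪em R n i, f⟫_ℂ‖ ^ 2 := by
  rw [Fintype.sum_prod_type, Finset.sum_range]
  refine Finset.sum_congr rfl fun p _ => Finset.sum_congr rfl fun x _ => ?_
  simp [alph, dif_pos p.isLt]

theorem coeFn_sum_bb (n : ℕ) (c : II (hE := hE) (hS := hS) n → ℂ) (α : ℕ → Fin (kk hE n) → ℂ)
    (hα : ∀ i, c i = α i.1 i.2) :
    ((∑ i, c i • bb n i : Lp ℂ 2 hm) : UnitAddCircle → ℂ) =ᵐ[hm]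
      fun θ => gamS hS hE n θ * image ((chain hE hS).h n) (Cl hE hS n) α θ := by
  have h1 : ∀ᵐ θ ∂hm, ∀ i, (c i • bb n i : Lp ℂ 2 hm) θ = c i * bfun n i θ := by
    refine ae_all_iff.2 fun i => ?_
    filter_upwards [Lp.coeFn_smul (c i) (bb n i), (memLp_bfun n i).coeFn_toLp] with θ e1 e2
    rw [e1, Pi.smul_apply, smul_eq_mul, bb, e2]
  filter_upwards [Lp.coeFn_finsetSum Finset.univ (fun i => c i • bb n i), h1] with θ e1 e2
  rw [e1, Finset.sum_apply, Finset.sum_congr rfl fun i _ => e2 i, image, Fintype.sum_prod_type, Finset.sum_comm,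
    Finset.mul_sum]
  refine Finset.sum_congr rfl fun x _ => ?_
  rw [TS, Finset.sum_range, Finset.sum_mul, Finset.mul_sum]
  refine Finset.sum_congr rfl fun p _ => ?_
  rw [hα, bfun]
  simp only
  ring

theorem image_mul {D : ℕ} (h : ℕ) (C : Colours D) (a : ℂ) (α : ℕ → Fin C.k → ℂ) (θ : UnitAddCircle) :
    image h C (fun p x => α p x * a) θ = image h C α θ * a := by
  simp only [image, TS, Finset.sum_mul]
  exact Finset.sum_congr rfl fun x _ => Finset.sum_congr rfl fun p _ => by ring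

theorem del_nonneg (n : ℕ) : 0 ≤ del hE n := sq_nonneg _

theorem step_U (n : ℕ) (f : HR R) :
    ‖Un R (n + 1) (PP' R n f) - Un R n f‖ ≤ Real.sqrt (del hE n) * ‖f‖ := by
  have hspec := (hS _ (epsS_pos hE n) (epsS_le_one hE n) (sdata hE n)).2.2.choose_spec
  set gam := (hS _ (epsS_pos hE n) (epsS_le_one hE n) (sdata hE n)).2.2.choose with hgam
  have hb := hspec.2.2 (alph R n f)
  set co := fun P x => (sdata hE n).coef (combC (Cl hE hS n) (alph R n f)) P x with hco
  have e1 := coeFn_sum_bb (n + 1) (fun i : II (hE := hE) (hS := hS) (n + 1) => ⟪em R (n + 1) i, PP' R n f⟫_ℂ)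
    (fun P x => co P x * ((Real.sqrt ((chain hE hS).Q n) : ℂ))⁻¹) (fun i => by
      rw [PP_eq_emb, inner_em_succ R n (nice_combC _ _) i, div_eq_mul_inv]
      rfl)
  have e2 := coeFn_sum_bb n (fun i : II (hE := hE) (hS := hS) n => ⟪em R n i, f⟫_ℂ) (alph R n f)
    (fun i => by simp [alph, dif_pos i.1.isLt])
  have hsq : ‖Un R (n + 1) (PP' R n f) - Un R n f‖ ^ 2 ≤ del hE n * ‖f‖ ^ 2 := by
    rw [norm_sq_Lp]
    have e3 : (fun θ => ‖((Un R (n + 1) (PP' R n f) - Un R n f : Lp ℂ 2 hm) : UnitAddCircle → ℂ) θ‖ ^ 2)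
        =ᵐ[hm] fun θ => ‖gam θ * image (sdata hE n).H (sdata hE n).C' co θ / (Real.sqrt (sdata hE n).C.Q : ℂ)
          - image (sdata hE n).h (sdata hE n).C (alph R n f) θ‖ ^ 2 := by
      filter_upwards [Lp.coeFn_sub (Un R (n + 1) (PP' R n f)) (Un R n f), e1, e2] with θ a b c
      rw [a, Pi.sub_apply, Un, Un, b, c,
        image_mul ((chain hE hS).h (n + 1)) (Cl hE hS (n + 1)) _ co θ,
        show gamS hS hE (n + 1) θ = gamS hS hE n θ * gam θ from rfl,
        show image ((chain hE hS).h (n + 1)) (Cl hE hS (n + 1)) co θ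
          = image (sdata hE n).H (sdata hE n).C' co θ from rfl]
      rw [show ∀ g γ I J a : ℂ, g * γ * (I * a) - g * J = g * (γ * I * a - J) from fun _ _ _ _ _ => by ring,
        norm_mul, (gamS_spec n).2 θ, one_mul, ← div_eq_mul_inv]
      rfl
    rw [integral_congr_ae e3]
    refine hb.trans ?_
    have h2 := (orthonormal_em R n).sum_inner_products_le f (s := Finset.univ)
    have h3 := sum_alph_sq R n f
    have h4 : stepErr (epsS hE n) ≤ del hE n := stepErr_epsn _ _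
    calc stepErr (epsS hE n) * ∑ p ∈ Finset.range (sdata hE n).h, ∑ x, ‖alph R n f p x‖ ^ 2
        ≤ del hE n * ∑ p ∈ Finset.range (sdata hE n).h, ∑ x, ‖alph R n f p x‖ ^ 2 :=
          mul_le_mul_of_nonneg_right h4 (Finset.sum_nonneg fun p _ => Finset.sum_nonneg fun x _ => sq_nonneg _)
      _ ≤ del hE n * ‖f‖ ^ 2 := mul_le_mul_of_nonneg_left (h3.trans_le h2) (del_nonneg n)
  refine le_of_pow_le_pow_left₀ two_ne_zero (by positivity) ?_
  rwa [mul_pow, Real.sq_sqrt (del_nonneg n)]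

/-- index of box modes -/
abbrev BI (n : ℕ) : Type := Fin ((chain hE hS).h n) × {v // v ∈ box (stage hE n).D (stage hE n).B}

/-- box mode -/
def mb (n : ℕ) (i : BI (hE := hE) (hS := hS) n) : HR R := md R n i.1 i.2.1

theorem orthonormal_mb (n : ℕ) : Orthonormal ℂ (mb R n) :=
  orthonormal_md R n _ _ (fun i => i.1.isLt) fun a b h => by
    have h1 := congrArg Prod.fst h
    have h2 := congrArg Prod.snd h
    exact Prod.ext (Fin.ext h1) (Subtype.ext h2)

/-- projection on box modes -/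
def Pb (n : ℕ) (f : HR R) : HR R := ∑ i, ⟪mb R n i, f⟫_ℂ • mb R n i

theorem inner_mb_Pb (n : ℕ) (f : HR R) (i : BI (hE := hE) (hS := hS) n) :
    ⟪mb R n i, Pb R n f⟫_ℂ = ⟪mb R n i, f⟫_ℂ :=
  (orthonormal_mb R n).inner_right_fintype _ i

theorem zero_mem_box (D B : ℕ) : (0 : Fin D → ℤ) ∈ box D B := by
  simp [box, Fintype.mem_piFinset]

theorem box_step (n : ℕ) (v : HR R) (hv : Pb R n v = v)
    (h0 : ∑ p : Fin ((chain hE hS).h n), ⟪md R n p 0, v⟫_ℂ = 0) :
    ‖v - PP' R (n + 1) v‖ ^ 2 ≤ del hE n * ‖v‖ ^ 2 := by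
  classical
  set α : ℕ → (Fin (stage hE n).D → ℤ) → ℂ := fun p w =>
    if h : p < (chain hE hS).h n then ⟪md R n p w, v⟫_ℂ else 0 with hα
  have hrep : v = ((1 / Real.sqrt (R.wt n) : ℝ) : ℂ) • emb R n (comb (box _ (stage hE n).B) α) := by
    conv_lhs => rw [← hv, Pb]
    refine (sum_smul_md R n (fun i => ⟪mb R n i, v⟫_ℂ) (fun i => (i.1 : ℕ)) (fun i => i.2.1)).trans ?_
    congr 1
    refine emb_congr R n (nice_sum _ _ fun i _ => nice_mode1 _ _) (nice_comb _ _) fun p hp z => ?_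
    rw [Fintype.sum_prod_type, Finset.sum_eq_single ⟨p, hp⟩, comb, ← Finset.sum_coe_sort (box _ (stage hE n).B)]
    · refine Finset.sum_congr rfl fun w _ => ?_
      simp [hα, mb, dif_pos hp, mode1, (show p < (stage hE n).h from hp)]
    · intro q _ hq
      refine Finset.sum_eq_zero fun x _ => ?_
      rw [mode1, if_neg, mul_zero]
      exact fun e => hq (Fin.ext e.symm)
    · simp
  have hb := (hS _ (epsS_pos hE n) (epsS_le_one hE n) (sdata hE n)).2.1 α (by
    show ∑ p ∈ Finset.range ((chain hE hS).h n), α p 0 = 0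
    rw [Finset.sum_range, ← h0]
    exact Finset.sum_congr rfl fun p _ => by simp [hα, dif_pos p.isLt])
  have hnorm : ∑ p ∈ Finset.range ((chain hE hS).h n), ∑ w ∈ box _ (stage hE n).B, ‖α p w‖ ^ 2 = ‖v‖ ^ 2 := by
    have h := ons_split (orthonormal_mb R n) v
    rw [show (∑ i, ⟪mb R n i, v⟫_ℂ • mb R n i) = v from hv, sub_self, norm_zero] at h
    have h2 : ∑ p ∈ Finset.range ((chain hE hS).h n), ∑ w ∈ box _ (stage hE n).B, ‖α p w‖ ^ 2
        = ∑ i : BI (hE := hE) (hS := hS) n, ‖⟪mb R n i, v⟫_ℂ‖ ^ 2 := by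
      rw [Fintype.sum_prod_type, Finset.sum_range]
      refine Finset.sum_congr rfl fun p _ => ?_
      rw [← Finset.sum_coe_sort (box _ (stage hE n).B)]
      exact Finset.sum_congr rfl fun w _ => by simp [hα, mb, dif_pos p.isLt]
    linarith
  have hcoef : ∑ i : II (hE := hE) (hS := hS) (n + 1), ‖⟪em R (n + 1) i, v⟫_ℂ‖ ^ 2
      = (∑ P ∈ Finset.range (sdata hE n).H, ∑ x,
          ‖(sdata hE n).coef (comb (box _ (stage hE n).B) α) P x‖ ^ 2) / (sdata hE n).C.Q := by
    rw [Fintype.sum_prod_type, show (sdata hE n).H = (chain hE hS).h (n + 1) from rfl,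
      Finset.sum_range, Finset.sum_div]
    refine Finset.sum_congr rfl fun P _ => ?_
    rw [Finset.sum_div]
    refine Finset.sum_congr rfl fun x _ => ?_
    conv_lhs => rw [hrep, inner_em_succ R n (nice_comb _ _) (P, x)]
    rw [norm_div, Complex.norm_real, Real.norm_eq_abs, div_pow, sq_abs, Real.sq_sqrt (Nat.cast_nonneg _)]
    rfl
  rw [norm_sub_PP, hcoef]
  have h4 : stepErr (epsS hE n) ≤ del hE n := stepErr_epsn _ _
  have h5 := mul_le_mul_of_nonneg_right h4 (sq_nonneg ‖v‖)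
  have hb' : (1 - stepErr (epsS hE n)) * ‖v‖ ^ 2
      ≤ (∑ P ∈ Finset.range (sdata hE n).H, ∑ x,
          ‖(sdata hE n).coef (comb (box _ (stage hE n).B) α) P x‖ ^ 2) / (sdata hE n).C.Q := by
    rw [← hnorm]; exact hb
  linarith

theorem PP_step (n : ℕ) (f : HR R) :
    ‖PP' R n f - PP' R (n + 1) (PP' R n f)‖ ≤ Real.sqrt (del hE n) * ‖f‖ := by
  have hfix : Pb R n (PP' R n f) = PP' R n f := by
    have hem : ∀ i : II (hE := hE) (hS := hS) n, Pb R n (em R n i) = em R n i := by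
      intro i
      have : em R n i = mb R n (i.1, ⟨(Cl hE hS n).vec i.2, (stage hE n).box_vec i.2⟩) := rfl
      rw [this, Pb, Finset.sum_eq_single (i.1, ⟨(Cl hE hS n).vec i.2, (stage hE n).box_vec i.2⟩)]
      · rw [inner_self_eq_norm_sq_to_K, (orthonormal_mb R n).1]; simp
      · intro j _ hj
        rw [(orthonormal_mb R n).2 hj, zero_smul]
      · simp
    simp only [PP', Pb, inner_sum, inner_smul_right, Finset.sum_smul, mul_smul]
    rw [Finset.sum_comm]
    refine Finset.sum_congr rfl fun i _ => ?_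
    rw [← Finset.smul_sum]
    congr 1
    exact hem i
  have h0 : ∑ p : Fin ((chain hE hS).h n), ⟪md R n p 0, PP' R n f⟫_ℂ = 0 := by
    refine Finset.sum_eq_zero fun p _ => ?_
    simp only [PP', inner_sum, inner_smul_right]
    refine Finset.sum_eq_zero fun i _ => ?_
    rw [em, inner_md R n _ _ _ _ p.isLt, if_neg (fun h => (stage hE n).good.ne_zero i.2 h.2.symm), mul_zero]
  refine le_of_pow_le_pow_left₀ two_ne_zero (by positivity) ?_
  rw [mul_pow, Real.sq_sqrt (del_nonneg n)]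
  exact (box_step R n _ hfix h0).trans (mul_le_mul_of_nonneg_left
    (pow_le_pow_left₀ (norm_nonneg _) (norm_PP_le R n f) 2) (del_nonneg n))

end

end Vale.Agent.P130.Full
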