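import Vale.Agent.P130.Sol.Gauss

/-! Fourier coefficients of a linear chirp on the circle are flat on one block of frequencies. -/

namespace Vale.Agent.P130.Full

open MeasureTheory Filter Topology Set
open Vale.Agent.P130 Vale.Agent.P130.Sol
open scoped ENNReal ComplexConjugate Real

noncomputable section

/-- Fresnel integrand -/
def fz (u : ℝ) : ℂ := er (u ^ 2 / 2)

theorem continuous_er : Continuous er := by unfold er; fun_prop

theorem continuous_fz : Continuous fz := continuous_er.comp (by fun_prop)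

theorem norm_fz (u : ℝ) : ‖fz u‖ = 1 := norm_er _

theorem fz_neg (u : ℝ) : fz (-u) = fz u := by simp [fz]

/-- Fresnel integral -/
def FF (x : ℝ) : ℂ := ∫ u in (0:ℝ)..x, fz u

theorem ii (a b : ℝ) : IntervalIntegrable fz volume a b := continuous_fz.intervalIntegrable a b

theorem FF_sub (a b : ℝ) : FF b - FF a = ∫ u in a..b, fz u :=
  intervalIntegral.integral_interval_sub_left (ii _ _) (ii _ _)

theorem FF_neg (x : ℝ) : FF (-x) = -FF x := by
  have h := intervalIntegral.integral_comp_neg (a := (0:ℝ)) (b := x) fz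
  simp only [fz_neg, neg_zero] at h
  rw [FF, FF, intervalIntegral.integral_symm, h]

theorem hasDerivAt_fz (u : ℝ) : HasDerivAt fz (fz u * (2 * π * u * Complex.I : ℂ)) u := by
  have h1 : HasDerivAt (fun t : ℝ => 2 * π * (t ^ 2 / 2)) (2 * π * u) u := by
    have := ((hasDerivAt_pow 2 u).div_const 2).const_mul (2 * π)
    simpa using this
  have h2 := (h1.ofReal_comp.mul_const Complex.I).cexp
  have e : (fun t : ℝ => Complex.exp (((2 * π * (t ^ 2 / 2) : ℝ) : ℂ) * Complex.I)) = fz := by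
    funext t; rw [fz, er]
  rw [e] at h2
  convert h2 using 2
  · rw [fz, er]
  · push_cast; ring

theorem norm_FF_sub (a b : ℝ) (ha : 0 < a) (hab : a ≤ b) : ‖FF b - FF a‖ ≤ 1 / (π * a) := by
  rw [FF_sub]
  have hne : ∀ u ∈ uIcc a b, (u:ℂ) ≠ 0 := fun u hu => by
    rw [uIcc_of_le hab, mem_Icc] at hu
    exact_mod_cast (show u ≠ 0 by linarith [hu.1])
  have hπ : (π:ℂ) ≠ 0 := by exact_mod_cast Real.pi_ne_zero
  set w : ℝ → ℂ := fun u => (2 * π * Complex.I : ℂ)⁻¹ * (u:ℂ)⁻¹ with hw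
  set w' : ℝ → ℂ := fun u => -(2 * π * Complex.I : ℂ)⁻¹ / (u:ℂ) ^ 2 with hw'
  have hwd : ∀ u ∈ uIcc a b, HasDerivAt w (w' u) u := fun u hu => by
    have h := ((((hasDerivAt_id u).ofReal_comp).inv (by simpa using hne u hu)).const_mul (2 * π * Complex.I : ℂ)⁻¹)
    refine HasDerivAt.congr_deriv h ?_
    simp [hw']; ring
  have hw'i : IntervalIntegrable w' volume a b :=
    (ContinuousOn.div continuousOn_const (Complex.continuous_ofReal.pow 2).continuousOn
      fun u hu => pow_ne_zero _ (hne u hu)).intervalIntegrable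
  have hfi : IntervalIntegrable (fun u => fz u * (2 * π * u * Complex.I : ℂ)) volume a b :=
    (continuous_fz.mul (by fun_prop)).intervalIntegrable a b
  have hparts := intervalIntegral.integral_mul_deriv_eq_deriv_mul hwd (fun u _ => hasDerivAt_fz u) hw'i hfi
  have heq : ∫ u in a..b, fz u = ∫ u in a..b, w u * (fz u * (2 * π * u * Complex.I : ℂ)) := by
    refine intervalIntegral.integral_congr fun u hu => ?_
    have := hne u hu
    simp only [hw]
    field_simp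
  rw [heq, hparts]
  have hwn : ∀ u, 0 < u → ‖w u‖ = 1 / (2 * π * u) := fun u hu => by
    simp only [hw, norm_mul, norm_inv, Complex.norm_real, Complex.norm_I, mul_one, Real.norm_eq_abs,
      abs_of_pos Real.pi_pos, abs_of_pos hu, Complex.norm_ofNat]
    field_simp
  have hint : ‖∫ u in a..b, w' u * fz u‖ ≤ 1 / (2 * π) * (1 / a - 1 / b) := by
    have hb : ∀ u ∈ Set.Ioc a b, ‖w' u * fz u‖ ≤ 1 / (2 * π) * (u ^ 2)⁻¹ := fun u hu => by
      simp only [hw', norm_mul, norm_div, norm_neg, norm_inv, norm_pow, norm_fz, Complex.norm_real,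
        Complex.norm_I, mul_one, Real.norm_eq_abs, abs_of_pos Real.pi_pos, Complex.norm_ofNat, sq_abs]
      rw [div_eq_mul_inv, one_div]
    have hci : IntervalIntegrable (fun u : ℝ => (u ^ 2)⁻¹) volume a b :=
      (ContinuousOn.inv₀ (by fun_prop) fun u hu => pow_ne_zero _ (by exact_mod_cast hne u hu)).intervalIntegrable
    refine (intervalIntegral.norm_integral_le_of_norm_le hab (Eventually.of_forall hb) (hci.const_mul _)).trans_eq ?_
    rw [intervalIntegral.integral_const_mul]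
    congr 1
    have hd : ∀ u ∈ uIcc a b, HasDerivAt (fun u : ℝ => -u⁻¹) ((u ^ 2)⁻¹) u := fun u hu => by
      exact (((hasDerivAt_inv (show u ≠ 0 by exact_mod_cast hne u hu)).neg).congr_deriv (by simp))
    rw [intervalIntegral.integral_eq_sub_of_hasDerivAt hd hci]
    ring
  have hb0 : 0 < b := ha.trans_le hab
  refine (norm_sub_le _ _).trans ((add_le_add (norm_sub_le _ _) hint).trans_eq ?_)
  rw [norm_mul (w b), norm_mul (w a), norm_fz, norm_fz, hwn a ha, hwn b hb0]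
  field_simp
  ring

theorem norm_FF_le_abs (x : ℝ) : ‖FF x‖ ≤ |x| := by
  have h := intervalIntegral.norm_integral_le_of_norm_le_const (f := fz) (C := 1) (a := 0) (b := x)
    fun u _ => (norm_fz u).le
  simpa [FF] using h

theorem norm_FF_le (x : ℝ) : ‖FF x‖ ≤ 2 := by
  wlog hx : 0 ≤ x generalizing x
  · have := this (-x) (by linarith)
    rwa [FF_neg, norm_neg] at this
  rcases le_total x 1 with h | h
  · exact (norm_FF_le_abs x).trans (by rw [abs_of_nonneg hx]; linarith)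
  · have h1 := norm_FF_sub 1 x one_pos h
    have h2 := norm_FF_le_abs 1
    have h3 : 1 / (π * 1) ≤ 1 := by
      rw [mul_one, div_le_one Real.pi_pos]; linarith [Real.pi_gt_three]
    have h4 := norm_le_norm_add_norm_sub' (FF x) (FF 1)
    rw [abs_one] at h2
    linarith

theorem cauchySeq_FF : CauchySeq fun n : ℕ => FF n := by
  refine cauchySeq_of_le_tendsto_0' (fun n => if n = 0 then 2 else 1 / (π * n)) (fun n m hnm => ?_) ?_
  · rw [dist_comm, dist_eq_norm]
    split_ifs with h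
    · subst h; simpa [FF] using norm_FF_le m
    · exact norm_FF_sub n m (by exact_mod_cast Nat.pos_of_ne_zero h) (by exact_mod_cast hnm)
  · have h : Tendsto (fun n : ℕ => 1 / (π * (n:ℝ))) atTop (𝓝 0) :=
      (tendsto_natCast_atTop_atTop.const_mul_atTop Real.pi_pos).const_div_atTop 1
    refine h.congr' ?_
    filter_upwards [eventually_ne_atTop 0] with n hn
    rw [if_neg hn]

/-- the limit of the Fresnel integral -/
def LL : ℂ := (cauchySeq_tendsto_of_complete cauchySeq_FF).choose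

theorem norm_FF_sub_LL (x : ℝ) (hx : 0 < x) : ‖LL - FF x‖ ≤ 1 / (π * x) := by
  refine le_of_tendsto ((((cauchySeq_tendsto_of_complete cauchySeq_FF).choose_spec).sub_const _).norm)
    ((tendsto_natCast_atTop_atTop.eventually_ge_atTop x).mono fun n hn => norm_FF_sub x n hx hn)

theorem integral_hm_eq (g : UnitAddCircle → ℂ) : ∫ y, g y ∂hm = ∫ t in (0:ℝ)..1, g (t : UnitAddCircle) := by
  rw [hm_eq_volume, ← AddCircle.intervalIntegral_preimage 1 0 g, zero_add]

/-- chirp function -/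
def cf (R : ℤ) (y : UnitAddCircle) : ℂ := er ((R:ℝ) * rep y ^ 2 / 2)

theorem measurable_cf (R : ℤ) : Measurable (cf R) := by
  have : Measurable fun t : ℝ => er ((R:ℝ) * t ^ 2 / 2) := (continuous_er.comp (by fun_prop)).measurable
  exact this.comp measurable_rep

theorem norm_cf (R : ℤ) (y : UnitAddCircle) : ‖cf R y‖ = 1 := norm_er _

/-- its Fourier coefficients -/
def ch (R i : ℤ) : ℂ := ∫ y, cf R y * fourier (-i) y ∂hm

theorem ch_neg (R i : ℤ) : ch (-R) (-i) = conj (ch R i) := by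
  rw [ch, ch, ← integral_conj]
  refine integral_congr_ae (Eventually.of_forall fun y => ?_)
  simp only [map_mul, cf, conj_er, ← fourier_neg, neg_neg, Int.cast_neg, neg_mul, neg_div]

theorem hasSum_ch_sq (R : ℤ) : HasSum (fun i => ‖ch R i‖ ^ 2) 1 := by
  have hL : MemLp (cf R) 2 hm :=
    MemLp.of_bound (measurable_cf R).aestronglyMeasurable 1 (Eventually.of_forall fun y => (norm_cf R y).le)
  have h := hasSum_sq_fourierCoeff (hL.toLp (cf R))
  have h1 : ∫ y, ‖(hL.toLp (cf R) : UnitAddCircle → ℂ) y‖ ^ 2 ∂hm = 1 := by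
    rw [integral_congr_ae (g := fun _ => (1:ℝ)) ?_]
    · simp
    · filter_upwards [hL.coeFn_toLp] with y hy
      rw [hy, norm_cf, one_pow]
  rw [h1] at h
  refine h.congr_fun fun i => ?_
  congr 2
  rw [fourierCoeff, ch]
  refine integral_congr_ae ?_
  filter_upwards [hL.coeFn_toLp] with y hy
  rw [hy, smul_eq_mul, mul_comm]

theorem sum_ch_sq_le (R : ℤ) (s : Finset ℤ) : ∑ i ∈ s, ‖ch R i‖ ^ 2 ≤ 1 :=
  sum_le_hasSum s (fun i _ => sq_nonneg _) (hasSum_ch_sq R)

theorem norm_ch_eq (R i : ℤ) (hR : 0 < R) : ‖ch R i‖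
    = ‖FF (((R:ℝ) - i) / Real.sqrt R) - FF (-(i:ℝ) / Real.sqrt R)‖ / Real.sqrt R := by
  have hR' : (0:ℝ) < R := by exact_mod_cast hR
  have hs : 0 < Real.sqrt R := Real.sqrt_pos.2 hR'
  have h2 : Real.sqrt R ^ 2 = R := Real.sq_sqrt hR'.le
  have hch : ch R i = er (-((i:ℝ) ^ 2) / (2 * R)) *
      ∫ t in (0:ℝ)..1, fz (Real.sqrt R * t - (i:ℝ) / Real.sqrt R) := by
    rw [ch, integral_hm_eq (fun y => cf R y * fourier (-i) y), ← intervalIntegral.integral_const_mul]
    refine intervalIntegral.integral_congr_ae ?_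
    filter_upwards [(Measure.ae_ne volume (1:ℝ))] with t ht hmem
    rw [uIoc_of_le zero_le_one, mem_Ioc] at hmem
    have hf : rep (t : UnitAddCircle) = t := by
      rw [rep_coe, Int.fract_eq_self]; exact ⟨hmem.1.le, lt_of_le_of_ne hmem.2 ht⟩
    simp only [cf, fz, hf, fourier_coe_er, ← er_add]
    congr 1
    field_simp
    push_cast
    rw [h2]
    ring
  rw [hch, norm_mul, norm_er, one_mul, intervalIntegral.integral_comp_mul_sub (fun u => fz u) hs.ne']
  rw [mul_zero, zero_sub, mul_one, ← FF_sub, norm_smul, norm_inv, Real.norm_eq_abs, abs_of_pos hs,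
    show Real.sqrt R - (i:ℝ) / Real.sqrt R = ((R:ℝ) - i) / Real.sqrt R by field_simp; rw [h2],
    show -((i:ℝ) / Real.sqrt R) = -(i:ℝ) / Real.sqrt R by ring]
  ring

theorem ch_interior (R i : ℤ) (w : ℝ) (hR : 0 < R) (hw : 0 < w) (h1 : w ≤ i) (h2 : w ≤ R - i) :
    |‖ch R i‖ * Real.sqrt R - ‖2 * LL‖| ≤ 2 * Real.sqrt R / (π * w) := by
  have hs : 0 < Real.sqrt R := Real.sqrt_pos.2 (by exact_mod_cast hR)
  rw [norm_ch_eq R i hR, div_mul_cancel₀ _ hs.ne', neg_div, FF_neg, sub_neg_eq_add]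
  refine (abs_norm_sub_norm_le _ _).trans ?_
  have ha : ∀ a : ℝ, w ≤ a → ‖LL - FF (a / Real.sqrt R)‖ ≤ Real.sqrt R / (π * w) := fun a ha => by
    refine (norm_FF_sub_LL _ (div_pos (hw.trans_le ha) hs)).trans ?_
    rw [mul_div, one_div_div]
    gcongr
  have e1 := ha _ h1
  have e2 := ha _ h2
  calc ‖FF (((R:ℝ) - i) / Real.sqrt R) + FF ((i:ℝ) / Real.sqrt R) - 2 * LL‖
      = ‖-(LL - FF (((R:ℝ) - i) / Real.sqrt R)) + -(LL - FF ((i:ℝ) / Real.sqrt R))‖ := by congr 1; ring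
    _ ≤ _ := by
      refine (norm_add_le _ _).trans ?_
      rw [norm_neg, norm_neg]
      have e3 : 2 * Real.sqrt R / (π * w) = Real.sqrt R / (π * w) + Real.sqrt R / (π * w) := by ring
      linarith

theorem ch_exterior (R i : ℤ) (d : ℝ) (hR : 0 < R) (hd : 0 < d) (h : (i:ℝ) ≤ -d ∨ (R:ℝ) + d ≤ i) :
    ‖ch R i‖ ≤ 1 / (π * d) := by
  have hR' : (0:ℝ) < R := by exact_mod_cast hR
  have hs : 0 < Real.sqrt R := Real.sqrt_pos.2 hR'
  rw [norm_ch_eq R i hR, div_le_iff₀ hs]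
  have key : ∀ a b : ℝ, d ≤ a → a ≤ b → ‖FF (b / Real.sqrt R) - FF (a / Real.sqrt R)‖
      ≤ 1 / (π * d) * Real.sqrt R := fun a b h1 h2 => by
    refine (norm_FF_sub _ _ (div_pos (hd.trans_le h1) hs) (by gcongr)).trans ?_
    rw [mul_div, one_div_div, one_div_mul_eq_div]
    gcongr
  rcases h with h | h
  · exact key (-(i:ℝ)) ((R:ℝ) - i) (by linarith) (by linarith)
  · rw [neg_div, FF_neg, ← FF_neg, ← norm_neg, neg_sub, show ((R:ℝ) - i) / Real.sqrt R
      = -(((i:ℝ) - R) / Real.sqrt R) by ring, FF_neg, FF_neg, neg_sub_neg, norm_sub_rev]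
    exact key ((i:ℝ) - R) (i:ℝ) (by linarith) (by linarith)

theorem norm_ch_le (R i : ℤ) (hR : 0 < R) : ‖ch R i‖ ≤ 4 / Real.sqrt R := by
  rw [norm_ch_eq R i hR]
  gcongr
  exact (norm_sub_le _ _).trans (by linarith [norm_FF_le (((R:ℝ) - i) / Real.sqrt R), norm_FF_le (-(i:ℝ) / Real.sqrt R)])

/-- `R` at distance at least `k √R` -/
def wid (k : ℕ) (R : ℤ) : ℕ := k * (Nat.sqrt R.natAbs + 1)

theorem sum_sq_le (k : ℕ) (hk : 1 ≤ k) (R : ℤ) (hR : 0 < R) :
    1 ≤ ((R:ℝ) + 1) / R * (‖2 * LL‖ + 1 / k) ^ 2 + (4 * wid k R + 2) * (16 / R) + 2 / (wid k R : ℝ) := by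
  have hR' : (0:ℝ) < R := by exact_mod_cast hR
  have hs : 0 < Real.sqrt R := Real.sqrt_pos.2 hR'
  set w := wid k R with hw
  have hw0 : 0 < w := Nat.mul_pos hk (Nat.succ_pos _)
  have hw' : (0:ℝ) < w := by exact_mod_cast hw0
  have hwR : (k:ℝ) * Real.sqrt R ≤ w := by
    rw [hw, wid]; push_cast
    have h1 := Nat.lt_succ_sqrt R.natAbs
    have h2 : (R:ℝ) ≤ ((Nat.sqrt R.natAbs + 1 : ℕ) : ℝ) ^ 2 := by
      have h3 : (R.natAbs : ℝ) = R := by
        rw [Nat.cast_natAbs, abs_of_pos hR]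
      rw [← h3]; exact_mod_cast (by rw [sq]; exact h1.le)
    have h4 := (Real.sqrt_le_left (by positivity)).2 h2
    push_cast at h4
    gcongr
  refine hasSum_le_of_sum_le (hasSum_ch_sq R) fun s => ?_
  set I1 := Finset.Icc (w:ℤ) (R - w) with hI1
  set B2 := Finset.Icc (-(w:ℤ)) (w:ℤ) ∪ Finset.Icc (R - w) (R + w) with hB2
  have hsplit : ∑ i ∈ s, ‖ch R i‖ ^ 2 ≤ ∑ i ∈ I1, ‖ch R i‖ ^ 2 + ∑ i ∈ B2, ‖ch R i‖ ^ 2
      + ∑ i ∈ s.filter (fun i => i < -(w:ℤ)), ‖ch R i‖ ^ 2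
      + ∑ i ∈ s.filter (fun i => R + w < i), ‖ch R i‖ ^ 2 := by
    rw [Finset.sum_filter, Finset.sum_filter]
    have hf := fun i : ℤ => sq_nonneg ‖ch R i‖
    have hbound : ∀ i ∈ s, ‖ch R i‖ ^ 2 ≤ (if i ∈ I1 then ‖ch R i‖ ^ 2 else 0)
        + (if i ∈ B2 then ‖ch R i‖ ^ 2 else 0) + (if i < -(w:ℤ) then ‖ch R i‖ ^ 2 else 0)
        + (if R + w < i then ‖ch R i‖ ^ 2 else 0) := by
      intro i _
      have := hf i
      simp only [hI1, hB2, Finset.mem_Icc, Finset.mem_union]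
      split_ifs <;> first | linarith | omega
    refine (Finset.sum_le_sum hbound).trans ?_
    simp only [Finset.sum_add_distrib, Finset.sum_ite_mem]
    gcongr <;> exact Finset.inter_subset_right
  have e1 : ∑ i ∈ I1, ‖ch R i‖ ^ 2 ≤ ((R:ℝ) + 1) / R * (‖2 * LL‖ + 1 / k) ^ 2 := by
    refine (Finset.sum_le_card_nsmul _ _ ((‖2 * LL‖ + 1 / k) ^ 2 / R) fun i hi => ?_).trans ?_
    · rw [hI1, Finset.mem_Icc] at hi
      have h := (abs_le.1 (ch_interior R i w hR hw' (by exact_mod_cast hi.1)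
        (by have h2 := hi.2; have : ((i:ℤ):ℝ) ≤ ((R - w : ℤ) : ℝ) := Int.cast_le.2 h2; push_cast at this; linarith))).2
      have h2 : 2 * Real.sqrt R / (π * w) ≤ 1 / k := by
        rw [div_le_div_iff₀ (by positivity) (by positivity)]
        nlinarith [Real.pi_gt_three]
      have h3 : 0 ≤ ‖ch R i‖ * Real.sqrt R := by positivity
      rw [le_div_iff₀ hR', ← Real.sq_sqrt hR'.le, ← mul_pow]
      exact pow_le_pow_left₀ h3 (by linarith) 2
    · rw [nsmul_eq_mul, div_mul_eq_mul_div, ← mul_div_assoc]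
      gcongr
      have : I1.card ≤ (R + 1).toNat := by rw [hI1, Int.card_Icc]; omega
      have h4 : ((I1.card : ℕ) : ℝ) ≤ (((R + 1).toNat : ℤ) : ℝ) := by exact_mod_cast this
      rw [Int.toNat_of_nonneg (by omega)] at h4
      push_cast at h4
      exact h4
  have e2 : ∑ i ∈ B2, ‖ch R i‖ ^ 2 ≤ (4 * (w:ℝ) + 2) * (16 / R) := by
    refine (Finset.sum_le_card_nsmul _ _ (16 / (R:ℝ)) fun i _ => ?_).trans ?_
    · refine (pow_le_pow_left₀ (norm_nonneg _) (norm_ch_le R i hR) 2).trans_eq ?_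
      rw [div_pow, Real.sq_sqrt hR'.le]; norm_num
    · rw [nsmul_eq_mul]
      gcongr
      have : B2.card ≤ 4 * w + 2 := (Finset.card_union_le _ _).trans (by simp only [Int.card_Icc]; omega)
      exact_mod_cast this
  have tail : ∀ (t : Finset ℤ) (f : ℤ → ℕ), (∀ i ∈ t, w < f i ∧ ‖ch R i‖ ≤ 1 / (π * f i)) → Set.InjOn f t →
      ∑ i ∈ t, ‖ch R i‖ ^ 2 ≤ 1 / (w:ℝ) := by
    intro t f ht hinj
    calc ∑ i ∈ t, ‖ch R i‖ ^ 2 ≤ ∑ i ∈ t, (fun d : ℕ => 1 / ((d : ℝ) ^ 2)) (f i) := Finset.sum_le_sum fun i hi => by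
          obtain ⟨h1, h2⟩ := ht i hi
          have : (0:ℝ) < f i := by exact_mod_cast (by omega : 0 < f i)
          refine (pow_le_pow_left₀ (norm_nonneg _) h2 2).trans ?_
          rw [div_pow, one_pow]
          exact one_div_le_one_div_of_le (by positivity) (pow_le_pow_left₀ this.le
            (le_mul_of_one_le_left this.le (by linarith [Real.pi_gt_three])) 2)
      _ = ∑ d ∈ t.image f, 1 / ((d : ℝ) ^ 2) := (Finset.sum_image (f := fun d : ℕ => 1 / ((d : ℝ) ^ 2)) hinj).symm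
      _ ≤ ∑ d ∈ Finset.Ioc w (max w ((t.image f).sup id)), 1 / ((d : ℝ) ^ 2) := by
          refine Finset.sum_le_sum_of_subset_of_nonneg (fun d hd => ?_) fun d _ _ => by positivity
          obtain ⟨i, hi, rfl⟩ := Finset.mem_image.1 hd
          exact Finset.mem_Ioc.2 ⟨(ht i hi).1, le_max_of_le_right (Finset.le_sup (f := id) (Finset.mem_image_of_mem f hi))⟩
      _ ≤ 1 / (w:ℝ) := by
          simp only [one_div]
          exact (sum_Ioc_inv_sq_le_sub hw0.ne' (le_max_left _ _)).trans (by simp)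
  have e3 : ∑ i ∈ s.filter (fun i => i < -(w:ℤ)), ‖ch R i‖ ^ 2 ≤ 1 / (w:ℝ) := by
    refine tail _ (fun i => i.natAbs) (fun i hi => ?_) (fun a ha b hb h => ?_)
    · have h1 := (Finset.mem_filter.1 hi).2
      refine ⟨by omega, ch_exterior R i _ hR (by exact_mod_cast (by omega : 0 < i.natAbs)) (Or.inl ?_)⟩
      rw [Nat.cast_natAbs, abs_of_nonpos (by omega)]; push_cast; simp
    · have h1 := (Finset.mem_filter.1 ha).2
      have h2 := (Finset.mem_filter.1 hb).2
      simp only at h; omega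
  have e4 : ∑ i ∈ s.filter (fun i => R + w < i), ‖ch R i‖ ^ 2 ≤ 1 / (w:ℝ) := by
    refine tail _ (fun i => (i - R).natAbs) (fun i hi => ?_) (fun a ha b hb h => ?_)
    · have h1 := (Finset.mem_filter.1 hi).2
      refine ⟨by omega, ch_exterior R i _ hR (by exact_mod_cast (by omega : 0 < (i - R).natAbs)) (Or.inr ?_)⟩
      rw [Nat.cast_natAbs, abs_of_nonneg (by omega)]; push_cast; simp
    · have h1 := (Finset.mem_filter.1 ha).2
      have h2 := (Finset.mem_filter.1 hb).2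
      simp only at h; omega
  have : 2 / (w:ℝ) = 1 / (w:ℝ) + 1 / (w:ℝ) := by ring
  linarith

theorem tendsto_wid_div (k : ℕ) : Tendsto (fun n : ℕ => (wid k (n:ℤ) : ℝ) / n) atTop (𝓝 0) := by
  have hs : Tendsto (fun n : ℕ => (2 * k : ℝ) / Real.sqrt n) atTop (𝓝 0) :=
    (Real.tendsto_sqrt_atTop.comp tendsto_natCast_atTop_atTop).const_div_atTop _
  refine squeeze_zero' (Eventually.of_forall fun n => by positivity) ((eventually_ge_atTop 1).mono fun n hn => ?_) hs
  have hn' : (1:ℝ) ≤ n := by exact_mod_cast hn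
  have h1 : ((Nat.sqrt n : ℕ) : ℝ) ≤ Real.sqrt n := Real.le_sqrt_of_sq_le (by exact_mod_cast Nat.sqrt_le' n)
  have h2 : 1 ≤ Real.sqrt n := Real.one_le_sqrt.2 hn'
  have h3 := Real.mul_self_sqrt (show (0:ℝ) ≤ n by linarith)
  rw [wid, Int.natAbs_natCast, div_le_div_iff₀ (by linarith) (by linarith)]
  push_cast
  calc (k:ℝ) * ((Nat.sqrt n : ℝ) + 1) * Real.sqrt n ≤ (k:ℝ) * (2 * Real.sqrt n) * Real.sqrt n := by
        gcongr; linarith
    _ = 2 * k * n := by linear_combination (2 * (k:ℝ)) * h3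

theorem tendsto_inv_wid (k : ℕ) (hk : 1 ≤ k) : Tendsto (fun n : ℕ => 2 / (wid k (n:ℤ) : ℝ)) atTop (𝓝 0) := by
  have : Tendsto (fun n : ℕ => wid k (n:ℤ)) atTop atTop := by
    refine tendsto_atTop_mono (fun n => ?_) (f := fun n => Nat.sqrt n) ?_
    · rw [wid, Int.natAbs_natCast]
      exact le_trans (Nat.le_succ _) (Nat.le_mul_of_pos_left _ hk)
    · exact tendsto_atTop_atTop_of_monotone (fun a b hab => Nat.sqrt_le_sqrt hab)
        fun b => ⟨b * b, (Nat.sqrt_eq b).ge⟩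
  exact (tendsto_natCast_atTop_atTop.comp this).const_div_atTop 2

theorem one_le_norm_LL : 1 ≤ ‖2 * LL‖ := by
  have key : ∀ k : ℕ, 1 ≤ k → 1 ≤ (‖2 * LL‖ + 1 / k) ^ 2 := by
    intro k hk
    have hlim : Tendsto (fun n : ℕ => (((n:ℤ):ℝ) + 1) / ((n:ℤ):ℝ) * (‖2 * LL‖ + 1 / k) ^ 2
        + (4 * (wid k (n:ℤ) : ℝ) + 2) * (16 / ((n:ℤ):ℝ)) + 2 / (wid k (n:ℤ) : ℝ)) atTop
        (𝓝 ((1 + 0) * (‖2 * LL‖ + 1 / k) ^ 2 + (64 * 0 + 32 * 0) + 0)) := by
      have h1 : Tendsto (fun n : ℕ => 1 / (n:ℝ)) atTop (𝓝 0) := tendsto_one_div_atTop_nhds_zero_nat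
      refine ((((tendsto_const_nhds (x := (1:ℝ))).add h1).mul_const _).add
        (((tendsto_wid_div k).const_mul 64).add (h1.const_mul 32)) |>.add (tendsto_inv_wid k hk)).congr' ?_
      filter_upwards [eventually_ge_atTop 1] with n hn
      have : (n:ℝ) ≠ 0 := by exact_mod_cast (by omega : n ≠ 0)
      push_cast
      field_simp
      ring
    have h := ge_of_tendsto hlim ((eventually_ge_atTop 1).mono fun n hn =>
      sum_sq_le k hk (n:ℤ) (by exact_mod_cast hn))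
    simpa using h
  have hlim : Tendsto (fun k : ℕ => (‖2 * LL‖ + 1 / (k:ℝ)) ^ 2) atTop (𝓝 ((‖2 * LL‖ + 0) ^ 2)) :=
    ((tendsto_one_div_atTop_nhds_zero_nat (𝕜 := ℝ)).const_add _).pow 2
  have h := ge_of_tendsto hlim ((eventually_ge_atTop 1).mono key)
  rw [add_zero] at h
  nlinarith [norm_nonneg (2 * LL)]

/-- the frequency block of the chirp of rate `R` -/
def Iset (R : ℤ) : Finset ℤ := if 0 ≤ R then Finset.Ico 0 R else Finset.Ioc R 0

theorem card_Iset (R : ℤ) : (Iset R).card = R.natAbs := by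
  unfold Iset; split_ifs with h
  · rw [Int.card_Ico]; omega
  · rw [Int.card_Ioc]; omega

theorem neg_mem_Iset (R i : ℤ) : -i ∈ Iset (-R) ↔ i ∈ Iset R := by
  unfold Iset; split_ifs <;> simp only [Finset.mem_Ico, Finset.mem_Ioc] <;> omega

theorem sum_Iset_neg (R : ℤ) : ∑ i ∈ Iset (-R), ‖ch (-R) i‖ = ∑ i ∈ Iset R, ‖ch R i‖ := by
  refine Finset.sum_nbij' (fun i => -i) (fun i => -i) (fun i hi => ?_) (fun i hi => ?_)
    (fun i _ => neg_neg i) (fun i _ => neg_neg i) (fun i _ => ?_)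
  · rwa [← neg_mem_Iset, neg_neg]
  · rwa [neg_mem_Iset]
  · conv_lhs => rw [← neg_neg i, ch_neg, Complex.norm_conj]

theorem exists_flat_chirp {η : ℝ} (hη : 0 < η) :
    ∃ R0 : ℕ, ∀ R : ℤ, R0 ≤ R.natAbs → (1 - η) * Real.sqrt R.natAbs ≤ ∑ i ∈ Iset R, ‖ch R i‖ := by
  obtain ⟨k, hk⟩ := exists_nat_gt (2 / η)
  have hk0 : (0:ℝ) < k := lt_trans (by positivity) hk
  have hk1 : 1 ≤ k := by exact_mod_cast hk0
  have hkη : 1 / (k:ℝ) ≤ η / 2 := by
    rw [div_le_iff₀ hk0]; rw [div_lt_iff₀ hη] at hk; linarith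
  obtain ⟨R0, hR0⟩ := eventually_atTop.1 ((((tendsto_wid_div k).const_mul 2).add
    (tendsto_one_div_atTop_nhds_zero_nat (𝕜 := ℝ))).eventually (gt_mem_nhds (show 2 * 0 + 0 < η / 2 by linarith)))
  refine ⟨max R0 1, fun R hR => ?_⟩
  wlog hpos : 0 ≤ R generalizing R
  · have := this (-R) (by simpa using hR) (by omega)
    rwa [sum_Iset_neg, Int.natAbs_neg] at this
  obtain ⟨n, rfl⟩ := Int.eq_ofNat_of_zero_le hpos
  rw [Int.natAbs_natCast] at hR ⊢
  have hn1 : 1 ≤ n := le_trans (le_max_right _ _) hR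
  have hn : (0:ℝ) < n := by exact_mod_cast hn1
  have hev := hR0 n (le_trans (le_max_left _ _) hR)
  set w := wid k (n:ℤ) with hw
  have hw0 : 0 < w := Nat.mul_pos hk1 (Nat.succ_pos _)
  set S := Real.sqrt (n:ℝ) with hS
  have hs : 0 < S := Real.sqrt_pos.2 hn
  have h2 : S * S = n := Real.mul_self_sqrt hn.le
  have hwS : (k:ℝ) * S ≤ w := by
    rw [hw, wid, Int.natAbs_natCast]; push_cast
    have h1 := Nat.lt_succ_sqrt n
    have h3 : (n:ℝ) ≤ ((Nat.sqrt n + 1 : ℕ) : ℝ) ^ 2 := by exact_mod_cast (by rw [sq]; exact h1.le)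
    have h4 := (Real.sqrt_le_left (by positivity)).2 h3
    push_cast at h4
    gcongr
  have hone := one_le_norm_LL
  have hsum : ∑ i ∈ Finset.Icc (w:ℤ) ((n:ℤ) - w), (1 - η / 2) / S ≤ ∑ i ∈ Iset (n:ℤ), ‖ch (n:ℤ) i‖ := by
    refine (Finset.sum_le_sum fun i hi => ?_).trans (Finset.sum_le_sum_of_subset_of_nonneg ?_ fun i _ _ => norm_nonneg _)
    · rw [Finset.mem_Icc] at hi
      have h := (abs_le.1 (ch_interior (n:ℤ) i w (by omega) (by exact_mod_cast hw0) (by exact_mod_cast hi.1)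
        (by have h3 : ((i:ℤ):ℝ) ≤ (((n:ℤ) - w : ℤ) : ℝ) := Int.cast_le.2 hi.2; push_cast at h3 ⊢; linarith))).1
      push_cast at h
      have h5 : 2 * S / (π * w) ≤ 1 / k := by
        rw [div_le_div_iff₀ (by positivity) (by positivity)]
        nlinarith [Real.pi_gt_three]
      rw [div_le_iff₀ hs]
      linarith
    · intro i hi
      rw [Finset.mem_Icc] at hi
      simp only [Iset, if_pos (by omega : (0:ℤ) ≤ n), Finset.mem_Ico]; omega
  refine le_trans ?_ hsum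
  rw [Finset.sum_const, nsmul_eq_mul, mul_div, le_div_iff₀ hs, mul_assoc, h2]
  have hc : (n:ℝ) - 2 * w - 1 ≤ ((Finset.Icc (w:ℤ) ((n:ℤ) - w)).card : ℝ) := by
    rw [Int.card_Icc]
    have : ((n:ℤ) - 2 * w - 1 : ℤ) ≤ (((n:ℤ) - w + 1 - w).toNat : ℤ) := by omega
    have h3 : (((n:ℤ) - 2 * w - 1 : ℤ) : ℝ) ≤ ((((n:ℤ) - w + 1 - w).toNat : ℤ) : ℝ) := Int.cast_le.2 this
    push_cast at h3 ⊢; linarith
  have hwn : 2 * (w:ℝ) + 1 ≤ η / 2 * n := by
    have h6 := mul_le_mul_of_nonneg_right hev.le hn.le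
    field_simp at h6 ⊢
    linarith
  rcases le_or_gt 1 (η / 2) with hb | hb
  · have : (1 - η) * n ≤ 0 := mul_nonpos_of_nonpos_of_nonneg (by linarith) hn.le
    rcases le_or_gt 0 (1 - η / 2) with hc2 | hc2
    · exact this.trans (mul_nonneg (Nat.cast_nonneg _) hc2)
    · have hcn : ((Finset.Icc (w:ℤ) ((n:ℤ) - w)).card : ℝ) ≤ n := by
        rw [Int.card_Icc]; exact_mod_cast (by omega : ((n:ℤ) - w + 1 - w).toNat ≤ n)
      nlinarith
  · nlinarith

end

end Vale.Agent.P130.Full
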