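import Vale.Agent.P130.Full.Density

/-! The limiting spectral map. -/

namespace Vale.Agent.P130.Full

open MeasureTheory Filter Topology Set UnitAddTorus
open Vale.Agent.P130 Vale.Agent.P130.Sol
open scoped ENNReal ComplexConjugate InnerProductSpace

noncomputable section

/-- tail bound of the errors from stage `m` on -/
def tau (hE : EncodingStatement) (m : ℕ) : ℝ := 2 / ((2:ℝ) ^ m * (stage hE m).kmax)

variable {hE : EncodingStatement} {hS : StepStatement} (R : Realisation (chain hE hS))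

theorem tau_nonneg (m : ℕ) : 0 ≤ tau hE m := by unfold tau; positivity

theorem kmax_le_mul (m : ℕ) : (1:ℝ) ≤ (stage hE m).kmax := Nat.one_le_cast.2 (stage hE m).kmax_pos

theorem tendsto_tau : Tendsto (tau hE) atTop (𝓝 0) := by
  refine squeeze_zero tau_nonneg (fun n => ?_) ((tendsto_pow_atTop_nhds_zero_of_lt_one
    (show (0:ℝ) ≤ 1 / 2 by norm_num) (by norm_num)).const_mul 2 |>.trans (le_of_eq (by rw [mul_zero])))
  rw [tau, one_div_pow, mul_one_div]
  exact div_le_div_of_nonneg_left (by norm_num) (by positivity)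
    (le_mul_of_one_le_right (by positivity) (kmax_le_mul n))

theorem PP_idem (n : ℕ) (f : HR R) : PP' R n (PP' R n f) = PP' R n f :=
  Finset.sum_congr rfl fun i _ => by rw [inner_em_PP]

theorem tele (m : ℕ) (w : HR R) (hw : PP' R m w = w) : ∀ j, m ≤ j →
    ∃ wj, PP' R j wj = wj ∧ ‖wj‖ ≤ ‖w‖ ∧
      ‖w - wj‖ ≤ (tau hE m - 2 / ((2:ℝ) ^ j * (stage hE m).kmax)) * ‖w‖ ∧
      ‖Un R j wj - Un R m w‖ ≤ (tau hE m - 2 / ((2:ℝ) ^ j * (stage hE m).kmax)) * ‖w‖ := by
  intro j hj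
  induction j, hj using Nat.le_induction with
  | base => exact ⟨w, hw, le_rfl, by simp [tau], by simp [tau]⟩
  | succ j hj ih =>
    obtain ⟨wj, h1, h2, h3, h4⟩ := ih
    refine ⟨PP' R (j + 1) wj, PP_idem R _ _, (norm_PP_le R _ _).trans h2, ?_, ?_⟩
    all_goals
      have hK : (0:ℝ) < (stage hE m).kmax := Nat.cast_pos.2 (stage hE m).kmax_pos
      have hd : Real.sqrt (del hE j) * ‖wj‖ ≤
          (2 / ((2:ℝ) ^ j * (stage hE m).kmax) - 2 / ((2:ℝ) ^ (j + 1) * (stage hE m).kmax)) * ‖w‖ := by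
        refine mul_le_mul ?_ h2 (norm_nonneg _) ?_
        · rw [del, dlt, Real.sqrt_sq (by positivity), pow_succ,
            show (2:ℝ) / (2 ^ j * (stage hE m).kmax) - 2 / (2 ^ j * 2 * (stage hE m).kmax)
              = 1 / (2 ^ j * (stage hE m).kmax) by field_simp; ring]
          exact div_le_div_of_nonneg_left zero_le_one (by positivity)
            (mul_le_mul_of_nonneg_left (Nat.cast_le.2 (kmax_mono hE hj)) (by positivity))
        · rw [pow_succ, show (2:ℝ) / (2 ^ j * (stage hE m).kmax) - 2 / (2 ^ j * 2 * (stage hE m).kmax)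
              = 1 / (2 ^ j * (stage hE m).kmax) by field_simp; ring]
          positivity
    · have hp := PP_step R j wj
      rw [h1] at hp
      refine (norm_sub_le_norm_sub_add_norm_sub w wj _).trans ?_
      linarith
    · have hu := step_U R j wj
      rw [h1] at hu
      rw [Un_PP]
      refine (norm_sub_le_norm_sub_add_norm_sub _ (Un R j wj) _).trans ?_
      linarith

theorem norm_Un_sub_Un_le (m j : ℕ) (hj : m ≤ j) (f : HR R) :
    ‖Un R j f - Un R m f‖ ≤ 2 * ‖f - PP' R m f‖ + 3 * tau hE m * ‖f‖ := by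
  obtain ⟨wj, -, -, h3, h4⟩ := tele R m (PP' R m f) (PP_idem R m f) j hj
  rw [Un_PP] at h4
  have h5 : ‖Un R j f - Un R m f‖ ≤ ‖Un R j (f - wj)‖ + ‖Un R j wj - Un R m f‖ := by
    rw [Un_sub]; exact norm_sub_le_norm_sub_add_norm_sub _ _ _
  have h6 : ‖f - wj‖ ≤ ‖f - PP' R m f‖ + ‖PP' R m f - wj‖ := norm_sub_le_norm_sub_add_norm_sub _ _ _
  have h7 := norm_Un_le R j (f - wj)
  have h8 : (tau hE m - 2 / ((2:ℝ) ^ j * (stage hE m).kmax)) * ‖PP' R m f‖ ≤ tau hE m * ‖f‖ :=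
    mul_le_mul (sub_le_self _ (by positivity)) (norm_PP_le R m f) (norm_nonneg _) (tau_nonneg m)
  linarith

theorem cauchySeq_Un (f : HR R) (hf : ⟪one R, f⟫_ℂ = 0) : CauchySeq fun n => Un R n f := by
  refine cauchySeq_of_le_tendsto_0' (fun m => 2 * ‖f - PP' R m f‖ + 3 * tau hE m * ‖f‖) (fun n m h => ?_) ?_
  · rw [dist_comm, dist_eq_norm]
    exact norm_Un_sub_Un_le R n m h f
  · simpa using ((tendsto_PP R f hf).const_mul 2).add (((tendsto_tau (hE := hE)).const_mul 3).mul_const ‖f‖)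

/-- limiting spectral image -/
def Uinf (f : HR R) : Lp ℂ 2 hm := limUnder atTop fun n => Un R n f

theorem tendsto_Un (f : HR R) (hf : ⟪one R, f⟫_ℂ = 0) : Tendsto (fun n => Un R n f) atTop (𝓝 (Uinf R f)) :=
  (cauchySeq_Un R f hf).tendsto_limUnder

theorem norm_Uinf_sub_le (m : ℕ) (f : HR R) (hf : ⟪one R, f⟫_ℂ = 0) :
    ‖Uinf R f - Un R m f‖ ≤ 2 * ‖f - PP' R m f‖ + 3 * tau hE m * ‖f‖ :=
  le_of_tendsto ((tendsto_Un R f hf).sub_const _).norm
    (eventually_atTop.2 ⟨m, fun j hj => norm_Un_sub_Un_le R m j hj f⟩)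

/-- mean-zero vectors -/
def Z0 : Submodule ℂ (HR R) := (ℂ ∙ one R)ᗮ

theorem mem_Z0 {f : HR R} : f ∈ Z0 R ↔ ⟪one R, f⟫_ℂ = 0 :=
  Submodule.mem_orthogonal_singleton_iff_inner_right

instance : CompleteSpace (Z0 R) := by unfold Z0; infer_instance

theorem tendsto_epsS : Tendsto (epsS hE) atTop (𝓝 0) := by
  refine squeeze_zero (fun n => (epsS_pos hE n).le) (fun n => ?_)
    (tendsto_pow_atTop_nhds_zero_of_lt_one (show (0:ℝ) ≤ 1 / 2 by norm_num) (by norm_num))
  have h1 : dlt n (stage hE n).kmax ≤ 1 / 2 ^ n := by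
    rw [dlt, div_pow, one_pow]
    refine div_le_div_of_nonneg_left zero_le_one (by positivity) ?_
    have h2 : (1:ℝ) ≤ 2 ^ n := one_le_pow₀ (by norm_num)
    exact (le_mul_of_one_le_right (by positivity) (kmax_le_mul n)).trans
      (le_self_pow₀ (h2.trans (le_mul_of_one_le_right (by positivity) (kmax_le_mul n))) two_ne_zero)
  have h3 : (0:ℝ) ≤ dlt n (stage hE n).kmax := (dlt_pos _ _ (stage hE n).kmax_pos).le
  have h4 : (1:ℝ) / 2 ^ n ≤ 1 := by
    rw [div_le_one (by positivity)]; exact one_le_pow₀ (by norm_num)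
  rw [epsS, epsn, one_div_pow]
  refine (min_le_right _ _).trans (le_trans ?_ h1)
  nlinarith

theorem norm_Uinf (f : HR R) (hf : ⟪one R, f⟫_ℂ = 0) : ‖Uinf R f‖ = ‖f‖ := by
  have h1 : Tendsto (fun n => ‖Un R n f‖ ^ 2) atTop (𝓝 (‖Uinf R f‖ ^ 2)) :=
    ((tendsto_Un R f hf).norm).pow 2
  have h2 : Tendsto (fun n => ‖Un R n f‖ ^ 2) atTop (𝓝 (‖f‖ ^ 2)) := by
    rw [← tendsto_sub_nhds_zero_iff]
    refine squeeze_zero_norm (a := fun n => epsS hE n * ‖f‖ ^ 2 + ‖f - PP' R n f‖ ^ 2) (fun n => ?_) ?_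
    · set S := ∑ i : II (hE := hE) (hS := hS) n, ‖⟪em R n i, f⟫_ℂ‖ ^ 2 with hS'
      have hp := norm_sub_PP R n f
      have hle : S ≤ ‖f‖ ^ 2 := (orthonormal_em R n).sum_inner_products_le f (s := Finset.univ)
      have h3 : |‖Un R n f‖ ^ 2 - S| ≤ epsS hE n * S := by
        rw [norm_Un_sq, hS', ← Finset.sum_sub_distrib, Finset.mul_sum]
        refine (Finset.abs_sum_le_sum_abs _ _).trans (Finset.sum_le_sum fun i _ => ?_)
        rw [← sub_one_mul, abs_mul, abs_of_nonneg (sq_nonneg ‖⟪em R n i, f⟫_ℂ‖)]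
        exact mul_le_mul_of_nonneg_right (muS_bounds n i.2) (sq_nonneg _)
      have h5 := mul_le_mul_of_nonneg_left hle (epsS_pos hE n).le
      have h6 := sq_nonneg ‖f - PP' R n f‖
      rw [Real.norm_eq_abs, abs_le]
      rw [abs_le] at h3
      constructor <;> linarith
    · simpa using ((tendsto_epsS (hE := hE)).mul_const (‖f‖ ^ 2)).add ((tendsto_PP R f hf).pow 2)
  exact (sq_eq_sq₀ (norm_nonneg _) (norm_nonneg _)).1 (tendsto_nhds_unique h1 h2)

/-- the spectral isometry -/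
def Phi : Z0 R →ₗᵢ[ℂ] Lp ℂ 2 hm where
  toFun f := Uinf R f.1
  map_add' f g := by
    have h := (tendsto_Un R f.1 ((mem_Z0 R).1 f.2)).add (tendsto_Un R g.1 ((mem_Z0 R).1 g.2))
    simp only [← Un_add] at h
    exact tendsto_nhds_unique (tendsto_Un R _ ((mem_Z0 R).1 (f + g).2)) h
  map_smul' c f := by
    have h := (tendsto_Un R f.1 ((mem_Z0 R).1 f.2)).const_smul c
    simp only [← Un_smul] at h
    exact tendsto_nhds_unique (tendsto_Un R _ ((mem_Z0 R).1 (c • f).2)) h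
  norm_map' f := norm_Uinf R f.1 ((mem_Z0 R).1 f.2)

theorem Phi_apply (f : Z0 R) : Phi R f = Uinf R f.1 := rfl

/-- multiplication by a character -/
def mulE (l : ℤ) (u : Lp ℂ 2 hm) : Lp ℂ 2 hm :=
  (MemLp.of_le (g := (u : UnitAddCircle → ℂ)) (f := fun θ => fourier l θ * u θ) (Lp.memLp u)
    ((fourier l).continuous.aestronglyMeasurable.mul (Lp.aestronglyMeasurable u))
    (Eventually.of_forall fun θ => by rw [norm_mul, norm_fourier_apply, one_mul])).toLp _

theorem coeFn_mulE (l : ℤ) (u : Lp ℂ 2 hm) : mulE l u =ᵐ[hm] fun θ => fourier l θ * u θ := MemLp.coeFn_toLp _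

theorem mulE_sub (l : ℤ) (u v : Lp ℂ 2 hm) : mulE l u - mulE l v = mulE l (u - v) := by
  refine Lp.ext ((Lp.coeFn_sub _ _).trans ?_)
  filter_upwards [coeFn_mulE l u, coeFn_mulE l v, coeFn_mulE l (u - v), Lp.coeFn_sub u v] with θ a b c d
  rw [Pi.sub_apply, a, b, c, d, Pi.sub_apply, mul_sub]

theorem norm_mulE (l : ℤ) (u : Lp ℂ 2 hm) : ‖mulE l u‖ = ‖u‖ := by
  rw [← sq_eq_sq₀ (norm_nonneg _) (norm_nonneg _), norm_sq_Lp, norm_sq_Lp]
  refine integral_congr_ae ?_
  filter_upwards [coeFn_mulE l u] with θ a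
  rw [a, norm_mul, norm_fourier_apply, one_mul]

theorem mulE_add (a b : ℤ) (u : Lp ℂ 2 hm) : mulE (a + b) u = mulE a (mulE b u) := by
  refine Lp.ext ((coeFn_mulE _ u).trans ?_)
  filter_upwards [coeFn_mulE a (mulE b u), coeFn_mulE b u] with θ x y
  rw [x, y, fourier_add, mul_assoc]

theorem mulE_fourierLp (a b : ℤ) : mulE a (fourierLp 2 b) = fourierLp 2 (a + b) := by
  refine Lp.ext ((coeFn_mulE _ _).trans ?_)
  filter_upwards [coeFn_fourierLp (T := 1) 2 b, coeFn_fourierLp (T := 1) 2 (a + b)] with θ x y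
  rw [x, y, fourier_add]

theorem inner_VV (n q : ℕ) (v : Fin (stage hE n).D → ℤ) (hq : q + 1 < (stage hE n).h) (f : HR R) :
    ⟪md R n q v, VV R f⟫_ℂ = ⟪md R n (q + 1) v, f⟫_ℂ := by
  rw [← VV_md R n q v hq, LinearIsometry.inner_map_map]

theorem tendsto_edge (q : ℕ → ℕ) (hq : ∀ n, q n < (stage hE n).h) (g : HR R) :
    Tendsto (fun n => ∫ x in levelSet R n (q n), ‖g x‖ ^ 2 ∂(R.μ)) atTop (𝓝 0) := by
  refine Integrable.tendsto_setIntegral_nhds_zero ((Lp.memLp g).norm.integrable_sq) ?_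
  have h : (fun n => R.μ (levelSet R n (q n))) = fun n => ENNReal.ofReal (R.wt n) := funext fun n => by
    rw [← measure_levelSet R n (q n) (hq n), Measure.real, ENNReal.ofReal_toReal (measure_ne_top _ _)]
  show Tendsto (fun n => R.μ (levelSet R n (q n))) atTop (𝓝 0)
  rw [h]
  simpa using ENNReal.tendsto_ofReal (tendsto_wt R)

/-- image of the modes of one level -/
def edge (n : ℕ) (p : Fin ((chain hE hS).h n)) (g : HR R) : Lp ℂ 2 hm :=
  ∑ x, ⟪em R n (p, x), g⟫_ℂ • bb n (p, x)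

theorem tendsto_edge_norm (q : ∀ n, Fin ((chain hE hS).h n)) (g : HR R) :
    Tendsto (fun n => ‖edge R n (q n) g‖) atTop (𝓝 0) := by
  have h0 := tendsto_edge R (fun n => (q n : ℕ)) (fun n => (q n).isLt) g
  refine squeeze_zero (fun n => norm_nonneg _) (fun n => ?_)
    (g := fun n => Real.sqrt (2 * ∫ x in levelSet R n (q n), ‖g x‖ ^ 2 ∂(R.μ)))
    (by simpa using (h0.const_mul 2).sqrt)
  refine (Real.le_sqrt (norm_nonneg _) (by positivity)).2 ?_
  have h : ⟪edge R n (q n) g, edge R n (q n) g⟫_ℂ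
      = ∑ x, ((muS hE n x * ‖⟪em R n (q n, x), g⟫_ℂ‖ ^ 2 : ℝ) : ℂ) := by
    rw [edge, sum_inner]
    refine Finset.sum_congr rfl fun x _ => ?_
    rw [inner_sum, Finset.sum_eq_single x]
    · rw [inner_smul_left, inner_smul_right, inner_bb, if_pos rfl, ← mul_assoc, Complex.conj_mul']
      push_cast; ring
    · intro y _ hy
      rw [inner_smul_left, inner_smul_right, inner_bb,
        if_neg fun e => hy (congrArg Prod.snd e).symm, mul_zero, mul_zero]
    · simp
  rw [inner_self_eq_norm_sq_to_K, ← Complex.ofReal_sum] at h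
  have h2 : ‖edge R n (q n) g‖ ^ 2 = ∑ x, muS hE n x * ‖⟪em R n (q n, x), g⟫_ℂ‖ ^ 2 :=
    Complex.ofReal_injective (by simpa using h)
  rw [h2]
  refine le_trans ?_ (mul_le_mul_of_nonneg_left
    (sum_md_le_level R n (q n) (q n).isLt (Cl hE hS n).vec (stage hE n).good.inj g) zero_le_two)
  rw [Finset.mul_sum]
  exact Finset.sum_le_sum fun x _ => mul_le_mul_of_nonneg_right
    (by linarith [(abs_le.1 (muS_bounds n x)).2, epsS_le_one hE n]) (sq_nonneg _)

theorem bb_shift (n : ℕ) (p p' : Fin ((chain hE hS).h n)) (hp : (p' : ℕ) = p + 1) (x : Fin (kk hE n)) :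
    bb n (p, x) = mulE (-1) (bb n (p', x)) := by
  refine Lp.ext (((memLp_bfun n (p, x)).coeFn_toLp).trans ?_)
  filter_upwards [coeFn_mulE (-1) (bb n (p', x)), (memLp_bfun n (p', x)).coeFn_toLp] with θ a b
  rw [a, bb, b, bfun, bfun]
  simp only
  rw [hp, show ((((p : ℕ) + 1 : ℕ) : ℤ)) = ((p : ℕ) : ℤ) + 1 by push_cast; rfl, fourier_add]
  have h1 : fourier (-1) θ * fourier 1 θ = 1 := by
    rw [← fourier_add, neg_add_cancel, fourier_zero]
  linear_combination -(gamS hS hE n θ * (fourier ((p : ℕ) : ℤ) θ *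
    ((Real.sqrt (kk hE n) * ind ((Cl hE hS n).col ((chain hE hS).h n • θ) = x) : ℝ) : ℂ))) * h1

/-- multiplication by a character as a linear map -/
def mulEL (l : ℤ) : Lp ℂ 2 hm →ₗ[ℂ] Lp ℂ 2 hm where
  toFun := mulE l
  map_add' u v := by
    refine Lp.ext ?_
    filter_upwards [coeFn_mulE l u, coeFn_mulE l v, coeFn_mulE l (u + v), Lp.coeFn_add u v,
      Lp.coeFn_add (mulE l u) (mulE l v)] with θ a b c d e
    rw [c, d, e, Pi.add_apply, Pi.add_apply, a, b, mul_add]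
  map_smul' z u := by
    refine Lp.ext ?_
    filter_upwards [coeFn_mulE l u, coeFn_mulE l (z • u), Lp.coeFn_smul z u,
      Lp.coeFn_smul z (mulE l u)] with θ a b c d
    simp only [RingHom.id_apply]
    rw [b, c, d, Pi.smul_apply, Pi.smul_apply, a, smul_eq_mul, smul_eq_mul]
    ring

theorem Un_VV (n : ℕ) (f : HR R) :
    Un R n (VV R f) - mulE (-1) (Un R n f)
      = edge R n ⟨(stage hE n).h - 1, Nat.sub_lt (stage hE n).h_pos one_pos⟩ (VV R f)
        - mulE (-1) (edge R n ⟨0, (stage hE n).h_pos⟩ f) := by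
  have hsplit : ∀ g, Un R n g = ∑ p, edge R n p g := fun g => by
    simp only [Un, edge, Fintype.sum_prod_type]
  rw [hsplit, hsplit, show mulE (-1) (∑ p, edge R n p f) = ∑ p, mulEL (-1) (edge R n p f) from
    map_sum (mulEL (-1)) _ _]
  obtain ⟨t, ht⟩ : ∃ t, (stage hE n).h = t + 1 := ⟨_, (Nat.succ_pred_eq_of_pos (stage hE n).h_pos).symm⟩
  set a : ℕ → Lp ℂ 2 hm := fun p => if h : p < (stage hE n).h then edge R n ⟨p, h⟩ (VV R f) else 0 with ha
  set b : ℕ → Lp ℂ 2 hm := fun p => if h : p < (stage hE n).h then mulEL (-1) (edge R n ⟨p, h⟩ f) else 0 with hb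
  have ea : ∑ p, edge R n p (VV R f) = ∑ p ∈ Finset.range (stage hE n).h, a p := by
    rw [Finset.sum_range]
    exact Finset.sum_congr rfl fun p _ => by simp [ha]
  have eb : ∑ p, mulEL (-1) (edge R n p f) = ∑ p ∈ Finset.range (stage hE n).h, b p := by
    rw [Finset.sum_range]
    exact Finset.sum_congr rfl fun p _ => by simp [hb]
  rw [ea, eb, show Finset.range (stage hE n).h = Finset.range (t + 1) from congrArg _ ht, Finset.sum_range_succ a, Finset.sum_range_succ' b]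
  have hab : ∀ p ∈ Finset.range t, a p = b (p + 1) := by
    intro p hp
    have hp1 : p + 1 < (stage hE n).h := by rw [ht]; exact Nat.succ_lt_succ (Finset.mem_range.1 hp)
    have hp0 : p < (stage hE n).h := (Nat.lt_succ_self p).trans hp1
    simp only [ha, hb, dif_pos hp0, dif_pos hp1]
    simp only [edge, map_sum, map_smul]
    refine Finset.sum_congr rfl fun x _ => ?_
    have e : ⟪em R n (⟨p, hp0⟩, x), VV R f⟫_ℂ = ⟪em R n (⟨p + 1, hp1⟩, x), f⟫_ℂ := inner_VV R n p _ hp1 f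
    rw [e, bb_shift n ⟨p, hp0⟩ ⟨p + 1, hp1⟩ rfl x]
    rfl
  rw [Finset.sum_congr rfl hab, add_sub_add_left_eq_sub]
  have e1 : a t = edge R n ⟨(stage hE n).h - 1, Nat.sub_lt (stage hE n).h_pos one_pos⟩ (VV R f) := by
    simp only [ha]
    rw [dif_pos (by omega)]
    refine congrArg (fun p => edge R n p (VV R f)) (Fin.ext ?_)
    show t = (stage hE n).h - 1
    omega
  have e2 : b 0 = mulE (-1) (edge R n ⟨0, (stage hE n).h_pos⟩ f) := by
    simp only [hb, dif_pos (stage hE n).h_pos]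
    rfl
  rw [e1, e2]

theorem inner_one_VV (f : HR R) : ⟪one R, VV R f⟫_ℂ = ⟪one R, f⟫_ℂ := by
  have h : VV R (one R) = one R := by
    refine Lp.ext ((coeFn_VV R _).trans ((R.T_mp.quasiMeasurePreserving.ae_eq_comp (coeFn_one R)).trans
      (coeFn_one R).symm))
  conv_lhs => rw [← h, LinearIsometry.inner_map_map]

theorem Uinf_VV (f : HR R) (hf : ⟪one R, f⟫_ℂ = 0) : Uinf R (VV R f) = mulE (-1) (Uinf R f) := by
  have h1 : Tendsto (fun n => Un R n (VV R f)) atTop (𝓝 (Uinf R (VV R f))) :=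
    tendsto_Un R _ ((inner_one_VV R f).trans hf)
  have h2 : Tendsto (fun n => mulE (-1) (Un R n f)) atTop (𝓝 (mulE (-1) (Uinf R f))) := by
    rw [tendsto_iff_norm_sub_tendsto_zero]
    simp only [mulE_sub, norm_mulE]
    exact tendsto_iff_norm_sub_tendsto_zero.1 (tendsto_Un R f hf)
  have h3 : Tendsto (fun n => Un R n (VV R f) - mulE (-1) (Un R n f)) atTop (𝓝 0) := by
    rw [tendsto_zero_iff_norm_tendsto_zero]
    have hA := (tendsto_edge_norm R (fun n => ⟨(stage hE n).h - 1, Nat.sub_lt (stage hE n).h_pos one_pos⟩)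
      (VV R f)).add (tendsto_edge_norm R (fun n => ⟨0, (stage hE n).h_pos⟩) f)
    rw [add_zero] at hA
    refine squeeze_zero (fun n => norm_nonneg _) (fun n => ?_) hA
    rw [Un_VV]
    exact (norm_sub_le _ _).trans (le_of_eq (by rw [norm_mulE]))
  exact sub_eq_zero.1 (tendsto_nhds_unique (h1.sub h2) h3)

/-- inverse composition -/
def WW : HR R →ₗᵢ[ℂ] HR R := Lp.compMeasurePreservingₗᵢ ℂ R.T.symm (R.T_mp.symm R.T)

theorem coeFn_WW (g : HR R) : WW R g =ᵐ[R.μ] g ∘ R.T.symm := Lp.coeFn_compMeasurePreserving g _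

theorem VV_WW (g : HR R) : VV R (WW R g) = g := by
  refine Lp.ext ((coeFn_VV R _).trans ((R.T_mp.quasiMeasurePreserving.ae_eq_comp (coeFn_WW R g)).trans
    (Eventually.of_forall fun x => ?_)))
  simp

theorem inner_one_WW (g : HR R) : ⟪one R, WW R g⟫_ℂ = ⟪one R, g⟫_ℂ := by
  rw [← inner_one_VV R (WW R g), VV_WW]

theorem Uinf_WW (f : HR R) (hf : ⟪one R, f⟫_ℂ = 0) : Uinf R (WW R f) = mulE 1 (Uinf R f) := by
  have h := Uinf_VV R (WW R f) ((inner_one_WW R f).trans hf)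
  rw [VV_WW] at h
  rw [h, ← mulE_add]
  refine (Lp.ext ((coeFn_mulE _ _).trans ?_)).symm
  exact Eventually.of_forall fun θ => by simp

theorem range_invariant (l : ℤ) (u : Lp ℂ 2 hm) (hu : u ∈ Set.range (Phi R)) :
    mulE l u ∈ Set.range (Phi R) := by
  obtain ⟨f, rfl⟩ := hu
  induction l with
  | zero =>
    exact ⟨f, (Lp.ext ((coeFn_mulE _ _).trans (Eventually.of_forall fun θ => by simp))).symm⟩
  | succ i ih =>
    obtain ⟨g, hg⟩ := ih
    refine ⟨⟨WW R g.1, (mem_Z0 R).2 ((inner_one_WW R _).trans ((mem_Z0 R).1 g.2))⟩, ?_⟩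
    rw [Phi_apply, Uinf_WW R _ ((mem_Z0 R).1 g.2), ← Phi_apply R g, hg, ← mulE_add, add_comm]
  | pred i ih =>
    obtain ⟨g, hg⟩ := ih
    refine ⟨⟨VV R g.1, (mem_Z0 R).2 ((inner_one_VV R _).trans ((mem_Z0 R).1 g.2))⟩, ?_⟩
    rw [Phi_apply, Uinf_VV R _ ((mem_Z0 R).1 g.2), ← Phi_apply R g, hg, ← mulE_add, ← sub_eq_neg_add]

theorem inner_one_em (n : ℕ) (i : II (hE := hE) (hS := hS) n) : ⟪one R, em R n i⟫_ℂ = 0 := by
  rw [em, inner_one_md R n _ _ i.1.isLt, if_neg ((stage hE n).good.ne_zero i.2)]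

theorem integral_norm_le (v : Lp ℂ 2 hm) (hv : ∀ u ∈ Set.range (Phi R), ⟪u, v⟫_ℂ = 0) (m : ℕ) :
    ∫ θ, ‖v θ‖ ∂hm ≤ 3 * tau hE m * (stage hE m).kmax * ‖v‖ := by
  have hprod : ∀ u ∈ Set.range (Phi R), (fun θ => conj (u θ) * v θ) =ᵐ[hm] 0 := by
    intro u hu
    refine ae_zero_of_integral_fourier_mul ((MemLp.integrable_mul (Lp.memLp u).star (Lp.memLp v) :
      Integrable _ hm)) fun l => ?_
    have h := hv _ (range_invariant R (-l) u hu)
    rw [L2.inner_def] at h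
    rw [← h]
    refine integral_congr_ae ?_
    filter_upwards [coeFn_mulE (-l) u] with θ a
    rw [a, RCLike.inner_apply', map_mul, fourier_neg, Complex.conj_conj, mul_assoc]
  have hint : Integrable (fun θ => ‖v θ‖) hm := ((Lp.memLp v).integrable one_le_two).norm
  set p0 : Fin ((chain hE hS).h m) := ⟨0, (stage hE m).h_pos⟩
  have hx : ∀ x : Fin (kk hE m),
      ∫ θ, ‖v θ‖ * ‖bfun m (p0, x) θ‖ ∂hm ≤ 3 * tau hE m * ‖v‖ := by
    intro x
    have he : ⟪one R, em R m (p0, x)⟫_ℂ = 0 := inner_one_em R m _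
    set u : Lp ℂ 2 hm := Phi R ⟨em R m (p0, x), (mem_Z0 R).2 he⟩
    have hPP : PP' R m (em R m (p0, x)) = em R m (p0, x) := by
      rw [PP', Finset.sum_eq_single (p0, x)]
      · rw [inner_self_eq_norm_sq_to_K, (orthonormal_em R m).1]; simp
      · intro j _ hj
        rw [(orthonormal_em R m).2 hj, zero_smul]
      · simp
    have hU : Un R m (em R m (p0, x)) = bb m (p0, x) := by
      rw [Un, Finset.sum_eq_single (p0, x)]
      · rw [inner_self_eq_norm_sq_to_K, (orthonormal_em R m).1]; simp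
      · intro j _ hj
        rw [(orthonormal_em R m).2 hj, zero_smul]
      · simp
    have hd : ‖bb m (p0, x) - u‖ ≤ 3 * tau hE m := by
      rw [norm_sub_rev]
      have := norm_Uinf_sub_le R m _ he
      rwa [hPP, hU, sub_self, norm_zero, mul_zero, zero_add, (orthonormal_em R m).1, mul_one] at this
    set d := bb m (p0, x) - u with hdd
    have hae : (fun θ => ‖v θ‖ * ‖bfun m (p0, x) θ‖) =ᵐ[hm] fun θ => ‖v θ‖ * ‖d θ‖ := by
      filter_upwards [Lp.coeFn_sub (bb m (p0, x)) u, hprod u ⟨_, rfl⟩, (memLp_bfun m (p0, x)).coeFn_toLp]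
        with θ a b c
      rw [hdd, a, Pi.sub_apply, bb, c]
      rcases mul_eq_zero.1 b with h | h
      · rw [show (u : UnitAddCircle → ℂ) θ = 0 by simpa using h, sub_zero]
      · rw [h, norm_zero, zero_mul, zero_mul]
    rw [integral_congr_ae hae]
    set a : Lp ℝ 2 hm := (Lp.memLp v).norm.toLp _
    set b : Lp ℝ 2 hm := (Lp.memLp d).norm.toLp _
    have hab : ∫ θ, ‖v θ‖ * ‖d θ‖ ∂hm = ⟪a, b⟫_ℝ := by
      rw [L2.inner_def]
      refine integral_congr_ae ?_
      filter_upwards [(Lp.memLp v).norm.coeFn_toLp, (Lp.memLp d).norm.coeFn_toLp] with θ p q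
      rw [p, q, Real.inner_apply]
    rw [hab]
    refine (real_inner_le_norm a b).trans ?_
    rw [Lp.norm_toLp, Lp.norm_toLp, eLpNorm_norm, eLpNorm_norm, ← Lp.norm_def, ← Lp.norm_def, mul_comm]
    exact mul_le_mul_of_nonneg_right hd (norm_nonneg _)
  have hk1 : (1:ℝ) ≤ kk hE m := Nat.one_le_cast.2 (stage hE m).good.k_pos
  have hs1 : 1 ≤ Real.sqrt (kk hE m) := Real.one_le_sqrt.2 hk1
  have hmeas : ∀ x, Integrable (fun θ => ‖v θ‖ * ‖bfun m (p0, x) θ‖) hm := fun x =>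
    hint.mul_bdd (measurable_bfun m _).norm.aestronglyMeasurable (Eventually.of_forall fun θ => by
      rw [norm_norm, norm_bfun]
      exact mul_le_of_le_one_right (Real.sqrt_nonneg _) (ind_le_one _))
  calc ∫ θ, ‖v θ‖ ∂hm ≤ ∫ θ, ∑ x, ‖v θ‖ * ‖bfun m (p0, x) θ‖ ∂hm := by
        refine integral_mono hint (integrable_finsetSum _ fun x _ => hmeas x) fun θ => ?_
        have hs : ∑ x, ind ((Cl hE hS m).col ((chain hE hS).h m • θ) = x) = 1 := by simp [ind]
        simp only [norm_bfun]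
        rw [← Finset.mul_sum, ← Finset.mul_sum, hs, mul_one]
        exact le_mul_of_one_le_right (norm_nonneg _) hs1
    _ = ∑ x, ∫ θ, ‖v θ‖ * ‖bfun m (p0, x) θ‖ ∂hm := integral_finsetSum _ fun x _ => hmeas x
    _ ≤ ∑ _x : Fin (kk hE m), 3 * tau hE m * ‖v‖ := Finset.sum_le_sum fun x _ => hx x
    _ ≤ 3 * tau hE m * (stage hE m).kmax * ‖v‖ := by
        rw [Finset.sum_const, Finset.card_univ, Fintype.card_fin, nsmul_eq_mul]
        have h1 : (kk hE m : ℝ) ≤ (stage hE m).kmax := Nat.cast_le.2 (kk_le_kmax hE m)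
        have h2 : 0 ≤ 3 * tau hE m * ‖v‖ :=
          mul_nonneg (mul_nonneg (by norm_num) (tau_nonneg m)) (norm_nonneg _)
        exact (mul_le_mul_of_nonneg_right h1 h2).trans_eq (by ring)

theorem Phi_surjective : Function.Surjective (Phi R) := by
  intro y
  set K : Submodule ℂ (Lp ℂ 2 hm) := (Phi R).toLinearMap.range
  have hKc : IsClosed (K : Set (Lp ℂ 2 hm)) := by
    have : (K : Set (Lp ℂ 2 hm)) = Set.range (Phi R) := LinearMap.coe_range _
    rw [this]
    exact (Phi R).isometry.isClosedEmbedding.isClosed_range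
  haveI : CompleteSpace K := hKc.completeSpace_coe
  have hbot : Kᗮ = ⊥ := by
    rw [Submodule.eq_bot_iff]
    intro v hv
    rw [Submodule.mem_orthogonal] at hv
    have hv' : ∀ u ∈ Set.range (Phi R), ⟪u, v⟫_ℂ = 0 := by
      rintro u ⟨f, rfl⟩
      exact hv _ ⟨f, rfl⟩
    have hlim : Tendsto (fun m => 3 * tau hE m * (stage hE m).kmax * ‖v‖) atTop (𝓝 0) := by
      have e : ∀ m, 3 * tau hE m * (stage hE m).kmax * ‖v‖ = (1 / 2 : ℝ) ^ m * (6 * ‖v‖) := fun m => by
        have : ((stage hE m).kmax : ℝ) ≠ 0 := Nat.cast_ne_zero.2 (stage hE m).kmax_pos.ne'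
        rw [tau, one_div_pow]
        field_simp
        norm_num
        ring
      simp only [e]
      simpa using (tendsto_pow_atTop_nhds_zero_of_lt_one (show (0:ℝ) ≤ 1 / 2 by norm_num) (by norm_num)).mul_const
        (6 * ‖v‖)
    have h0 : ∫ θ, ‖v θ‖ ∂hm = 0 := le_antisymm
      (ge_of_tendsto' hlim fun m => integral_norm_le R v hv' m) (integral_nonneg fun θ => norm_nonneg _)
    have h1 := (integral_eq_zero_iff_of_nonneg (fun θ => norm_nonneg _)
      ((Lp.memLp v).integrable one_le_two).norm).1 h0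
    refine Lp.ext (EventuallyEq.trans ?_ (Lp.coeFn_zero ℂ 2 hm).symm)
    filter_upwards [h1] with θ hθ
    simpa using hθ
  rw [Submodule.orthogonal_eq_bot_iff] at hbot
  obtain ⟨f, hf⟩ := (hbot ▸ Submodule.mem_top : y ∈ K)
  exact ⟨f, hf⟩

/-- preimage of a character -/
def pre (l : ℤ) : Z0 R := (Phi_surjective R (fourierLp 2 l)).choose

theorem Phi_pre (l : ℤ) : Phi R (pre R l) = fourierLp 2 l := (Phi_surjective R (fourierLp 2 l)).choose_spec

theorem VV_pre (l : ℤ) : VV R (pre R l).1 = (pre R (l - 1)).1 := by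
  have hl := (mem_Z0 R).1 (pre R l).2
  have h : Phi R ⟨VV R (pre R l).1, (mem_Z0 R).2 ((inner_one_VV R _).trans hl)⟩ = Phi R (pre R (l - 1)) := by
    rw [Phi_apply, Uinf_VV R _ hl, ← Phi_apply R (pre R l), Phi_pre, mulE_fourierLp, Phi_pre, ← sub_eq_neg_add]
  exact congrArg Subtype.val ((Phi R).injective h)

theorem coeFn_pre (n : ℤ) :
    ((pre R (-n)).1 : R.Ω → ℂ) =ᵐ[R.μ] fun ω => (pre R 0).1 (((R.T.toEquiv : Equiv.Perm R.Ω) ^ n) ω) := by
  induction n with
  | zero => exact Eventually.of_forall fun ω => by simp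
  | succ i ih =>
    rw [show -(((i:ℤ)) + 1) = -(i:ℤ) - 1 by ring, ← VV_pre]
    refine (coeFn_VV R _).trans ((R.T_mp.quasiMeasurePreserving.ae_eq_comp ih).trans
      (Eventually.of_forall fun ω => ?_))
    simp only [Function.comp_apply]
    rw [zpow_add_one, Equiv.Perm.mul_apply]
    rfl
  | pred i ih =>
    have h : VV R (pre R (-(-(i:ℤ) - 1))).1 = (pre R (-(-(i:ℤ)))).1 := by
      rw [VV_pre]; congr 2; ring
    have h2 : WW R (pre R (-(-(i:ℤ)))).1 = (pre R (-(-(i:ℤ) - 1))).1 := by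
      refine (VV R).injective ?_
      rw [VV_WW, h]
    rw [← h2]
    refine (coeFn_WW R _).trans (((R.T_mp.symm R.T).quasiMeasurePreserving.ae_eq_comp ih).trans
      (Eventually.of_forall fun ω => ?_))
    simp only [Function.comp_apply]
    rw [zpow_sub_one, Equiv.Perm.mul_apply]
    rfl

theorem orthonormal_pre : Orthonormal ℂ fun l => (pre R l).1 := by
  rw [orthonormal_iff_ite]
  intro a b
  have h : ⟪(pre R a).1, (pre R b).1⟫_ℂ = ⟪fourierLp (T := 1) 2 a, fourierLp 2 b⟫_ℂ := by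
    rw [← Phi_pre R a, ← Phi_pre R b, LinearIsometry.inner_map_map]
    rfl
  rw [h]
  exact orthonormal_iff_ite.1 orthonormal_fourier a b

theorem complete_pre (g : HR R) (hg : ⟪one R, g⟫_ℂ = 0) (h : ∀ l, ⟪(pre R l).1, g⟫_ℂ = 0) : g = 0 := by
  set G : Z0 R := ⟨g, (mem_Z0 R).2 hg⟩
  have h2 : Phi R G = 0 := by
    refine Lp.ext (EventuallyEq.trans ?_ (Lp.coeFn_zero ℂ 2 hm).symm)
    refine ae_zero_of_integral_fourier_mul ((Lp.memLp _).integrable one_le_two) fun l => ?_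
    have := h (-l)
    rw [show ⟪(pre R (-l)).1, g⟫_ℂ = ⟪pre R (-l), G⟫_ℂ from rfl, ← (Phi R).inner_map_map, Phi_pre, L2.inner_def] at this
    rw [← this]
    refine integral_congr_ae ?_
    filter_upwards [coeFn_fourierLp (T := 1) 2 (-l)] with θ a
    rw [a, RCLike.inner_apply', fourier_neg, Complex.conj_conj]
  have h3 : G = 0 := (Phi R).injective (h2.trans (map_zero _).symm)
  exact congrArg Subtype.val h3

end

end Vale.Agent.P130.Full
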