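import Vale.Agent.P130.Full.Limit

/-! Simple Lebesgue spectrum from the three modules. -/

namespace Vale.Agent.P130.Full

open MeasureTheory Filter Topology Set
open Vale.Agent.P130 Vale.Agent.P130.Sol
open scoped ENNReal ComplexConjugate InnerProductSpace

noncomputable section

variable {hE : EncodingStatement} {hS : StepStatement} (R : Realisation (chain hE hS))

theorem orbit_spec :
    ∫ ω, (pre R 0).1 ω ∂(R.μ) = 0 ∧
      (∀ m n : ℤ, ∫ ω, (pre R 0).1 (((R.T.toEquiv : Equiv.Perm R.Ω) ^ m) ω) *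
          conj ((pre R 0).1 (((R.T.toEquiv : Equiv.Perm R.Ω) ^ n) ω)) ∂(R.μ) = if m = n then 1 else 0) ∧
      ∀ g : HR R, ∫ ω, g ω ∂(R.μ) = 0 →
        (∀ n : ℤ, ∫ ω, g ω * conj ((pre R 0).1 (((R.T.toEquiv : Equiv.Perm R.Ω) ^ n) ω)) ∂(R.μ) = 0) → g = 0 := by
  refine ⟨?_, fun m n => ?_, fun g hg h => ?_⟩
  · rw [← inner_one]
    exact (mem_Z0 R).1 (pre R 0).2
  · have h := orthonormal_iff_ite.1 (orthonormal_pre R) (-n) (-m)
    rw [L2.inner_def] at h
    rw [show (if m = n then (1:ℂ) else 0) = if -n = -m then 1 else 0 from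
      if_congr (by rw [neg_inj, eq_comm]) rfl rfl, ← h]
    refine integral_congr_ae ?_
    filter_upwards [coeFn_pre R m, coeFn_pre R n] with ω a b
    rw [RCLike.inner_apply', a, b]
    ring
  · refine complete_pre R g ((inner_one R g).trans hg) fun l => ?_
    rw [L2.inner_def, ← h (-l)]
    refine integral_congr_ae ?_
    have e := coeFn_pre R (-l)
    rw [neg_neg] at e
    filter_upwards [e] with ω a
    rw [RCLike.inner_apply', a]
    ring

/-- Some automorphism of a standard nonatomic probability space has simple Lebesgue spectrum. -/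
theorem main (hE : EncodingStatement) (hX : SpaceStatement) (hS : StepStatement) :
    ∃ (Ω : Type) (_ : MeasurableSpace Ω) (μ : Measure Ω) (T : Ω ≃ᵐ Ω),
      StandardBorelSpace Ω ∧ IsProbabilityMeasure μ ∧ (∀ ω, μ {ω} = 0) ∧ MeasurePreserving T μ μ ∧
      ∃ f : Lp ℂ 2 μ,
        ∫ ω, f ω ∂μ = 0 ∧
        (∀ m n : ℤ, ∫ ω, f (((T.toEquiv : Equiv.Perm Ω) ^ m) ω) *
            conj (f (((T.toEquiv : Equiv.Perm Ω) ^ n) ω)) ∂μ = if m = n then 1 else 0) ∧
        ∀ g : Lp ℂ 2 μ, ∫ ω, g ω ∂μ = 0 →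
          (∀ n : ℤ, ∫ ω, g ω * conj (f (((T.toEquiv : Equiv.Perm Ω) ^ n) ω)) ∂μ = 0) → g = 0 := by
  obtain ⟨R⟩ := hX (chain hE hS)
  exact ⟨R.Ω, R.ms, R.μ, R.T, R.std, R.prob, R.atomless, R.T_mp, (pre R 0).1, orbit_spec R⟩

end

end Vale.Agent.P130.Full
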