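import Vale.Agent.P130.Full.Torus

/-! The inductive choice of all stages of the construction. -/

namespace Vale.Agent.P130.Full

open MeasureTheory Filter Topology Set UnitAddTorus
open Vale.Agent.P130 Vale.Agent.P130.Sol
open scoped ENNReal

noncomputable section

/-- error allowed at stage `n` -/
def dlt (n kmax : ℕ) : ℝ := (1 / ((2:ℝ) ^ n * kmax)) ^ 2

/-- step parameter at stage `n` -/
def epsn (n kmax : ℕ) : ℝ := min 1 ((dlt n kmax / 1000) ^ 2)

theorem dlt_pos (n kmax : ℕ) (hk : 0 < kmax) : 0 < dlt n kmax := by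
  have : (0:ℝ) < kmax := by exact_mod_cast hk
  unfold dlt; positivity

theorem epsn_pos (n kmax : ℕ) (hk : 0 < kmax) : 0 < epsn n kmax := by
  have := dlt_pos n kmax hk
  unfold epsn; positivity

theorem epsn_le_one (n kmax : ℕ) : epsn n kmax ≤ 1 := min_le_left _ _

theorem stepErr_epsn (n kmax : ℕ) : stepErr (epsn n kmax) ≤ dlt n kmax := by
  have h : 0 ≤ dlt n kmax := sq_nonneg _
  have h1 : Real.sqrt (epsn n kmax) ≤ dlt n kmax / 1000 :=
    (Real.sqrt_le_left (by linarith)).2 (min_le_right _ _)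
  rw [stepErr]; linarith

/-- a measurable bounded tower function -/
def Nice {D : ℕ} (F : ℕ → Tor D → ℂ) : Prop :=
  (∀ p, Measurable (F p)) ∧ ∀ p, ∃ c, ∀ z, ‖F p z‖ ≤ c

/-- a single mode -/
def mode1 {D : ℕ} (q : ℕ) (v : Fin D → ℤ) (p : ℕ) (z : Tor D) : ℂ := if p = q then mFourier v z else 0

theorem norm_mFourier_apply {D : ℕ} (v : Fin D → ℤ) (z : Tor D) : ‖mFourier v z‖ = 1 := by
  rw [show mFourier v z = ∏ i, fourier (v i) (z i) from rfl, norm_prod]
  simp [norm_fourier_apply, -fourier_apply]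

theorem nice_mode1 {D : ℕ} (q : ℕ) (v : Fin D → ℤ) : Nice (mode1 q v) := by
  refine ⟨fun p => ?_, fun p => ⟨1, fun z => ?_⟩⟩
  · unfold mode1
    split_ifs
    · exact (mFourier v).continuous.measurable
    · exact measurable_const
  · unfold mode1; split_ifs <;> simp [norm_mFourier_apply]

/-- all modes up to a radius -/
def modesList (D h r : ℕ) : List (ℕ → Tor D → ℂ) :=
  (Finset.range h ×ˢ box D r).toList.map fun q => mode1 q.1 q.2

theorem mode1_mem_modesList {D h r q : ℕ} {v : Fin D → ℤ} (hq : q < h) (hv : v ∈ box D r) :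
    mode1 q v ∈ modesList D h r :=
  List.mem_map.2 ⟨(q, v), Finset.mem_toList.2 (Finset.mk_mem_product (Finset.mem_range.2 hq) hv), rfl⟩

/-- mass of a tower function outside a box of frequencies -/
def leak {D : ℕ} (h B : ℕ) (F : ℕ → Tor D → ℂ) : ℝ :=
  ∑ p ∈ Finset.range h, ((∫ z, ‖F p z‖ ^ 2) - ∑ v ∈ box D B, ‖mFourierCoeff (F p) v‖ ^ 2)

theorem box_mono (D : ℕ) : Monotone (box D) := fun a b hab v hv => by
  simp only [box, Fintype.mem_piFinset, Finset.mem_Icc] at hv ⊢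
  intro i
  have := hv i
  omega

theorem exists_mem_box {D : ℕ} (v : Fin D → ℤ) : ∃ B, v ∈ box D B := by
  refine ⟨∑ i, (v i).natAbs, ?_⟩
  simp only [box, Fintype.mem_piFinset, Finset.mem_Icc]
  intro i
  have := Finset.single_le_sum (f := fun i => (v i).natAbs) (fun i _ => Nat.zero_le _) (Finset.mem_univ i)
  omega

theorem Nice.memLp {D : ℕ} {F : ℕ → Tor D → ℂ} (hF : Nice F) (p : ℕ) (μ : Measure (Tor D)) [IsFiniteMeasure μ] :
    MemLp (F p) 2 μ := by
  obtain ⟨c, hc⟩ := hF.2 p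
  exact MemLp.of_bound (hF.1 p).aestronglyMeasurable c (Eventually.of_forall hc)

theorem hasSum_coef {D : ℕ} {F : ℕ → Tor D → ℂ} (hF : Nice F) (p : ℕ) :
    HasSum (fun v => ‖mFourierCoeff (F p) v‖ ^ 2) (∫ z, ‖F p z‖ ^ 2) :=
  hasSum_sq_coef (hF.memLp p volume)

theorem leak_nonneg {D : ℕ} (h B : ℕ) {F : ℕ → Tor D → ℂ} (hF : Nice F) : 0 ≤ leak h B F :=
  Finset.sum_nonneg fun p _ => sub_nonneg.2 (sum_le_hasSum _ (fun v _ => sq_nonneg _) (hasSum_coef hF p))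

theorem tendsto_leak {D : ℕ} (h : ℕ) {F : ℕ → Tor D → ℂ} (hF : Nice F) :
    Tendsto (fun B => leak h B F) atTop (𝓝 0) := by
  have hb : Tendsto (box D) atTop atTop :=
    tendsto_atTop_finset_of_monotone (box_mono D) fun v => exists_mem_box v
  have : Tendsto (fun B => leak h B F) atTop (𝓝 (∑ p ∈ Finset.range h, (0:ℝ))) := by
    refine tendsto_finsetSum _ fun p _ => ?_
    have h2 := ((hasSum_coef hF p).comp hb).const_sub (∫ z, ‖F p z‖ ^ 2)
    simpa using h2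
  simpa using this

theorem exists_box_bound {D : ℕ} (h : ℕ) (l : List (ℕ → Tor D → ℂ)) (hl : ∀ F ∈ l, Nice F)
    (S : Finset (Fin D → ℤ)) {η : ℝ} (hη : 0 < η) :
    ∃ B, S ⊆ box D B ∧ ∀ F ∈ l, leak h B F ≤ η := by
  classical
  have h1 : ∀ᶠ B in atTop, ∀ F ∈ l.toFinset, leak h B F ≤ η :=
    (Finset.eventually_all _).2 fun F hF =>
      (tendsto_leak h (hl F (List.mem_toFinset.1 hF))).eventually (ge_mem_nhds hη)
  have h2 : ∀ᶠ B in atTop, S ⊆ box D B :=
    (Finset.eventually_all _).2 fun v _ => by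
      obtain ⟨B, hB⟩ := exists_mem_box v
      exact eventually_atTop.2 ⟨B, fun b hb => box_mono D hb hB⟩
  obtain ⟨B, hB1, hB2⟩ := (h1.and h2).exists
  exact ⟨B, hB2, fun F hF => hB1 F (List.mem_toFinset.2 hF)⟩

/-- one stage -/
structure Stage (n : ℕ) where
  D : ℕ
  h : ℕ
  C : Colours D
  B : ℕ
  kmax : ℕ
  j : ℕ
  anc : ℕ → List (ℕ → Tor D → ℂ)
  h_pos : 0 < h
  k_le : C.k ≤ kmax
  good : C.Good (epsn n kmax / C.k)
  box_vec : ∀ x, C.vec x ∈ box D B
  enc : ∀ e, j ≤ e → Nonempty (Encoding e (epsn n kmax))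
  M_big : (h : ℝ) ^ 2 ≤ epsn n kmax * ((2 ^ j : ℕ) : ℝ) ^ 2
  M_small : 2 ^ j * 2 ^ n ≤ C.Q * h
  Q_two : 2 ≤ C.Q
  anc_nice : ∀ r, ∀ F ∈ anc r, Nice F
  anc_leak : ∀ F ∈ anc n, leak h B F ≤ 1 / (4:ℝ) ^ n

theorem Stage.kmax_pos {n : ℕ} (S : Stage n) : 0 < S.kmax := lt_of_lt_of_le S.good.k_pos S.k_le

theorem exists_stage (hE : EncodingStatement) (n D h : ℕ) (h_pos : 0 < h) (P : Finset (Fin D → ℤ))
    (hne : P.Nonempty) (h0 : ∀ x ∈ P, x ≠ 0) (hI : ∀ x ∈ P, ∀ y ∈ P, x ≠ y → Indep x y)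
    (anc : ℕ → List (ℕ → Tor D → ℂ)) (hanc : ∀ r, ∀ F ∈ anc r, Nice F) (K : ℕ) :
    ∃ S : (Σ' (_ : Colours D) (_ : ℕ), ℕ),
      (∀ z, (∃ i, S.1.vec i = z) ↔ z ∈ symF P) ∧ S.1.k = 2 * P.card ∧
      S.1.Good (epsn n (max K (2 * P.card)) / S.1.k) ∧ (∀ x, S.1.vec x ∈ box D S.2.1) ∧
      (∀ e, S.2.2 ≤ e → Nonempty (Encoding e (epsn n (max K (2 * P.card))))) ∧
      (h : ℝ) ^ 2 ≤ epsn n (max K (2 * P.card)) * ((2 ^ S.2.2 : ℕ) : ℝ) ^ 2 ∧
      2 ^ S.2.2 * 2 ^ n ≤ S.1.Q * h ∧ 2 ≤ S.1.Q ∧ ∀ F ∈ anc n, leak h S.2.1 F ≤ 1 / (4:ℝ) ^ n := by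
  classical
  obtain ⟨Ms, hinj, hrange⟩ := exists_mults P hne h0 hI
  set km := max K (2 * P.card)
  have hk : 0 < 2 * P.card := Nat.mul_pos two_pos hne.card_pos
  have hkm : 0 < km := lt_of_lt_of_le hk (le_max_right _ _)
  set ε := epsn n km
  have hε : 0 < ε := epsn_pos n km hkm
  obtain ⟨e0, he0⟩ := eventually_atTop.1 (hE ε hε)
  obtain ⟨c, hc⟩ := exists_nat_gt ((h : ℝ) ^ 2 / ε)
  set j := max e0 c
  have hj : (h : ℝ) ^ 2 ≤ ε * ((2 ^ j : ℕ) : ℝ) ^ 2 := by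
    rw [div_lt_iff₀ hε] at hc
    have h1 : (c : ℝ) ≤ ((2 ^ j : ℕ) : ℝ) := by
      exact_mod_cast le_trans (le_max_right e0 c) (Nat.lt_two_pow_self).le
    have h2 : (1 : ℝ) ≤ ((2 ^ j : ℕ) : ℝ) := by exact_mod_cast Nat.one_le_two_pow
    have h3 : ((2 ^ j : ℕ) : ℝ) ≤ ((2 ^ j : ℕ) : ℝ) ^ 2 := le_self_pow₀ h2 two_ne_zero
    nlinarith
  have hηc : 0 < ε / (2 * P.card : ℕ) := div_pos hε (by exact_mod_cast hk)
  obtain ⟨Q, col, φ, hQ, hQ0, hmeas, hmu, hflat⟩ := exists_colouring Ms hk hηc (2 + 2 ^ j * 2 ^ n)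
  obtain ⟨B, hB, hleak⟩ := exists_box_bound h (anc n) (hanc n) (Finset.univ.image Ms.vec)
    (show (0:ℝ) < 1 / 4 ^ n by positivity)
  refine ⟨⟨⟨2 * P.card, Ms.vec, col, Q, φ⟩, B, j⟩, fun z => ?_, rfl,
    ⟨hk, hQ0, hinj, fun x hx => ?_, hmeas, hmu, hflat⟩,
    fun x => hB (Finset.mem_image_of_mem _ (Finset.mem_univ x)),
    fun e he => he0 e (le_trans (le_max_left _ _) he), hj, ?_, (by show 2 ≤ Q; omega), hleak⟩
  · show (∃ i, Ms.vec i = z) ↔ z ∈ symF P
    rw [hrange z, symF, Finset.mem_union, Finset.mem_image]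
    refine or_congr Iff.rfl ⟨fun h => ⟨-z, h, neg_neg z⟩, ?_⟩
    rintro ⟨v, hv, rfl⟩
    rwa [neg_neg]
  · rcases (hrange (Ms.vec x)).1 ⟨x, rfl⟩ with h | h
    · exact h0 _ h hx
    · exact h0 _ h (by simp only at hx; rw [hx, neg_zero])
  · show 2 ^ j * 2 ^ n ≤ Q * h
    calc 2 ^ j * 2 ^ n ≤ Q := by omega
      _ ≤ Q * h := Nat.le_mul_of_pos_right _ h_pos

theorem exists_cardEquiv (D i j : ℕ) :
    Nonempty (Fin (2 ^ (i * D + j)) ≃ (Fin D → Fin (2 ^ i)) × Fin (2 ^ j)) :=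
  ⟨Fintype.equivOfCardEq (by simp [pow_add, pow_mul])⟩

/-- link from a stage to the next -/
structure Link {n : ℕ} (S : Stage n) where
  i : ℕ
  E : Encoding (i * S.D + S.j) (epsn n S.kmax)
  lab : Fin (2 ^ (i * S.D + S.j)) ≃ (Fin S.D → Fin (2 ^ i)) × Fin (2 ^ S.j)
  he : S.D ≤ i * S.D + S.j
  N_big : 2 * S.B < 2 ^ i
  N_err : ((box S.D S.B).card : ℝ) * ((S.D : ℝ) * S.B / ((2 ^ i : ℕ) : ℝ)) ^ 2 ≤ epsn n S.kmax

theorem exists_link {n : ℕ} (S : Stage n) : Nonempty (Link S) := by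
  have hε := epsn_pos n S.kmax S.kmax_pos
  obtain ⟨c, hc⟩ := exists_nat_gt (((box S.D S.B).card : ℝ) * ((S.D : ℝ) * S.B) ^ 2 / epsn n S.kmax)
  set i := c + 2 * S.B + 1
  have he : S.D ≤ i * S.D + S.j := le_add_right (Nat.le_mul_of_pos_left _ (by omega))
  obtain ⟨E⟩ := S.enc (i * S.D + S.j) (Nat.le_add_left _ _)
  obtain ⟨lab⟩ := exists_cardEquiv S.D i S.j
  have hi : i < 2 ^ i := Nat.lt_two_pow_self
  refine ⟨⟨i, E, lab, he, by omega, ?_⟩⟩
  rw [div_lt_iff₀ hε] at hc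
  have h1 : (c : ℝ) ≤ ((2 ^ i : ℕ) : ℝ) := by exact_mod_cast (by omega : c ≤ 2 ^ i)
  have h2 : (1 : ℝ) ≤ ((2 ^ i : ℕ) : ℝ) := by exact_mod_cast Nat.one_le_two_pow
  have h3 : ((2 ^ i : ℕ) : ℝ) ≤ ((2 ^ i : ℕ) : ℝ) ^ 2 := le_self_pow₀ h2 two_ne_zero
  rw [div_pow, ← mul_div_assoc, div_le_iff₀ (by positivity)]
  nlinarith

/-- height of the next stage -/
def Link.h {n : ℕ} {S : Stage n} (_L : Link S) : ℕ := S.C.Q * S.h + 2 ^ S.j

/-- offsets -/
def Link.o {n : ℕ} {S : Stage n} (L : Link S) : Tor L.E.D → ℕ := offs L.lab L.E.sel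

/-- slot coordinates -/
def Link.z {n : ℕ} {S : Stage n} (L : Link S) : ℕ → Tor L.E.D → Tor S.D :=
  slotMap L.lab L.he L.E.sel L.E.cc S.C.φ

theorem Link.measurable_o {n : ℕ} {S : Stage n} (L : Link S) : Measurable L.o :=
  (measurable_of_countable fun s => ((L.lab s).2 : ℕ)).comp (measurable_fst.comp L.E.mp.measurable)

theorem Link.measurable_z {n : ℕ} {S : Stage n} (L : Link S) (s : ℕ) : Measurable (L.z s) := by
  refine measurable_pi_lambda _ fun i => ?_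
  have h1 : Measurable fun ω => (((L.lab (L.E.sel ω)).1 i : ℕ) : ℝ) :=
    (measurable_of_countable fun u => (((L.lab u).1 i : ℕ) : ℝ)).comp (measurable_fst.comp L.E.mp.measurable)
  have h2 : Measurable fun ω => rep (L.E.cc ω (Fin.castLE L.he i)) :=
    measurable_rep.comp ((measurable_pi_apply _).comp (measurable_snd.comp L.E.mp.measurable))
  exact (AddCircle.measurable_mk'.comp ((h1.add h2).div_const _)).add_const _

/-- ancestors seen from the next stage -/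
def Link.anc {n : ℕ} {S : Stage n} (L : Link S) (r : ℕ) : List (ℕ → Tor L.E.D → ℂ) :=
  (S.anc r).map (pullF S.h S.C.Q L.o L.z) ++ modesList L.E.D L.h r

theorem nice_pullF {D D' h Q : ℕ} {o : Tor D' → ℕ} {z : ℕ → Tor D' → Tor D} (ho : Measurable o)
    (hz : ∀ s, Measurable (z s)) {F : ℕ → Tor D → ℂ} (hF : Nice F) : Nice (pullF h Q o z F) := by
  refine ⟨fun P => ?_, fun P => ?_⟩
  · set g : ℕ → ℕ → Tor D' → ℂ := fun P c ω =>
      match visit h Q c P with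
      | none => 0
      | some (s, p) => F p (z s ω)
    have hg : ∀ c, Measurable (g P c) := fun c => by
      simp only [g]
      cases visit h Q c P with
      | none => exact measurable_const
      | some sp => exact (hF.1 _).comp (hz _)
    exact (measurable_from_prod_countable_right (f := fun q : ℕ × Tor D' => g P q.1 q.2) hg).comp
      (ho.prodMk measurable_id)
  · choose c hc using hF.2
    refine ⟨∑ p ∈ Finset.range (P + 1), |c p|, fun ω => ?_⟩
    have h0 : 0 ≤ ∑ p ∈ Finset.range (P + 1), |c p| := Finset.sum_nonneg fun p _ => abs_nonneg _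
    simp only [pullF, visit]
    split_ifs
    · simp only
      refine (hc _ _).trans ((le_abs_self _).trans (Finset.single_le_sum (f := fun p => |c p|)
        (fun p _ => abs_nonneg _) (Finset.mem_range.2 (Nat.lt_succ_of_le ?_))))
      exact (Nat.mod_le _ _).trans (Nat.sub_le _ _)
    · simpa using h0

theorem Link.anc_nice {n : ℕ} {S : Stage n} (L : Link S) (r : ℕ) : ∀ F ∈ L.anc r, Nice F := by
  intro F hF
  rcases List.mem_append.1 hF with h | h
  · obtain ⟨G, hG, rfl⟩ := List.mem_map.1 h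
    exact nice_pullF L.measurable_o L.measurable_z (S.anc_nice r G hG)
  · obtain ⟨q, -, rfl⟩ := List.mem_map.1 h
    exact nice_mode1 _ _

/-- a stage together with its link and the colours of the next stage -/
structure Next {n : ℕ} (S : Stage n) where
  L : Link S
  C : Colours L.E.D
  B : ℕ
  j : ℕ
  range_vec : ∀ z, (∃ i, C.vec i = z) ↔ z ∈ symF L.E.P
  good : C.Good (epsn (n + 1) (max S.kmax C.k) / C.k)
  box_vec : ∀ x, C.vec x ∈ box L.E.D B
  enc : ∀ e, j ≤ e → Nonempty (Encoding e (epsn (n + 1) (max S.kmax C.k)))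
  M_big : (L.h : ℝ) ^ 2 ≤ epsn (n + 1) (max S.kmax C.k) * ((2 ^ j : ℕ) : ℝ) ^ 2
  M_small : 2 ^ j * 2 ^ (n + 1) ≤ C.Q * L.h
  Q_two : 2 ≤ C.Q
  anc_leak : ∀ F ∈ L.anc (n + 1), leak L.h B F ≤ 1 / (4:ℝ) ^ (n + 1)

theorem exists_next (hE : EncodingStatement) {n : ℕ} (S : Stage n) : Nonempty (Next S) := by
  obtain ⟨L⟩ := exists_link S
  have hh : 0 < L.h := lt_of_lt_of_le (pow_pos two_pos _) (Nat.le_add_left _ _)
  obtain ⟨⟨C, B, j⟩, h1, hk, h2, h3, h4, h5, h6, h7, h8⟩ := exists_stage hE (n + 1) L.E.D L.h hh L.E.P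
    L.E.nonempty L.E.ne_zero L.E.indep L.anc L.anc_nice S.kmax
  simp only at h1 hk h2 h3 h4 h5 h6 h7 h8
  rw [← hk] at h2 h4 h5
  exact ⟨⟨L, C, B, j, h1, h2, h3, h4, h5, h6, h7, h8⟩⟩

/-- the stage after a link -/
def Next.toStage {n : ℕ} {S : Stage n} (X : Next S) : Stage (n + 1) where
  D := X.L.E.D
  h := X.L.h
  C := X.C
  B := X.B
  kmax := max S.kmax X.C.k
  j := X.j
  anc := X.L.anc
  h_pos := lt_of_lt_of_le (pow_pos two_pos _) (Nat.le_add_left _ _)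
  k_le := le_max_right _ _
  good := X.good
  box_vec := X.box_vec
  enc := X.enc
  M_big := X.M_big
  M_small := X.M_small
  Q_two := X.Q_two
  anc_nice := X.L.anc_nice
  anc_leak := X.anc_leak

theorem exists_base (hE : EncodingStatement) : ∃ S : Stage 0, S.h = 1 ∧
    ∀ r v, v ∈ box S.D r → mode1 0 v ∈ S.anc r := by
  classical
  set v0 : Fin 1 → ℤ := fun _ => 1
  have hanc : ∀ r, ∀ F ∈ modesList 1 1 r, Nice F := fun r F hF => by
    obtain ⟨q, -, rfl⟩ := List.mem_map.1 hF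
    exact nice_mode1 _ _
  obtain ⟨⟨C, B, j⟩, -, hk, h2, h3, h4, h5, h6, h7, h8⟩ := exists_stage hE 0 1 1 one_pos {v0}
    (Finset.singleton_nonempty _) (fun x hx h => by
      rw [Finset.mem_singleton] at hx; rw [hx] at h; exact one_ne_zero (congrFun h 0))
    (fun x hx y hy h => absurd ((Finset.mem_singleton.1 hx).trans (Finset.mem_singleton.1 hy).symm) h)
    (modesList 1 1) hanc 0
  simp only at hk h2 h3 h4 h5 h6 h7 h8
  refine ⟨⟨1, 1, C, B, max 0 (2 * ({v0} : Finset (Fin 1 → ℤ)).card), j, modesList 1 1, one_pos,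
    by rw [hk]; exact le_max_right _ _, h2, h3, h4, h5, h6, h7, hanc, h8⟩, rfl, fun r v hv => ?_⟩
  exact mode1_mem_modesList zero_lt_one hv

variable (hE : EncodingStatement)

/-- the sequence of stages -/
def stage : (n : ℕ) → Stage n
  | 0 => (exists_base hE).choose
  | n + 1 => (exists_next hE (stage n)).some.toStage

/-- the link after stage `n` -/
def nxt (n : ℕ) : Next (stage hE n) := (exists_next hE (stage hE n)).some

theorem mode1_mem_anc (m : ℕ) (r q : ℕ) (v : Fin (stage hE m).D → ℤ)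
    (hq : q < (stage hE m).h) (hv : v ∈ box (stage hE m).D r) :
    mode1 q v ∈ (stage hE m).anc r := by
  cases m with
  | zero =>
    have h := (exists_base hE).choose_spec
    have : q = 0 := by
      have h1 : (stage hE 0).h = 1 := h.1
      omega
    subst this
    exact h.2 r v hv
  | succ m => exact List.mem_append_right _ (mode1_mem_modesList hq hv)

end

end Vale.Agent.P130.Full
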