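import Vale.Agent.P130.Full.SpaceCore

/-! Realisation of a chain of towers as an invertible probability preserving system. -/

namespace Vale.Agent.P130.Full

open MeasureTheory Filter Topology Set ProbabilityTheory
open Vale.Agent.P130 Vale.Agent.P130.Sol
open scoped ENNReal

noncomputable section

theorem compProd_comap_map {A B W : Type*} [MeasurableSpace A] [MeasurableSpace B] [MeasurableSpace W]
    (ν : Measure A) [SFinite ν] (κ : Kernel B W) [IsSFiniteKernel κ] {f : A → B} (hf : Measurable f) :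
    (ν ⊗ₘ κ.comap f hf).map (fun q : A × W => (f q.1, q.2)) = ν.map f ⊗ₘ κ := by
  have hF : Measurable fun q : A × W => (f q.1, q.2) := (hf.comp measurable_fst).prodMk measurable_snd
  refine Measure.ext fun s hs => ?_
  rw [Measure.map_apply hF hs, Measure.compProd_apply (hF hs), Measure.compProd_apply hs,
    lintegral_map (Kernel.measurable_kernel_prodMk_left hs) hf]
  rfl

theorem slice_le_one {D : ℕ} (S : Set (ℕ × Tor D)) (p : ℕ) :
    ∫⁻ z : Tor D, S.indicator 1 (p, z) ≤ 1 := by
  refine (lintegral_mono (g := fun _ => (1 : ℝ≥0∞)) fun z => ?_).trans (by simp)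
  exact Set.indicator_le' (g := fun _ => (1 : ℝ≥0∞)) (fun _ _ => le_rfl) (fun _ _ => zero_le) _

theorem slice_eq_zero {D : ℕ} (S : Set (ℕ × Tor D)) (p : ℕ) (h : ∀ z, (p, z) ∉ S) :
    ∫⁻ z : Tor D, S.indicator 1 (p, z) = 0 :=
  (lintegral_congr fun z => Set.indicator_of_notMem (h z) _).trans lintegral_zero

namespace Chain

variable (C : Chain)

/-- joint law of two consecutive states -/
def rho (n : ℕ) : Measure (C.Y n × C.Y (n + 1)) := (C.mu (n + 1)).map fun y => (C.dp n y, y)

instance instIsProbabilityRho (n : ℕ) : IsProbabilityMeasure (C.rho n) :=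
  Measure.isProbabilityMeasure_map ((C.measurable_dp n).prodMk measurable_id).aemeasurable

theorem rho_fst (n : ℕ) : (C.rho n).fst = C.mu n := by
  rw [rho, Measure.fst_map_prodMk (Y := fun y : C.Y (n + 1) => y) measurable_id]
  exact C.map_dp n

theorem rho_snd (n : ℕ) : (C.rho n).map Prod.snd = C.mu (n + 1) := by
  have hm : Measurable fun y : C.Y (n + 1) => (C.dp n y, y) := (C.measurable_dp n).prodMk measurable_id
  rw [rho, Measure.map_map measurable_snd hm]
  exact Measure.map_id

/-- kernels of the trajectory -/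
def ker (n : ℕ) : Kernel (Π i : Finset.Iic n, C.Y i) (C.Y (n + 1)) :=
  (C.rho n).condKernel.comap (fun x => x ⟨n, Finset.mem_Iic.2 le_rfl⟩) (measurable_pi_apply _)

instance instIsMarkovKer (n : ℕ) : IsMarkovKernel (C.ker n) := by unfold ker; infer_instance

/-- law of the sequence of states -/
def tau : Measure (Π n, C.Y n) := Kernel.trajMeasure (C.mu 0) C.ker

instance instIsProbabilityTau : IsProbabilityMeasure C.tau := by unfold tau; infer_instance

theorem tau_pair (n : ℕ) (h : C.tau.map (fun x => x n) = C.mu n) :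
    C.tau.map (fun x => (x n, x (n + 1))) = C.rho n := by
  have h1 := Kernel.map_frestrictLe_trajMeasure_compProd_eq_map_trajMeasure (μ₀ := C.mu 0)
    (κ := C.ker) (a := n)
  have hm : Measurable fun q : (Π i : Finset.Iic n, C.Y i) × C.Y (n + 1) =>
      (q.1 ⟨n, Finset.mem_Iic.2 le_rfl⟩, q.2) :=
    ((measurable_pi_apply _).comp measurable_fst).prodMk measurable_snd
  have h2 := congrArg (Measure.map fun q : (Π i : Finset.Iic n, C.Y i) × C.Y (n + 1) =>
      (q.1 ⟨n, Finset.mem_Iic.2 le_rfl⟩, q.2)) h1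
  rw [Measure.map_map hm (by fun_prop)] at h2
  have h3 : C.tau.map (fun x => (x n, x (n + 1)))
      = ((C.tau.map (Preorder.frestrictLe n)) ⊗ₘ C.ker n).map
        (fun q : (Π i : Finset.Iic n, C.Y i) × C.Y (n + 1) => (q.1 ⟨n, Finset.mem_Iic.2 le_rfl⟩, q.2)) :=
    h2.symm
  rw [h3, ker, compProd_comap_map _ _ (measurable_pi_apply _),
    Measure.map_map (measurable_pi_apply _) (by fun_prop)]
  have h4 : C.tau.map ((fun x : Π i : Finset.Iic n, C.Y i => x ⟨n, Finset.mem_Iic.2 le_rfl⟩) ∘
      Preorder.frestrictLe n) = (C.rho n).fst := by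
    rw [C.rho_fst]; exact h
  rw [h4, Measure.disintegrate]

theorem tau_law : ∀ n, C.tau.map (fun x => x n) = C.mu n
  | 0 => by
    rw [tau, Kernel.trajMeasure, Measure.map_comp _ _ (measurable_pi_apply 0)]
    have h : ((Kernel.traj C.ker 0).map fun x => x 0) = Kernel.deterministic
        (fun x : Π i : Finset.Iic 0, C.Y i => x ⟨0, Finset.mem_Iic.2 le_rfl⟩) (measurable_pi_apply _) := by
      have e := Kernel.traj_map_frestrictLe_of_le (κ := C.ker) (le_refl 0)
      have e2 : ((Kernel.traj C.ker 0).map fun x => x 0)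
          = ((Kernel.traj C.ker 0).map (Preorder.frestrictLe 0)).map
            (fun x : Π i : Finset.Iic 0, C.Y i => x ⟨0, Finset.mem_Iic.2 le_rfl⟩) := by
        rw [← Kernel.map_comp_right _ (by fun_prop) (measurable_pi_apply _)]
        rfl
      rw [e2, e, Kernel.deterministic_map _ (measurable_pi_apply _)]
      rfl
    rw [h, Measure.deterministic_comp_eq_map]
    exact (Measure.map_map (measurable_pi_apply _) (MeasurableEquiv.measurable _)).trans Measure.map_id
  | n + 1 => by
    have h := congrArg (Measure.map Prod.snd) (C.tau_pair n (tau_law n))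
    rw [Measure.map_map measurable_snd ((measurable_pi_apply n).prodMk (measurable_pi_apply (n + 1))),
      C.rho_snd] at h
    exact h

theorem tau_compat (n : ℕ) : ∀ᵐ x ∂C.tau, x n = C.dp n (x (n + 1)) := by
  have hm : Measurable fun x : Π i, C.Y i => (x n, x (n + 1)) :=
    (measurable_pi_apply n).prodMk (measurable_pi_apply (n + 1))
  have hs : MeasurableSet {q : C.Y n × C.Y (n + 1) | q.1 = C.dp n q.2} :=
    measurableSet_eq_fun measurable_fst ((C.measurable_dp n).comp measurable_snd)
  have hd : Measurable fun y : C.Y (n + 1) => (C.dp n y, y) := (C.measurable_dp n).prodMk measurable_id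
  have h : ∀ᵐ q ∂C.rho n, q.1 = C.dp n q.2 := by
    rw [rho, ae_map_iff hd.aemeasurable hs]
    exact Eventually.of_forall fun _ => rfl
  rw [← C.tau_pair n (C.tau_law n), ae_map_iff hm.aemeasurable hs] at h
  exact h

/-- translation by `d` can be applied -/
def Can (d : ℤ) (n : ℕ) (y : C.Y n) : Prop :=
  y.1 < C.h n ∧ 0 ≤ (y.1 : ℤ) + d ∧ (y.1 : ℤ) + d < C.h n

/-- translated state -/
def sh (d : ℤ) (n : ℕ) (y : C.Y n) : C.Y n := (((y.1 : ℤ) + d).toNat, y.2)

theorem measurable_sh (d : ℤ) (n : ℕ) : Measurable (C.sh d n) :=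
  ((measurable_of_countable fun p : ℕ => ((p : ℤ) + d).toNat).comp measurable_fst).prodMk measurable_snd

theorem measurableSet_can (d : ℤ) (n : ℕ) : MeasurableSet {y : C.Y n | C.Can d n y} :=
  measurable_fst (MeasurableSet.of_discrete
    (s := {p : ℕ | p < C.h n ∧ 0 ≤ (p : ℤ) + d ∧ (p : ℤ) + d < C.h n}))

theorem can_up {d : ℤ} {n : ℕ} {y : C.Y (n + 1)} (hc : C.Can d n (C.dp n y)) :
    C.Can d (n + 1) y ∧ C.dp n (C.sh d (n + 1) y) = C.sh d n (C.dp n y) := by
  obtain ⟨h0, h1, h2⟩ := hc
  obtain ⟨s, p, hv, he⟩ := C.dp_lt h0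
  rw [he] at h1 h2 ⊢
  dsimp only at h1 h2
  obtain ⟨hs, hp, hP⟩ := (visit_some_iff (C.h_pos' n)).1 hv
  obtain ⟨g1, g2, -, g4⟩ := C.visit_pos_lt hv
  refine ⟨⟨g1, by omega, by omega⟩, ?_⟩
  have hv' : visit (C.h n) (C.Q n) (C.o n (C.sh d (n + 1) y).2) (C.sh d (n + 1) y).1
      = some (s, ((p : ℤ) + d).toNat) := by
    rw [visit_some_iff (C.h_pos' n)]
    refine ⟨hs, by omega, ?_⟩
    simp only [sh]
    omega
  unfold dp
  rw [hv']
  rfl

/-- state of level `n` computed from the state of level `n + k` of a sequence -/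
def down : (k n : ℕ) → (Π m, C.Y m) → C.Y n
  | 0, n, g => g n
  | k + 1, n, g => C.dp n (down k (n + 1) g)

theorem measurable_down : ∀ k n, Measurable (C.down k n)
  | 0, n => measurable_pi_apply n
  | k + 1, n => (C.measurable_dp n).comp (measurable_down k (n + 1))

theorem down_congr : ∀ k n (g g' : Π m, C.Y m), g (n + k) = g' (n + k) → C.down k n g = C.down k n g'
  | 0, n, g, g', h => h
  | k + 1, n, g, g', h => by
    simp only [down]
    rw [down_congr k (n + 1) g g' ((show n + 1 + k = n + (k + 1) by omega) ▸ h)]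

/-- the sequence is consistent -/
def Compat (x : Π m, C.Y m) : Prop := ∀ n, x n = C.dp n (x (n + 1))

theorem down_compat : ∀ k n (x : Π m, C.Y m), C.Compat x → C.down k n x = x n
  | 0, _, _, _ => rfl
  | k + 1, n, x, hx => by
    simp only [down]
    rw [down_compat k (n + 1) x hx]
    exact (hx n).symm

theorem compat_ext {x y : Π m, C.Y m} (hx : C.Compat x) (hy : C.Compat y) (k n : ℕ)
    (h : x (n + k) = y (n + k)) : x n = y n := by
  rw [← C.down_compat k n x hx, C.down_congr k n x y h, C.down_compat k n y hy]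

theorem can_mono {d : ℤ} {x : Π m, C.Y m} (hx : C.Compat x) {n m : ℕ} (hnm : n ≤ m)
    (hc : C.Can d n (x n)) : C.Can d m (x m) := by
  induction m, hnm using Nat.le_induction with
  | base => exact hc
  | succ m _ ih => rw [hx m] at ih; exact (C.can_up ih).1

theorem down_succ {d : ℤ} {x : Π m, C.Y m} (hx : C.Compat x) :
    ∀ k n, C.Can d (n + k) (x (n + k)) →
      C.down (k + 1) n (fun m => C.sh d m (x m)) = C.down k n (fun m => C.sh d m (x m))
  | 0, n, h => by
    simp only [down]
    rw [Nat.add_zero, hx n] at h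
    rw [(C.can_up h).2, ← hx n]
  | k + 1, n, h => by
    change C.dp n (C.down (k + 1) (n + 1) fun m => C.sh d m (x m))
      = C.dp n (C.down k (n + 1) fun m => C.sh d m (x m))
    rw [down_succ hx k (n + 1) ((show n + (k + 1) = n + 1 + k by omega) ▸ h)]

theorem down_stable {d : ℤ} {x : Π m, C.Y m} (hx : C.Compat x) {n k k' : ℕ} (hk : k ≤ k')
    (hc : C.Can d (n + k) (x (n + k))) :
    C.down k' n (fun m => C.sh d m (x m)) = C.down k n (fun m => C.sh d m (x m)) := by
  induction k', hk using Nat.le_induction with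
  | base => rfl
  | succ j hj ih =>
    rw [C.down_succ hx j n (C.can_mono hx (by omega) hc), ih]

/-- all translations are eventually possible -/
def Deep (x : Π m, C.Y m) : Prop := ∀ d : ℤ, ∃ n, C.Can d n (x n)

/-- the points of the realisation -/
def carrier : Set (Π m, C.Y m) := {x | C.Compat x ∧ C.Deep x}

theorem measurableSet_carrier : MeasurableSet C.carrier := by
  have h1 : MeasurableSet {x : Π m, C.Y m | C.Compat x} := by
    have e : {x : Π m, C.Y m | C.Compat x} = ⋂ n, {x | x n = C.dp n (x (n + 1))} := by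
      ext x; simp [Compat]
    rw [e]
    exact MeasurableSet.iInter fun n =>
      measurableSet_eq_fun (measurable_pi_apply n) ((C.measurable_dp n).comp (measurable_pi_apply _))
  have h2 : MeasurableSet {x : Π m, C.Y m | C.Deep x} := by
    have e : {x : Π m, C.Y m | C.Deep x} = ⋂ d : ℤ, ⋃ n, (fun x => x n) ⁻¹' {y | C.Can d n y} := by
      ext x; simp [Deep]
    rw [e]
    exact MeasurableSet.iInter fun d =>
      MeasurableSet.iUnion fun n => measurable_pi_apply n (C.measurableSet_can d n)
  exact h1.inter h2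

theorem mu_not_can (d : ℤ) (n : ℕ) :
    C.mu n {y | ¬ C.Can d n y} ≤ ENNReal.ofReal ((d.natAbs : ℝ) * C.wgt n + C.out n) := by
  have hS : MeasurableSet {y : C.Y n | ¬ C.Can d n y} := (C.measurableSet_can d n).compl
  rw [← lintegral_indicator_one hS, C.lintegral_mu n (measurable_one.indicator hS),
    ENNReal.ofReal_add (mul_nonneg (Nat.cast_nonneg _) (C.wgt_pos n).le) (C.out_nonneg n)]
  refine add_le_add ?_ (mul_le_of_le_one_right zero_le (Set.indicator_le_self' (fun _ _ => zero_le) _))
  rw [mul_comm (d.natAbs : ℝ), ENNReal.ofReal_mul (C.wgt_pos n).le, ENNReal.ofReal_natCast]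
  refine mul_le_mul_of_nonneg_left ?_ zero_le
  set B := (Finset.range (C.h n)).filter fun p : ℕ => ¬ (0 ≤ (p : ℤ) + d ∧ (p : ℤ) + d < C.h n) with hB
  have hcard : B.card ≤ d.natAbs := by
    rcases le_or_gt 0 d with hd | hd
    · refine (Finset.card_le_card (t := Finset.Ico (C.h n - d.natAbs) (C.h n)) fun p hp => ?_).trans ?_
      · simp only [hB, Finset.mem_filter, Finset.mem_range] at hp
        simp only [Finset.mem_Ico]
        omega
      · simp only [Nat.card_Ico]; omega
    · refine (Finset.card_le_card (t := Finset.range d.natAbs) fun p hp => ?_).trans ?_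
      · simp only [hB, Finset.mem_filter, Finset.mem_range] at hp
        simp only [Finset.mem_range]
        omega
      · simp
  refine le_trans ?_ (show (B.card : ℝ≥0∞) ≤ (d.natAbs : ℝ≥0∞) by exact_mod_cast hcard)
  have hpt : ∀ p ∈ Finset.range (C.h n),
      ∫⁻ z, {y : C.Y n | ¬ C.Can d n y}.indicator 1 (p, z)
        ≤ if ¬ (0 ≤ (p : ℤ) + d ∧ (p : ℤ) + d < C.h n) then 1 else 0 := fun p hp => by
    rw [Finset.mem_range] at hp
    by_cases h : 0 ≤ (p : ℤ) + d ∧ (p : ℤ) + d < C.h n
    · rw [if_neg (not_not_intro h)]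
      exact le_of_eq (slice_eq_zero _ p fun z hz => hz ⟨hp, h⟩)
    · rw [if_pos h]
      exact slice_le_one _ p
  refine (Finset.sum_le_sum hpt).trans ?_
  rw [← Finset.sum_filter, Finset.sum_const, nsmul_eq_mul, mul_one]

theorem err_tendsto (d : ℤ) :
    Tendsto (fun n => ENNReal.ofReal ((d.natAbs : ℝ) * C.wgt n + C.out n)) atTop (𝓝 0) := by
  have h := (C.wgt_tendsto.const_mul (d.natAbs : ℝ)).add C.out_tendsto
  rw [mul_zero, add_zero] at h
  simpa using ENNReal.tendsto_ofReal h

theorem tau_carrier : ∀ᵐ x ∂C.tau, x ∈ C.carrier := by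
  have h1 : ∀ᵐ x ∂C.tau, C.Compat x := ae_all_iff.2 C.tau_compat
  have h2 : ∀ᵐ x ∂C.tau, C.Deep x := by
    refine ae_all_iff.2 fun d => ?_
    rw [ae_iff]
    refine le_antisymm (ge_of_tendsto' (C.err_tendsto d) fun n => ?_) zero_le
    refine le_trans ?_ (C.mu_not_can d n)
    rw [← C.tau_law n, Measure.map_apply (measurable_pi_apply n) (s := {y | ¬ C.Can d n y})
      (C.measurableSet_can d n).compl]
    exact measure_mono fun x hx hc => hx ⟨n, hc⟩
  filter_upwards [h1, h2] with x a b using ⟨a, b⟩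

/-- the space -/
abbrev Pt : Type := ↥C.carrier

/-- the measure -/
def nu : Measure C.Pt := C.tau.comap Subtype.val

theorem nu_map : C.nu.map Subtype.val = C.tau := by
  rw [nu, map_comap_subtype_coe C.measurableSet_carrier]
  exact Measure.restrict_eq_self_of_ae_mem C.tau_carrier

theorem measurable_coord (n : ℕ) : Measurable fun x : C.Pt => x.1 n :=
  (measurable_pi_apply n).comp measurable_subtype_coe

instance instIsProbabilityNu : IsProbabilityMeasure C.nu := by
  constructor
  have h := congrArg (fun m : Measure (Π m, C.Y m) => m Set.univ) C.nu_map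
  rw [Measure.map_apply measurable_subtype_coe MeasurableSet.univ, measure_univ] at h
  exact h

theorem nu_law (n : ℕ) : C.nu.map (fun x => x.1 n) = C.mu n := by
  rw [← C.tau_law n, ← C.nu_map, Measure.map_map (measurable_pi_apply n) measurable_subtype_coe]
  rfl

theorem nu_coord (n : ℕ) {A : Set (C.Y n)} (hA : MeasurableSet A) :
    C.nu {x | x.1 n ∈ A} = C.mu n A := by
  rw [← C.nu_law n, Measure.map_apply (C.measurable_coord n) hA]
  rfl

theorem exists_can (d : ℤ) (n : ℕ) (x : C.Pt) : ∃ k, C.Can d (n + k) (x.1 (n + k)) := by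
  obtain ⟨m, hm⟩ := x.2.2 d
  exact ⟨m, C.can_mono x.2.1 (by omega) hm⟩

open Classical in
/-- translated sequence -/
def move (d : ℤ) (x : C.Pt) (n : ℕ) : C.Y n :=
  C.down (Nat.find (C.exists_can d n x)) n fun m => C.sh d m (x.1 m)

theorem move_eq {d : ℤ} {x : C.Pt} {n k : ℕ} (hc : C.Can d (n + k) (x.1 (n + k))) :
    C.move d x n = C.down k n fun m => C.sh d m (x.1 m) := by
  classical
  unfold move
  exact (C.down_stable x.2.1 (Nat.find_le hc) (Nat.find_spec (C.exists_can d n x))).symm

theorem move_eq_sh {d : ℤ} {x : C.Pt} {n : ℕ} (hc : C.Can d n (x.1 n)) :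
    C.move d x n = C.sh d n (x.1 n) := C.move_eq (k := 0) hc

theorem move_compat (d : ℤ) (x : C.Pt) : C.Compat (C.move d x) := fun n => by
  obtain ⟨k, hk⟩ := C.exists_can d (n + 1) x
  rw [C.move_eq hk, C.move_eq (k := k + 1) ((show n + 1 + k = n + (k + 1) by omega) ▸ hk)]
  rfl

theorem move_deep (d : ℤ) (x : C.Pt) : C.Deep (C.move d x) := fun e => by
  obtain ⟨a, ha⟩ := x.2.2 d
  obtain ⟨b, hb⟩ := x.2.2 (d + e)
  refine ⟨max a b, ?_⟩
  have h1 := C.can_mono x.2.1 (le_max_left a b) ha
  obtain ⟨h2, h3, h4⟩ := C.can_mono x.2.1 (le_max_right a b) hb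
  rw [C.move_eq_sh h1]
  obtain ⟨h5, h6, h7⟩ := h1
  refine ⟨?_, ?_, ?_⟩ <;> simp only [sh] <;> omega

/-- translation of points -/
def trans (d : ℤ) (x : C.Pt) : C.Pt := ⟨C.move d x, C.move_compat d x, C.move_deep d x⟩

theorem trans_trans (d : ℤ) (x : C.Pt) : C.trans (-d) (C.trans d x) = x := by
  refine Subtype.ext (funext fun n => ?_)
  obtain ⟨k, hk⟩ := C.exists_can d n x
  refine C.compat_ext (C.trans (-d) (C.trans d x)).2.1 x.2.1 k n ?_
  have h1 : (C.trans d x).1 (n + k) = C.sh d (n + k) (x.1 (n + k)) := C.move_eq_sh hk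
  obtain ⟨g1, g2, g3⟩ := hk
  have h2 : C.Can (-d) (n + k) ((C.trans d x).1 (n + k)) := by
    rw [h1]
    refine ⟨?_, ?_, ?_⟩ <;> simp only [sh] <;> omega
  show C.move (-d) (C.trans d x) (n + k) = x.1 (n + k)
  rw [C.move_eq_sh h2, h1]
  refine Prod.ext ?_ rfl
  simp only [sh]
  omega

theorem measurable_trans (d : ℤ) : Measurable (C.trans d) := by
  classical
  refine Measurable.subtype_mk (measurable_pi_iff.2 fun n => ?_)
  unfold move
  exact Measurable.find (f := fun k (x : C.Pt) => C.down k n fun m => C.sh d m (x.1 m))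
    (p := fun k x => C.Can d (n + k) (x.1 (n + k)))
    (fun k => (C.measurable_down k n).comp
      (measurable_pi_iff.2 fun m => (C.measurable_sh d m).comp (C.measurable_coord m)))
    (fun k => C.measurable_coord (n + k) (C.measurableSet_can d (n + k))) (C.exists_can d n)

/-- the transformation -/
def step : C.Pt ≃ᵐ C.Pt where
  toFun := C.trans 1
  invFun := C.trans (-1)
  left_inv := C.trans_trans 1
  right_inv x := by
    have h := C.trans_trans (-1) x
    rwa [neg_neg] at h
  measurable_toFun := C.measurable_trans 1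
  measurable_invFun := C.measurable_trans (-1)

/-- events of one coordinate -/
def events : Set (Set C.Pt) := {s | ∃ n, ∃ A : Set (C.Y n), MeasurableSet A ∧ s = {x | x.1 n ∈ A}}

theorem lift_event (n k : ℕ) {A : Set (C.Y n)} (hA : MeasurableSet A) :
    ∃ A' : Set (C.Y (n + k)), MeasurableSet A' ∧
      ∀ x : Π m, C.Y m, C.Compat x → (x n ∈ A ↔ x (n + k) ∈ A') := by
  classical
  let g0 : Π m, C.Y m := fun m => C.rest m
  refine ⟨(fun w => C.down k n (Function.update g0 (n + k) w)) ⁻¹' A,
    ((C.measurable_down k n).comp (measurable_update g0)) hA, fun x hx => ?_⟩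
  simp only [Set.mem_preimage]
  rw [C.down_congr k n (Function.update g0 (n + k) (x (n + k))) x (by simp), C.down_compat k n x hx]

theorem lift_event' {n m : ℕ} (hnm : n ≤ m) {A : Set (C.Y n)} (hA : MeasurableSet A) :
    ∃ A' : Set (C.Y m), MeasurableSet A' ∧
      ∀ x : Π m, C.Y m, C.Compat x → (x n ∈ A ↔ x m ∈ A') := by
  obtain ⟨k, rfl⟩ := Nat.le.dest hnm
  exact C.lift_event n k hA

theorem events_inter {s t : Set C.Pt} (hs : s ∈ C.events) (ht : t ∈ C.events) : s ∩ t ∈ C.events := by
  obtain ⟨n, A, hA, rfl⟩ := hs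
  obtain ⟨m, B, hB, rfl⟩ := ht
  obtain ⟨A', hA', eA⟩ := C.lift_event' (le_max_left n m) hA
  obtain ⟨B', hB', eB⟩ := C.lift_event' (le_max_right n m) hB
  refine ⟨max n m, A' ∩ B', hA'.inter hB', ?_⟩
  ext x
  simp only [Set.mem_inter_iff, Set.mem_setOf_eq, eA x.1 x.2.1, eB x.1 x.2.1]

theorem events_algebra : IsSetAlgebra C.events where
  empty_mem := ⟨0, ∅, MeasurableSet.empty, by simp⟩
  compl_mem := by
    rintro s ⟨n, A, hA, rfl⟩
    exact ⟨n, Aᶜ, hA.compl, rfl⟩
  union_mem := by
    rintro s t ⟨n, A, hA, rfl⟩ ⟨m, B, hB, rfl⟩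
    obtain ⟨A', hA', eA⟩ := C.lift_event' (le_max_left n m) hA
    obtain ⟨B', hB', eB⟩ := C.lift_event' (le_max_right n m) hB
    refine ⟨max n m, A' ∪ B', hA'.union hB', ?_⟩
    ext x
    simp only [Set.mem_union, Set.mem_setOf_eq, eA x.1 x.2.1, eB x.1 x.2.1]

theorem generate_events :
    (inferInstance : MeasurableSpace C.Pt) = MeasurableSpace.generateFrom C.events := by
  refine le_antisymm ?_ (MeasurableSpace.generateFrom_le ?_)
  · have hval : @Measurable C.Pt (Π m, C.Y m) (MeasurableSpace.generateFrom C.events) _ Subtype.val := by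
      refine @measurable_pi_lambda C.Pt ℕ (fun m => C.Y m) (MeasurableSpace.generateFrom C.events) _
        Subtype.val fun n => ?_
      intro A hA
      exact MeasurableSpace.measurableSet_generateFrom ⟨n, A, hA, rfl⟩
    rintro s ⟨u, hu, rfl⟩
    exact hval hu
  · rintro s ⟨n, A, hA, rfl⟩
    exact C.measurable_coord n hA

theorem trans_mp (d : ℤ) : MeasurePreserving (C.trans d) C.nu C.nu := by
  refine ⟨C.measurable_trans d, ?_⟩
  haveI := Measure.isProbabilityMeasure_map (μ := C.nu) (C.measurable_trans d).aemeasurable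
  refine ext_of_generate_finite C.events C.generate_events
    (fun s hs t ht _ => C.events_inter hs ht) ?_ (by simp only [measure_univ])
  rintro s ⟨n, A, hA, rfl⟩
  have hsm : MeasurableSet {x : C.Pt | x.1 n ∈ A} := C.measurable_coord n hA
  rw [Measure.map_apply (C.measurable_trans d) hsm]
  have key : ∀ m, n ≤ m → ∃ q : ℝ≥0∞,
      (q ≤ C.nu (C.trans d ⁻¹' {x : C.Pt | x.1 n ∈ A}) ∧
        C.nu (C.trans d ⁻¹' {x : C.Pt | x.1 n ∈ A})
          ≤ q + ENNReal.ofReal ((d.natAbs : ℝ) * C.wgt m + C.out m)) ∧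
      (q ≤ C.nu {x : C.Pt | x.1 n ∈ A} ∧
        C.nu {x : C.Pt | x.1 n ∈ A} ≤ q + ENNReal.ofReal ((d.natAbs : ℝ) * C.wgt m + C.out m)) := by
    intro m hm
    obtain ⟨A', hA', eA⟩ := C.lift_event' hm hA
    have e1 : C.trans d ⁻¹' {x : C.Pt | x.1 n ∈ A} = {x : C.Pt | C.move d x m ∈ A'} := by
      ext x; exact eA _ (C.move_compat d x)
    have e2 : {x : C.Pt | x.1 n ∈ A} = {x : C.Pt | x.1 m ∈ A'} := by
      ext x; exact eA _ x.2.1
    have hmem : MeasurableSet {y : C.Y m | C.Can d m y} := C.measurableSet_can d m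
    have hmem' : MeasurableSet {y : C.Y m | C.Can (-d) m y} := C.measurableSet_can (-d) m
    refine ⟨C.mu m (C.sh d m ⁻¹' A' ∩ {y | C.Can d m y}), ?_, ?_⟩
    · rw [e1, ← C.nu_coord m ((C.measurable_sh d m hA').inter hmem)]
      refine ⟨measure_mono fun x hx => ?_, ?_⟩
      · show C.move d x m ∈ A'
        rw [C.move_eq_sh hx.2]; exact hx.1
      · refine le_trans (measure_mono (t := {x : C.Pt | x.1 m ∈ C.sh d m ⁻¹' A' ∩ {y | C.Can d m y}}
          ∪ {x : C.Pt | x.1 m ∈ {y | ¬ C.Can d m y}}) fun x hx => ?_) ?_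
        · by_cases hc : C.Can d m (x.1 m)
          · refine Or.inl ⟨?_, hc⟩
            have : C.move d x m ∈ A' := hx
            rwa [C.move_eq_sh hc] at this
          · exact Or.inr hc
        · refine (measure_union_le _ _).trans (add_le_add le_rfl ?_)
          rw [C.nu_coord m (A := {y | ¬ C.Can d m y}) hmem.compl]
          exact C.mu_not_can d m
    · have hq : C.mu m (C.sh d m ⁻¹' A' ∩ {y | C.Can d m y}) = C.mu m (A' ∩ {y | C.Can (-d) m y}) := by
        rw [← lintegral_indicator_one ((C.measurable_sh d m hA').inter hmem),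
          ← lintegral_indicator_one (hA'.inter hmem'),
          C.lintegral_mu m (measurable_one.indicator ((C.measurable_sh d m hA').inter hmem)),
          C.lintegral_mu m (measurable_one.indicator (hA'.inter hmem'))]
        have r1 : C.rest m ∉ C.sh d m ⁻¹' A' ∩ {y | C.Can d m y} := fun h => lt_irrefl _ h.2.1
        have r2 : C.rest m ∉ A' ∩ {y | C.Can (-d) m y} := fun h => lt_irrefl _ h.2.1
        rw [Set.indicator_of_notMem r1, Set.indicator_of_notMem r2]
        congr 2
        refine Finset.sum_bij_ne_zero (fun p _ _ => ((p : ℤ) + d).toNat) ?_ ?_ ?_ ?_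
        · intro p hp hne
          have hc : 0 ≤ (p : ℤ) + d ∧ (p : ℤ) + d < C.h m := by
            by_contra hno
            exact hne (slice_eq_zero _ p fun z hz => hno hz.2.2)
          rw [Finset.mem_range]
          omega
        · intro p hp hne p' hp' hne' he
          have hc : ∀ q, (∫⁻ z, (C.sh d m ⁻¹' A' ∩ {y | C.Can d m y}).indicator 1 (q, z)) ≠ 0 →
              0 ≤ (q : ℤ) + d := fun q hq => by
            by_contra hno
            exact hq (slice_eq_zero _ q fun z hz => hno hz.2.2.1)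
          have g1 := hc p hne
          have g2 := hc p' hne'
          omega
        · intro q hq hne
          have hc : 0 ≤ (q : ℤ) + -d ∧ (q : ℤ) + -d < C.h m := by
            by_contra hno
            exact hne (slice_eq_zero _ q fun z hz => hno hz.2.2)
          rw [Finset.mem_range] at hq
          refine ⟨((q : ℤ) - d).toNat, by rw [Finset.mem_range]; omega, ?_, by omega⟩
          refine ne_of_eq_of_ne (lintegral_congr fun z => ?_) hne
          have eq1 : C.sh d m (((q : ℤ) - d).toNat, z) = (q, z) := Prod.ext (by simp only [sh]; omega) rfl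
          have eq2 : C.Can d m (((q : ℤ) - d).toNat, z) ↔ C.Can (-d) m (q, z) := by
            simp only [Can]; omega
          refine Set.indicator_eq_indicator (and_congr ?_ eq2) rfl
          rw [Set.mem_preimage, eq1]
        · intro p hp hne
          refine lintegral_congr fun z => ?_
          rw [Finset.mem_range] at hp
          have hc : 0 ≤ (p : ℤ) + d ∧ (p : ℤ) + d < C.h m := by
            by_contra hno
            exact hne (slice_eq_zero _ p fun w hw => hno hw.2.2)
          have eq2 : C.Can d m (p, z) ↔ C.Can (-d) m (((p : ℤ) + d).toNat, z) := by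
            simp only [Can]; omega
          exact Set.indicator_eq_indicator (and_congr Iff.rfl eq2) rfl
      rw [hq, e2, C.nu_coord m hA']
      refine ⟨measure_mono Set.inter_subset_left, ?_⟩
      refine le_trans (measure_mono (t := (A' ∩ {y | C.Can (-d) m y}) ∪ {y | ¬ C.Can (-d) m y})
        fun y hy => ?_) ?_
      · by_cases hc : C.Can (-d) m y
        · exact Or.inl ⟨hy, hc⟩
        · exact Or.inr hc
      · refine (measure_union_le _ _).trans (add_le_add le_rfl ?_)
        have := C.mu_not_can (-d) m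
        rwa [Int.natAbs_neg] at this
  have lim : ∀ a : ℝ≥0∞, Tendsto (fun m => a + ENNReal.ofReal ((d.natAbs : ℝ) * C.wgt m + C.out m))
      atTop (𝓝 a) := fun a => by
    simpa using tendsto_const_nhds.add (C.err_tendsto d)
  refine le_antisymm (ge_of_tendsto (lim _) ?_) (ge_of_tendsto (lim _) ?_)
  · filter_upwards [eventually_ge_atTop n] with m hm
    obtain ⟨q, ⟨-, h1⟩, h2, -⟩ := key m hm
    exact h1.trans (add_le_add h2 le_rfl)
  · filter_upwards [eventually_ge_atTop n] with m hm
    obtain ⟨q, ⟨h1, -⟩, -, h2⟩ := key m hm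
    exact h2.trans (add_le_add h1 le_rfl)

theorem atomless (x : C.Pt) : C.nu {x} = 0 := by
  have h0 : Tendsto (fun n => ENNReal.ofReal (C.out n) ) atTop (𝓝 0) := by
    simpa using ENNReal.tendsto_ofReal C.out_tendsto
  obtain ⟨a, ha⟩ := x.2.2 0
  have h : ∀ n, a ≤ n → C.nu {x} ≤ ENNReal.ofReal (C.wgt n) := fun n hn => by
    have hc := C.can_mono x.2.1 hn ha
    refine le_trans (measure_mono (t := {y : C.Pt | y.1 n ∈ ({x.1 n} : Set (C.Y n))}) fun y hy => ?_) ?_
    · rw [Set.mem_singleton_iff] at hy; simp [hy]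
    · rw [C.nu_coord n (measurableSet_singleton _), ← lintegral_indicator_one (measurableSet_singleton _),
        C.lintegral_mu n (measurable_one.indicator (measurableSet_singleton _))]
      have hr : C.rest n ≠ x.1 n := fun e => by
        have := hc.1
        rw [← e] at this
        exact lt_irrefl _ this
      rw [Set.indicator_of_notMem (by simpa using hr), mul_zero, add_zero]
      refine mul_le_of_le_one_right zero_le ?_
      calc ∑ p ∈ Finset.range (C.h n), ∫⁻ z, ({x.1 n} : Set (C.Y n)).indicator 1 (p, z)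
          ≤ ∑ p ∈ Finset.range (C.h n), if p = (x.1 n).1 then 1 else 0 := by
            refine Finset.sum_le_sum fun p _ => ?_
            split_ifs with h
            · exact slice_le_one _ p
            · refine le_of_eq (slice_eq_zero _ p fun z hz => h ?_)
              rw [Set.mem_singleton_iff] at hz
              rw [← hz]
        _ ≤ 1 := by
            rw [Finset.sum_ite_eq']
            split_ifs <;> simp
  refine le_antisymm (ge_of_tendsto ?_ (eventually_atTop.2 ⟨a, h⟩)) zero_le
  simpa using ENNReal.tendsto_ofReal C.wgt_tendsto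

theorem measurable_ofState_st (n : ℕ) {F : ℕ → Tor (C.D n) → ℂ} (hF : ∀ p, Measurable (F p)) :
    Measurable fun y => ofState F (C.st n y) := by
  refine measurable_from_prod_countable_right fun p => ?_
  by_cases h : p < C.h n
  · simp only [st, h, if_true, ofState]; exact hF p
  · simp only [st, h, if_false, ofState]; exact measurable_const

theorem bound_ofState_st (n : ℕ) {F : ℕ → Tor (C.D n) → ℂ} (hF : ∀ p, ∃ c, ∀ z, ‖F p z‖ ≤ c) :
    ∀ p, ∃ c, ∀ z, ‖ofState F (C.st n (p, z))‖ ≤ c := fun p => by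
  by_cases h : p < C.h n
  · simpa only [st, h, if_true, ofState] using hF p
  · exact ⟨0, fun z => by simp only [st, h, if_false, ofState, norm_zero, le_refl]⟩

theorem law_eq (n : ℕ) (F : ℕ → Tor (C.D n) → ℂ) (hm : ∀ p, Measurable (F p))
    (hb : ∀ p, ∃ c, ∀ z, ‖F p z‖ ≤ c) :
    ∫ x, ofState F (C.st n (x.1 n)) ∂C.nu = (C.wgt n : ℂ) * ∑ p ∈ Finset.range (C.h n), ∫ z, F p z := by
  have h := integral_map (μ := C.nu) (C.measurable_coord n).aemeasurable
    (f := fun y => ofState F (C.st n y)) (C.measurable_ofState_st n hm).aestronglyMeasurable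
  rw [← h, C.nu_law n, C.integral_mu n (C.measurable_ofState_st n hm) (C.bound_ofState_st n hb)
    (by simp only [st, rest, lt_irrefl, if_false, ofState])]
  congr 1
  refine Finset.sum_congr rfl fun p hp => ?_
  rw [Finset.mem_range] at hp
  simp only [st, hp, if_true, ofState]

/-- functions of a single tower -/
def IsCyl (f : C.Pt → ℂ) : Prop :=
  ∃ (n : ℕ) (F : ℕ → Tor (C.D n) → ℂ), (∀ p, Measurable (F p)) ∧ (∀ p, ∃ c, ∀ z, ‖F p z‖ ≤ c) ∧
    f = fun x => ofState F (C.st n (x.1 n))

theorem lift_fun {n m : ℕ} (hnm : n ≤ m) (F : ℕ → Tor (C.D n) → ℂ) (hm : ∀ p, Measurable (F p))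
    (hb : ∀ p, ∃ c, ∀ z, ‖F p z‖ ≤ c) :
    ∃ G : ℕ → Tor (C.D m) → ℂ, (∀ p, Measurable (G p)) ∧ (∀ p, ∃ c, ∀ z, ‖G p z‖ ≤ c) ∧
      ∀ x : C.Pt, ofState F (C.st n (x.1 n)) = ofState G (C.st m (x.1 m)) := by
  induction m, hnm using Nat.le_induction with
  | base => exact ⟨F, hm, hb, fun _ => rfl⟩
  | succ m _ ih =>
    obtain ⟨G, gm, gb, ge⟩ := ih
    refine ⟨fun P ω => ofState G (C.st m (C.dp m (P, ω))), fun P => ?_, fun P => ?_, fun x => ?_⟩
    · exact (C.measurable_ofState_st m gm).comp ((C.measurable_dp m).comp measurable_prodMk_left)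
    · choose c hc using C.bound_ofState_st m gb
      refine ⟨∑ p ∈ Finset.range (C.h m + 1), |c p|, fun ω => ?_⟩
      generalize hy : C.dp m (P, ω) = y
      obtain ⟨p, z⟩ := y
      have hp : p ∈ Finset.range (C.h m + 1) := by
        rw [Finset.mem_range]
        by_cases h : (C.dp m (P, ω)).1 < C.h m
        · rw [hy] at h; dsimp only at h; omega
        · match hv : visit (C.h m) (C.Q m) (C.o m ω) P with
          | none =>
            simp [dp, hv, rest] at hy
            omega
          | some (s, q) =>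
            simp [dp, hv] at hy
            have := (C.visit_pos_lt (y := (P, ω)) hv).2.2.1
            omega
      show ‖ofState G (C.st m (C.dp m (P, ω)))‖ ≤ _
      rw [hy]
      exact (hc p z).trans ((le_abs_self _).trans
        (Finset.single_le_sum (f := fun q => |c q|) (fun q _ => abs_nonneg _) hp))
    · rw [ge x, x.2.1 m]
      by_cases h : (x.1 (m + 1)).1 < C.h (m + 1)
      · simp only [st, h, if_true, ofState]
      · rw [C.st_dp]
        simp only [st, h, if_false, ofState, Chain.pi]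

theorem cyl_add {f g : C.Pt → ℂ} (hf : C.IsCyl f) (hg : C.IsCyl g) : C.IsCyl (f + g) := by
  obtain ⟨n, F, fm, fb, rfl⟩ := hf
  obtain ⟨m, G, gm, gb, rfl⟩ := hg
  obtain ⟨F', fm', fb', fe⟩ := C.lift_fun (le_max_left n m) F fm fb
  obtain ⟨G', gm', gb', ge⟩ := C.lift_fun (le_max_right n m) G gm gb
  refine ⟨max n m, fun p z => F' p z + G' p z, fun p => (fm' p).add (gm' p), fun p => ?_, ?_⟩
  · obtain ⟨a, ha⟩ := fb' p
    obtain ⟨b, hb⟩ := gb' p
    exact ⟨a + b, fun z => (norm_add_le _ _).trans (add_le_add (ha z) (hb z))⟩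
  · funext x
    simp only [Pi.add_apply, fe, ge]
    match C.st (max n m) (x.1 (max n m)) with
    | none => simp [ofState]
    | some (p, z) => simp [ofState]

theorem dense_cyl (g : C.Pt → ℂ) (hg : MemLp g 2 C.nu) (ε : ℝ) (hε : 0 < ε) :
    ∃ (n : ℕ) (F : ℕ → Tor (C.D n) → ℂ), (∀ p, Measurable (F p)) ∧ (∀ p, ∃ c, ∀ z, ‖F p z‖ ≤ c) ∧
      eLpNorm (g - fun x => ofState F (C.st n (x.1 n))) 2 C.nu ≤ ENNReal.ofReal ε := by
  suffices h : ∀ (c : ℂ) ⦃s : Set C.Pt⦄, MeasurableSet s → C.nu s < ∞ → ∀ {δ : ℝ≥0∞}, δ ≠ 0 →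
      ∃ f, eLpNorm (f - s.indicator fun _ => c) 2 C.nu ≤ δ ∧ C.IsCyl f by
    obtain ⟨f, hf, n, F, hm, hb, rfl⟩ := MemLp.induction_dense ENNReal.ofNat_ne_top C.IsCyl h
      (fun _ _ => C.cyl_add)
      (fun f ⟨n, F, hm, _, e⟩ => e ▸
        ((C.measurable_ofState_st n hm).comp (C.measurable_coord n)).aestronglyMeasurable)
      hg (ε := ENNReal.ofReal ε) (by simpa using hε)
    exact ⟨n, F, hm, hb, hf⟩
  intro c s hs _ δ hδ
  have hT : Tendsto (fun r : ℝ => ‖c‖ₑ * ENNReal.ofReal r ^ (1 / (2 : ℝ≥0∞).toReal)) (𝓝 0) (𝓝 0) := by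
    have h1 : Tendsto (fun r : ℝ => ENNReal.ofReal r ^ (1 / (2 : ℝ≥0∞).toReal)) (𝓝 0) (𝓝 0) := by
      have := ((ENNReal.continuous_rpow_const (y := 1 / (2 : ℝ≥0∞).toReal)).comp
        ENNReal.continuous_ofReal).tendsto (0 : ℝ)
      simpa [Function.comp_def] using this
    have h2 := ENNReal.Tendsto.const_mul h1 (a := ‖c‖ₑ) (Or.inr enorm_ne_top)
    simpa using h2
  obtain ⟨r, hr, hr0⟩ := ((hT.eventually (gt_mem_nhds (pos_iff_ne_zero.2 hδ))).filter_mono
    (nhdsWithin_le_nhds (s := Set.Ioi (0 : ℝ))) |>.and self_mem_nhdsWithin).exists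
  obtain ⟨t, ⟨n, A, hA, rfl⟩, ht⟩ := (Measure.MeasureDense.of_generateFrom_isSetAlgebra_finite C.nu
    C.events_algebra C.generate_events).approx s hs (measure_ne_top _ _) (r / 2) (half_pos hr0)
  obtain ⟨m, hm, hout⟩ := ((eventually_ge_atTop n).and
    ((C.out_tendsto.eventually (gt_mem_nhds (half_pos hr0))))).exists
  obtain ⟨A', hA', eA⟩ := C.lift_event' hm hA
  classical
  set F : ℕ → Tor (C.D m) → ℂ := fun p z => A'.indicator (fun _ => c) (p, z) with hF
  refine ⟨fun x => ofState F (C.st m (x.1 m)), ?_,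
    m, F, fun p => (measurable_const.indicator hA').comp measurable_prodMk_left,
    fun p => ⟨‖c‖, fun z => norm_indicator_le_norm_self (fun _ => c) _⟩, rfl⟩
  set B : Set C.Pt := {x | x.1 m ∈ A' ∩ {y | y.1 < C.h m}} with hB
  have e : (fun x : C.Pt => ofState F (C.st m (x.1 m))) = B.indicator fun _ => c := by
    funext x
    by_cases h : (x.1 m).1 < C.h m <;>
      simp [st, ofState, hF, hB, h, Set.indicator_apply]
  have hBm : MeasurableSet B :=
    C.measurable_coord m (hA'.inter (measurableSet_lt measurable_fst measurable_const))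
  rw [e, eLpNorm_indicator_sub_indicator,
    eLpNorm_indicator_const (hBm.symmDiff hs) two_ne_zero ENNReal.ofNat_ne_top]
  refine le_trans (mul_le_mul_of_nonneg_left (ENNReal.rpow_le_rpow ?_ (by positivity)) zero_le) hr.le
  refine le_trans (measure_mono (t := symmDiff s {x : C.Pt | x.1 n ∈ A}
    ∪ {x : C.Pt | x.1 m ∈ {y | C.h m ≤ y.1}}) ?_) ?_
  · intro x hx
    have e1 : x.1 n ∈ A ↔ x.1 m ∈ A' := eA _ x.2.1
    simp only [Set.mem_symmDiff, hB, Set.mem_union, Set.mem_setOf_eq, Set.mem_inter_iff] at hx ⊢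
    rcases Nat.lt_or_ge (x.1 m).1 (C.h m) with h | h
    · simp only [h, and_true] at hx
      tauto
    · exact Or.inr h
  · refine (measure_union_le _ _).trans ?_
    rw [C.nu_coord m (A := {y | C.h m ≤ y.1}) (measurableSet_le measurable_const measurable_fst)]
    have := add_le_add ht.le ((C.mu_outside m).trans (ENNReal.ofReal_le_ofReal hout.le))
    rwa [← ENNReal.ofReal_add (half_pos hr0).le (half_pos hr0).le, add_halves] at this

end Chain

open Chain in
theorem space : SpaceStatement := fun C => ⟨{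
  Ω := C.Pt
  ms := inferInstance
  std := C.measurableSet_carrier.standardBorel
  μ := C.nu
  prob := inferInstance
  atomless := C.atomless
  T := C.step
  T_mp := C.trans_mp 1
  pos := fun n x => C.st n (x.1 n)
  wt := C.wgt
  wt_pos := C.wgt_pos
  wt_succ := C.wgt_succ
  wt_le := C.wgt_le
  wt_lim := C.wgt_lim
  pos_meas := fun n F hF => (C.measurable_ofState_st n hF).comp (C.measurable_coord n)
  pos_lt := fun n x p z h => by
    simp only [st] at h
    split_ifs at h with hc
    simp only [Option.some.injEq] at h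
    rw [h] at hc; exact hc
  compat := fun n x => by
    show C.st n (x.1 n) = _
    rw [x.2.1 n]; exact C.st_dp n _
  shift := fun n x p z h hp => by
    simp only [st] at h
    split_ifs at h with hc
    simp only [Option.some.injEq] at h
    have hcan : C.Can 1 n (x.1 n) := by
      rw [h]; refine ⟨?_, ?_, ?_⟩ <;> dsimp only <;> omega
    show C.st n (C.move 1 x n) = _
    rw [C.move_eq_sh hcan, h]
    have e : C.sh 1 n (p, z) = (p + 1, z) := Prod.ext (by simp only [sh]; omega) rfl
    rw [e, st, if_pos (show p + 1 < C.h n from hp)]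
  shift_symm := fun n x p z h => by
    simp only [st] at h
    split_ifs at h with hc
    simp only [Option.some.injEq] at h
    have hp : p + 1 < C.h n := by rw [h] at hc; exact hc
    have hcan : C.Can (-1) n (x.1 n) := by
      rw [h]; refine ⟨?_, ?_, ?_⟩ <;> dsimp only <;> omega
    show C.st n (C.move (-1) x n) = _
    rw [C.move_eq_sh hcan, h]
    have e : C.sh (-1) n (p + 1, z) = (p, z) := Prod.ext (by simp only [sh]; omega) rfl
    rw [e, st, if_pos (show p < C.h n by omega)]
  law := C.law_eq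
  dense := C.dense_cyl }⟩

end

end Vale.Agent.P130.Full
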