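import Vale.Agent.P130.Full.Torus

/-! Tower states, their weights and their consistency, for the realisation of a chain. -/

namespace Vale.Agent.P130.Full

open MeasureTheory Filter Topology Set
open Vale.Agent.P130 Vale.Agent.P130.Sol
open scoped ENNReal

noncomputable section

theorem visit_some_iff {h Q o P s p : ℕ} (hh : 0 < h) :
    visit h Q o P = some (s, p) ↔ s < Q ∧ p < h ∧ P = o + s * h + p := by
  unfold visit
  constructor
  · intro hv
    split_ifs at hv with hc
    · simp only [Option.some.injEq, Prod.mk.injEq] at hv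
      obtain ⟨hs, hp⟩ := hv
      have h1 := Nat.div_add_mod (P - o) h
      have h2 : (P - o) / h < Q := Nat.div_lt_of_lt_mul (by rw [Nat.mul_comm]; omega)
      have h3 := Nat.mod_lt (P - o) hh
      rw [hs, hp, Nat.mul_comm h s] at h1
      exact ⟨hs ▸ h2, hp ▸ h3, by omega⟩
  · rintro ⟨hs, hp, rfl⟩
    have h1 : s * h + h ≤ Q * h := by
      have := Nat.mul_le_mul_right h (show s + 1 ≤ Q from hs)
      rw [Nat.add_mul, Nat.one_mul] at this
      exact this
    rw [if_pos ⟨by omega, by omega⟩, show o + s * h + p - o = p + h * s by rw [Nat.mul_comm h s]; omega,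
      Nat.add_mul_div_left _ _ hh, Nat.add_mul_mod_self_left, Nat.div_eq_of_lt hp, Nat.mod_eq_of_lt hp,
      Nat.zero_add]

theorem sum_range_mul_div_mod (g : ℕ → ℕ → ℝ≥0∞) {h : ℕ} (hh : 0 < h) (Q : ℕ) :
    ∑ j ∈ Finset.range (Q * h), g (j / h) (j % h) = ∑ s ∈ Finset.range Q, ∑ p ∈ Finset.range h, g s p := by
  induction Q with
  | zero => simp
  | succ Q ih =>
    rw [Nat.add_mul, Nat.one_mul, Finset.sum_range_add, ih, Finset.sum_range_succ]
    congr 1
    refine Finset.sum_congr rfl fun p hp => ?_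
    rw [Finset.mem_range] at hp
    rw [Nat.mul_comm Q h, Nat.mul_add_div hh, Nat.mul_add_mod, Nat.div_eq_of_lt hp, Nat.mod_eq_of_lt hp,
      Nat.add_zero]

theorem sum_visit (g : Option (ℕ × ℕ) → ℝ≥0∞) {h Q o M : ℕ} (hh : 0 < h) (ho : o ≤ M) :
    ∑ P ∈ Finset.range (Q * h + M), g (visit h Q o P)
      = (∑ s ∈ Finset.range Q, ∑ p ∈ Finset.range h, g (some (s, p))) + (M : ℝ≥0∞) * g none := by
  rw [show Q * h + M = o + (Q * h + (M - o)) by omega, Finset.sum_range_add, Finset.sum_range_add]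
  have e1 : ∀ P ∈ Finset.range o, g (visit h Q o P) = g none := fun P hP => by
    rw [Finset.mem_range] at hP
    rw [visit, if_neg (by omega)]
  have e2 : ∀ j ∈ Finset.range (Q * h), g (visit h Q o (o + j)) = g (some (j / h, j % h)) := fun j hj => by
    rw [Finset.mem_range] at hj
    rw [visit, if_pos ⟨by omega, by omega⟩, Nat.add_sub_cancel_left]
  have e3 : ∀ j ∈ Finset.range (M - o), g (visit h Q o (o + (Q * h + j))) = g none := fun j _ => by
    rw [visit, if_neg (by omega)]
  rw [Finset.sum_congr rfl e1, Finset.sum_congr rfl e2, Finset.sum_congr rfl e3,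
    sum_range_mul_div_mod (fun s p => g (some (s, p))) hh, Finset.sum_const, Finset.sum_const,
    Finset.card_range, Finset.card_range, nsmul_eq_mul, nsmul_eq_mul]
  have e4 : (M : ℝ≥0∞) = (o : ℝ≥0∞) + ((M - o : ℕ) : ℝ≥0∞) := by
    exact_mod_cast (show M = o + (M - o) by omega)
  rw [e4, add_mul]
  ring

namespace Chain

variable (C : Chain)

theorem h_pos' : ∀ n, 0 < C.h n
  | 0 => C.h_pos
  | n + 1 => by
    have h1 := Nat.mul_pos (Nat.lt_of_lt_of_le (by norm_num) (C.Q_two n)) (h_pos' n)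
    have h2 := C.h_succ n
    omega

theorem pow_le_h : ∀ n, 2 ^ n ≤ C.h n
  | 0 => C.h_pos
  | n + 1 => by
    have h1 := Nat.mul_le_mul (C.Q_two n) (pow_le_h n)
    have h2 := C.h_succ n
    rw [pow_succ]
    omega

/-- product of the numbers of slots -/
def cw (n : ℕ) : ℝ := (∏ i ∈ Finset.range n, (C.Q i : ℝ))⁻¹

theorem cw_pos (n : ℕ) : 0 < C.cw n :=
  inv_pos.2 (Finset.prod_pos fun i _ => Nat.cast_pos.2 (Nat.lt_of_lt_of_le (by norm_num) (C.Q_two i)))

theorem cw_succ (n : ℕ) : C.cw (n + 1) * C.Q n = C.cw n := by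
  have h : (C.Q n : ℝ) ≠ 0 := by
    have := C.Q_two n
    exact Nat.cast_ne_zero.2 (by omega)
  unfold cw
  rw [Finset.prod_range_succ, mul_inv, mul_assoc, inv_mul_cancel₀ h, mul_one]

/-- unnormalised mass of a tower -/
def am (n : ℕ) : ℝ := C.cw n * C.h n

theorem am_pos (n : ℕ) : 0 < C.am n := mul_pos (C.cw_pos n) (Nat.cast_pos.2 (C.h_pos' n))

theorem am_succ (n : ℕ) : C.am (n + 1) = C.am n + C.cw (n + 1) * C.M n := by
  unfold am
  rw [C.h_succ, Nat.cast_add, Nat.cast_mul, mul_add, ← mul_assoc, C.cw_succ]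

theorem am_mono : Monotone C.am := monotone_nat_of_le_succ fun n => by
  rw [C.am_succ]
  exact le_add_of_nonneg_right (mul_nonneg (C.cw_pos _).le (Nat.cast_nonneg _))

theorem am_step (n : ℕ) : C.am (n + 1) ≤ C.am n * Real.exp ((1 / 2 : ℝ) ^ n) := by
  rw [C.am_succ]
  have h2 : (C.M n : ℝ) * 2 ^ n ≤ (C.Q n : ℝ) * C.h n := by exact_mod_cast C.M_small n
  have h3 : (C.M n : ℝ) ≤ (C.Q n : ℝ) * C.h n * (1 / 2 : ℝ) ^ n := by
    rw [div_pow, one_pow, mul_one_div, le_div_iff₀ (by positivity)]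
    exact h2
  have h4 : C.cw (n + 1) * C.M n ≤ C.am n * (1 / 2 : ℝ) ^ n := by
    refine (mul_le_mul_of_nonneg_left h3 (C.cw_pos _).le).trans (le_of_eq ?_)
    unfold am
    rw [← C.cw_succ n]
    ring
  have h5 := mul_le_mul_of_nonneg_left (Real.add_one_le_exp ((1 / 2 : ℝ) ^ n)) (C.am_pos n).le
  linarith

theorem am_le (n : ℕ) : C.am n ≤ C.am 0 * Real.exp 2 := by
  have h : ∀ n, C.am n ≤ C.am 0 * Real.exp (∑ i ∈ Finset.range n, (1 / 2 : ℝ) ^ i) := by
    intro n
    induction n with
    | zero => simp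
    | succ n ih =>
      rw [Finset.sum_range_succ, Real.exp_add, ← mul_assoc]
      exact (C.am_step n).trans (mul_le_mul_of_nonneg_right ih (Real.exp_pos _).le)
  exact (h n).trans (mul_le_mul_of_nonneg_left (Real.exp_le_exp.2 (sum_geometric_two_le n)) (C.am_pos 0).le)

/-- limiting mass -/
def Ltot : ℝ := ⨆ n, C.am n

theorem am_bdd : BddAbove (Set.range C.am) := ⟨C.am 0 * Real.exp 2, by
  rintro _ ⟨n, rfl⟩; exact C.am_le n⟩

theorem am_le_Ltot (n : ℕ) : C.am n ≤ C.Ltot := le_ciSup C.am_bdd n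

theorem Ltot_pos : 0 < C.Ltot := (C.am_pos 0).trans_le (C.am_le_Ltot 0)

/-- weight of a level -/
def wgt (n : ℕ) : ℝ := C.cw n / C.Ltot

theorem wgt_pos (n : ℕ) : 0 < C.wgt n := div_pos (C.cw_pos n) C.Ltot_pos

theorem wgt_succ (n : ℕ) : C.wgt (n + 1) * C.Q n = C.wgt n := by
  unfold wgt
  rw [div_mul_eq_mul_div, C.cw_succ]

theorem wgt_mul_h (n : ℕ) : C.wgt n * C.h n = C.am n / C.Ltot := by
  unfold wgt am; ring

theorem wgt_le (n : ℕ) : C.wgt n * C.h n ≤ 1 := by
  rw [C.wgt_mul_h, div_le_one C.Ltot_pos]; exact C.am_le_Ltot n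

theorem wgt_lim : Tendsto (fun n => C.wgt n * C.h n) atTop (𝓝 1) := by
  simp only [C.wgt_mul_h]
  have h : Tendsto (fun n => C.am n / C.Ltot) atTop (𝓝 (C.Ltot / C.Ltot)) :=
    (tendsto_atTop_ciSup C.am_mono C.am_bdd).div_const C.Ltot
  rwa [div_self C.Ltot_pos.ne'] at h

theorem wgt_tendsto : Tendsto C.wgt atTop (𝓝 0) := by
  refine squeeze_zero (fun n => (C.wgt_pos n).le) (fun n => ?_)
    (tendsto_pow_atTop_nhds_zero_of_lt_one (by norm_num) (by norm_num : (1 / 2 : ℝ) < 1))
  rw [div_pow, one_pow, le_div_iff₀ (by positivity)]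
  refine le_trans (mul_le_mul_of_nonneg_left ?_ (C.wgt_pos n).le) (C.wgt_le n)
  exact_mod_cast C.pow_le_h n

/-- states of level `n`: a position at least `h n` is the rest -/
abbrev Y (n : ℕ) : Type := ℕ × Tor (C.D n)

/-- the rest state -/
def rest (n : ℕ) : C.Y n := (C.h n, 0)

/-- a state as an option -/
def st (n : ℕ) (y : C.Y n) : Option (ℕ × Tor (C.D n)) := if y.1 < C.h n then some y else none

/-- state map between consecutive levels -/
def dp (n : ℕ) (y : C.Y (n + 1)) : C.Y n :=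
  match visit (C.h n) (C.Q n) (C.o n y.2) y.1 with
  | none => C.rest n
  | some (s, p) => (p, C.z n s y.2)

theorem dp_lt {n : ℕ} {y : C.Y (n + 1)} (hy : (C.dp n y).1 < C.h n) :
    ∃ s p, visit (C.h n) (C.Q n) (C.o n y.2) y.1 = some (s, p) ∧ C.dp n y = (p, C.z n s y.2) := by
  unfold dp at hy ⊢
  match hv : visit (C.h n) (C.Q n) (C.o n y.2) y.1 with
  | none => simp only [hv, rest, lt_self_iff_false] at hy
  | some (s, p) => exact ⟨s, p, rfl, by simp only⟩

theorem visit_pos_lt {n : ℕ} {y : C.Y (n + 1)} {s p : ℕ}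
    (hv : visit (C.h n) (C.Q n) (C.o n y.2) y.1 = some (s, p)) :
    y.1 < C.h (n + 1) ∧ p ≤ y.1 ∧ p < C.h n ∧ y.1 + C.h n ≤ C.h (n + 1) + p := by
  obtain ⟨hs, hp, he⟩ := (visit_some_iff (C.h_pos' n)).1 hv
  have h1 : s * C.h n + C.h n ≤ C.Q n * C.h n := by
    have := Nat.mul_le_mul_right (C.h n) (show s + 1 ≤ C.Q n from hs)
    rw [Nat.add_mul, Nat.one_mul] at this
    exact this
  have h2 := C.h_succ n
  have h3 := C.o_le n y.2
  exact ⟨by omega, by omega, hp, by omega⟩

theorem st_dp (n : ℕ) (y : C.Y (n + 1)) : C.st n (C.dp n y) = C.pi n (C.st (n + 1) y) := by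
  obtain ⟨P, ω⟩ := y
  match hv : visit (C.h n) (C.Q n) (C.o n ω) P with
  | none =>
    by_cases h : P < C.h (n + 1) <;> simp [st, dp, Chain.pi, rest, hv, h]
  | some (s, p) =>
    obtain ⟨h1, -, h3, -⟩ := C.visit_pos_lt (y := (P, ω)) hv
    simp [st, dp, Chain.pi, hv, show P < C.h (n + 1) from h1, h3]

theorem measurable_dp (n : ℕ) : Measurable (C.dp n) := by
  refine measurable_from_prod_countable_right fun P => ?_
  have h : (fun ω => C.dp n (P, ω))
      = (fun q : ℕ × Tor (C.D (n + 1)) => match visit (C.h n) (C.Q n) q.1 P with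
          | none => C.rest n
          | some (s, p) => (p, C.z n s q.2)) ∘ fun ω => (C.o n ω, ω) := rfl
  rw [h]
  refine Measurable.comp ?_ ((C.o_meas n).prodMk measurable_id)
  refine measurable_from_prod_countable_right fun o => ?_
  dsimp only
  match hv : visit (C.h n) (C.Q n) o P with
  | none => simp only; exact measurable_const
  | some (s, p) => simp only; exact measurable_const.prodMk ((C.z_mp n s).measurable.comp measurable_id)

/-- mass of the rest -/
def out (n : ℕ) : ℝ := 1 - C.wgt n * C.h n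

theorem out_nonneg (n : ℕ) : 0 ≤ C.out n := sub_nonneg.2 (C.wgt_le n)

theorem out_tendsto : Tendsto C.out atTop (𝓝 0) := by
  have := C.wgt_lim.const_sub 1
  rwa [sub_self] at this

/-- law of the state of level `n` -/
def mu (n : ℕ) : Measure (C.Y n) :=
  ENNReal.ofReal (C.wgt n) • ∑ p ∈ Finset.range (C.h n), (volume : Measure (Tor (C.D n))).map (Prod.mk p)
    + ENNReal.ofReal (C.out n) • Measure.dirac (C.rest n)

theorem lintegral_mu (n : ℕ) {f : C.Y n → ℝ≥0∞} (hf : Measurable f) :
    ∫⁻ y, f y ∂C.mu n = ENNReal.ofReal (C.wgt n) * (∑ p ∈ Finset.range (C.h n), ∫⁻ z, f (p, z))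
      + ENNReal.ofReal (C.out n) * f (C.rest n) := by
  rw [mu, lintegral_add_measure, lintegral_smul_measure, lintegral_smul_measure,
    lintegral_finsetSum_measure, lintegral_dirac' _ hf, smul_eq_mul, smul_eq_mul]
  congr 2
  exact Finset.sum_congr rfl fun p _ => lintegral_map hf measurable_prodMk_left

instance instIsProbabilityMu (n : ℕ) : IsProbabilityMeasure (C.mu n) := by
  constructor
  have h := C.lintegral_mu n (f := fun _ => 1) measurable_const
  simp only [lintegral_const, one_mul, measure_univ, Finset.sum_const, Finset.card_range, nsmul_eq_mul,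
    mul_one] at h
  rw [h, ← ENNReal.ofReal_natCast, ← ENNReal.ofReal_mul (C.wgt_pos n).le,
    ← ENNReal.ofReal_add (mul_nonneg (C.wgt_pos n).le (Nat.cast_nonneg _)) (C.out_nonneg n)]
  simp [out]

theorem map_dp (n : ℕ) : (C.mu (n + 1)).map (C.dp n) = C.mu n := by
  refine Measure.ext_of_lintegral _ fun f hf => ?_
  rw [lintegral_map hf (C.measurable_dp n),
    C.lintegral_mu (n + 1) (show Measurable fun y => f (C.dp n y) from hf.comp (C.measurable_dp n)),
    C.lintegral_mu n hf]
  have hrest : C.dp n (C.rest (n + 1)) = C.rest n := by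
    unfold dp rest
    rw [visit, if_neg]
    have h1 := C.h_succ n
    have h2 := C.o_le n (0 : Tor (C.D (n + 1)))
    rintro ⟨-, hlt⟩
    dsimp only at hlt
    omega
  rw [hrest]
  have hmeas : ∀ P, Measurable fun ω => f (C.dp n (P, ω)) := fun P =>
    hf.comp ((C.measurable_dp n).comp measurable_prodMk_left)
  rw [← lintegral_finsetSum _ fun P _ => hmeas P]
  have hpt : ∀ ω, ∑ P ∈ Finset.range (C.h (n + 1)), f (C.dp n (P, ω))
      = (∑ s ∈ Finset.range (C.Q n), ∑ p ∈ Finset.range (C.h n), f (p, C.z n s ω))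
        + (C.M n : ℝ≥0∞) * f (C.rest n) := fun ω => by
    rw [C.h_succ]
    refine (Finset.sum_congr rfl fun P _ => ?_).trans
      (sum_visit (fun v => match v with | none => f (C.rest n) | some (s, p) => f (p, C.z n s ω))
        (C.h_pos' n) (C.o_le n ω))
    unfold dp
    dsimp only
    match hv : visit (C.h n) (C.Q n) (C.o n ω) P with
    | none => simp only
    | some (s, p) => simp only
  simp only [hpt]
  have hm2 : ∀ s p, Measurable fun ω => f (p, C.z n s ω) := fun s p =>
    hf.comp (measurable_const.prodMk (C.z_mp n s).measurable)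
  rw [lintegral_add_right _ measurable_const, lintegral_const, measure_univ, mul_one,
    lintegral_finsetSum _ fun s _ => Finset.measurable_sum _ fun p _ => hm2 s p]
  have hs : ∀ s, ∫⁻ ω, ∑ p ∈ Finset.range (C.h n), f (p, C.z n s ω)
      = ∑ p ∈ Finset.range (C.h n), ∫⁻ z, f (p, z) := fun s => by
    rw [lintegral_finsetSum _ fun p _ => hm2 s p]
    exact Finset.sum_congr rfl fun p _ =>
      (C.z_mp n s).lintegral_comp (hf.comp measurable_prodMk_left)
  simp only [hs, Finset.sum_const, Finset.card_range, nsmul_eq_mul]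
  have e1 : ENNReal.ofReal (C.wgt n) = ENNReal.ofReal (C.wgt (n + 1)) * (C.Q n : ℝ≥0∞) := by
    rw [← C.wgt_succ n, ENNReal.ofReal_mul (C.wgt_pos _).le, ENNReal.ofReal_natCast]
  have e2 : ENNReal.ofReal (C.out n)
      = ENNReal.ofReal (C.wgt (n + 1)) * (C.M n : ℝ≥0∞) + ENNReal.ofReal (C.out (n + 1)) := by
    rw [← ENNReal.ofReal_natCast, ← ENNReal.ofReal_mul (C.wgt_pos _).le,
      ← ENNReal.ofReal_add (mul_nonneg (C.wgt_pos _).le (Nat.cast_nonneg _)) (C.out_nonneg _)]
    congr 1
    unfold out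
    rw [C.h_succ, ← C.wgt_succ n]
    push_cast
    ring
  rw [e1, e2]
  ring

theorem integral_mu (n : ℕ) {g : C.Y n → ℂ} (hg : Measurable g) (hb : ∀ p, ∃ c, ∀ z, ‖g (p, z)‖ ≤ c)
    (hrest : g (C.rest n) = 0) :
    ∫ y, g y ∂C.mu n = (C.wgt n : ℂ) * ∑ p ∈ Finset.range (C.h n), ∫ z, g (p, z) := by
  have hi : ∀ p ∈ Finset.range (C.h n),
      Integrable g ((volume : Measure (Tor (C.D n))).map (Prod.mk p)) := fun p _ => by
    rw [integrable_map_measure hg.aestronglyMeasurable measurable_prodMk_left.aemeasurable]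
    obtain ⟨c, hc⟩ := hb p
    exact Integrable.of_bound (hg.comp measurable_prodMk_left).aestronglyMeasurable c
      (Eventually.of_forall hc)
  have h1 : Integrable g (∑ p ∈ Finset.range (C.h n), (volume : Measure (Tor (C.D n))).map (Prod.mk p)) :=
    integrable_finsetSum_measure.2 hi
  have h2 : Integrable g (Measure.dirac (C.rest n)) := integrable_dirac (by simp)
  rw [mu, integral_add_measure (h1.smul_measure ENNReal.ofReal_ne_top) (h2.smul_measure ENNReal.ofReal_ne_top),
    integral_smul_measure, integral_smul_measure, integral_finsetSum_measure hi, integral_dirac, hrest,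
    smul_zero, add_zero, ENNReal.toReal_ofReal (C.wgt_pos n).le, Complex.real_smul]
  congr 1
  exact Finset.sum_congr rfl fun p _ =>
    integral_map measurable_prodMk_left.aemeasurable hg.aestronglyMeasurable

theorem mu_outside (n : ℕ) : C.mu n {y | C.h n ≤ y.1} ≤ ENNReal.ofReal (C.out n) := by
  have hS : MeasurableSet {y : C.Y n | C.h n ≤ y.1} :=
    measurableSet_le measurable_const measurable_fst
  rw [← lintegral_indicator_one hS, C.lintegral_mu n (measurable_one.indicator hS)]
  rw [Finset.sum_eq_zero, mul_zero, zero_add]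
  · refine mul_le_of_le_one_right zero_le ?_
    rw [Set.indicator_apply]
    split_ifs <;> simp
  · intro p hp
    rw [Finset.mem_range] at hp
    simp [Nat.not_le.2 hp]

end Chain

end

end Vale.Agent.P130.Full
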