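import Vale.Agent.P130.Full.Basics
import Vale.Agent.P130.L1Fourier

/-! The chain of the construction and the approximate spectral maps. -/

namespace Vale.Agent.P130.Full

open MeasureTheory Filter Topology Set UnitAddTorus
open Vale.Agent.P130 Vale.Agent.P130.Sol
open scoped ENNReal ComplexConjugate InnerProductSpace

noncomputable section

variable (hE : EncodingStatement) (hS : StepStatement)

/-- step error at stage `n` -/
def del (n : ℕ) : ℝ := dlt n (stage hE n).kmax

/-- step parameter at stage `n` -/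
def epsS (n : ℕ) : ℝ := epsn n (stage hE n).kmax

theorem epsS_pos (n : ℕ) : 0 < epsS hE n := epsn_pos _ _ (stage hE n).kmax_pos

theorem epsS_le_one (n : ℕ) : epsS hE n ≤ 1 := epsn_le_one _ _

/-- step data at stage `n` -/
def sdata (n : ℕ) : StepData (epsS hE n) where
  D := (stage hE n).D
  h := (stage hE n).h
  C := (stage hE n).C
  B := (stage hE n).B
  N := 2 ^ (nxt hE n).L.i
  M := 2 ^ (stage hE n).j
  e := (nxt hE n).L.i * (stage hE n).D + (stage hE n).j
  E := (nxt hE n).L.E
  lab := (nxt hE n).L.lab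
  he := (nxt hE n).L.he
  C' := (nxt hE n).C
  h_pos := (stage hE n).h_pos
  good := (stage hE n).good
  box_vec := (stage hE n).box_vec
  N_big := (nxt hE n).L.N_big
  N_err := (nxt hE n).L.N_err
  M_big := (stage hE n).M_big
  M_small := le_trans (Nat.le_mul_of_pos_right _ (pow_pos two_pos n)) (stage hE n).M_small
  good' := by
    have g := (nxt hE n).good
    have hk : (1:ℝ) ≤ (nxt hE n).C.k := Nat.one_le_cast.2 g.k_pos
    have hle : epsn (n + 1) (max (stage hE n).kmax (nxt hE n).C.k) / (nxt hE n).C.k ≤ 1 := by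
      rw [div_le_one (by linarith)]
      exact (epsn_le_one _ _).trans hk
    exact ⟨g.k_pos, g.Q_pos, g.inj, g.ne_zero, g.meas, fun x => (g.mu x).trans hle, fun x => (g.flat x).trans hle⟩
  range' := (nxt hE n).range_vec

include hS in
theorem z_mp (n s : ℕ) : MeasurePreserving ((nxt hE n).L.z s) volume volume :=
  (hS _ (epsS_pos hE n) (epsS_le_one hE n) (sdata hE n)).1 s

/-- the chain of the construction -/
@[reducible] def chain : Chain where
  D n := (stage hE n).D
  h n := (stage hE n).h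
  Q n := (stage hE n).C.Q
  M n := 2 ^ (stage hE n).j
  o n := (nxt hE n).L.o
  z n := (nxt hE n).L.z
  h_pos := (stage hE 0).h_pos
  Q_two n := (stage hE n).Q_two
  h_succ _ := rfl
  M_small n := (stage hE n).M_small
  o_meas n := (nxt hE n).L.measurable_o
  o_le _ ω := Nat.le_of_lt (Fin.isLt _)
  z_mp := z_mp hE hS

/-- colours of stage `n` -/
abbrev Cl (n : ℕ) : Colours ((chain hE hS).D n) := (stage hE n).C

/-- number of colours -/
abbrev kk (n : ℕ) : ℕ := (stage hE n).C.k

theorem kk_le_kmax (n : ℕ) : kk hE n ≤ (stage hE n).kmax := (stage hE n).k_le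

theorem kmax_mono : Monotone fun n => (stage hE n).kmax := monotone_nat_of_le_succ fun _n => le_max_left _ _

variable {hE hS} (R : Realisation (chain hE hS))

/-- index of coloured modes -/
abbrev II (n : ℕ) : Type := Fin ((chain hE hS).h n) × Fin (kk hE n)

/-- coloured mode -/
def em (n : ℕ) (i : II (hE := hE) (hS := hS) n) : HR R := md R n i.1 ((Cl hE hS n).vec i.2)

theorem orthonormal_em (n : ℕ) : Orthonormal ℂ (em R n) :=
  orthonormal_md R n _ _ (fun i => i.1.isLt) fun a b h => by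
    simp only [Prod.mk.injEq] at h
    exact Prod.ext (Fin.ext h.1) ((stage hE n).good.inj h.2)

/-- projection on coloured modes -/
def PP' (n : ℕ) (f : HR R) : HR R := ∑ i, ⟪em R n i, f⟫_ℂ • em R n i

theorem norm_sub_PP (n : ℕ) (f : HR R) :
    ‖f - PP' R n f‖ ^ 2 = ‖f‖ ^ 2 - ∑ i, ‖⟪em R n i, f⟫_ℂ‖ ^ 2 :=
  ons_split (orthonormal_em R n) f

theorem inner_em_PP (n : ℕ) (f : HR R) (i : II (hE := hE) (hS := hS) n) :
    ⟪em R n i, PP' R n f⟫_ℂ = ⟪em R n i, f⟫_ℂ :=
  (orthonormal_em R n).inner_right_fintype _ i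

theorem norm_PP_le (n : ℕ) (f : HR R) : ‖PP' R n f‖ ≤ ‖f‖ := by
  have h := norm_sub_PP R n (PP' R n f)
  simp only [inner_em_PP] at h
  have h0 : PP' R n (PP' R n f) = PP' R n f := by simp only [PP'] at *; exact Finset.sum_congr rfl fun i _ => by rw [(orthonormal_em R n).inner_right_fintype]
  rw [h0, sub_self, norm_zero] at h
  have h2 := (orthonormal_em R n).sum_inner_products_le f (s := Finset.univ)
  nlinarith [norm_nonneg (PP' R n f), norm_nonneg f]

theorem PP_sub (n : ℕ) (f g : HR R) : PP' R n (f - g) = PP' R n f - PP' R n g := by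
  simp [PP', inner_sub_right, sub_smul, Finset.sum_sub_distrib]

/-- accumulated phase adjustment -/
def gamS (hS : StepStatement) (hE : EncodingStatement) : ℕ → UnitAddCircle → ℂ
  | 0 => fun _ => 1
  | n + 1 => fun θ => gamS hS hE n θ * (hS _ (epsS_pos hE n) (epsS_le_one hE n) (sdata hE n)).2.2.choose θ

theorem gamS_spec (n : ℕ) : Measurable (gamS hS hE n) ∧ ∀ θ, ‖gamS hS hE n θ‖ = 1 := by
  induction n with
  | zero => exact ⟨measurable_const, fun θ => norm_one⟩
  | succ n ih =>
    have h := (hS _ (epsS_pos hE n) (epsS_le_one hE n) (sdata hE n)).2.2.choose_spec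
    exact ⟨ih.1.mul h.1, fun θ => by
      show ‖gamS hS hE n θ * _‖ = 1
      rw [norm_mul, ih.2, h.2.1, one_mul]⟩

/-- spectral image of a single coloured mode -/
def bfun (n : ℕ) (i : II (hE := hE) (hS := hS) n) (θ : UnitAddCircle) : ℂ :=
  gamS hS hE n θ * (fourier ((i.1 : ℕ) : ℤ) θ
    * ((Real.sqrt (kk hE n) * ind ((Cl hE hS n).col ((chain hE hS).h n • θ) = i.2) : ℝ) : ℂ))

theorem measurable_bfun (n : ℕ) (i : II (hE := hE) (hS := hS) n) : Measurable (bfun n i) := by
  refine (gamS_spec n).1.mul ((fourier _).continuous.measurable.mul (Complex.measurable_ofReal.comp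
    (Measurable.const_mul ?_ _)))
  simp only [ind]
  exact Measurable.ite (((stage hE n).good.meas.comp (continuous_nsmul _).measurable) (measurableSet_singleton i.2))
    measurable_const measurable_const

theorem norm_bfun (n : ℕ) (i : II (hE := hE) (hS := hS) n) (θ : UnitAddCircle) :
    ‖bfun n i θ‖ = Real.sqrt (kk hE n) * ind ((Cl hE hS n).col ((chain hE hS).h n • θ) = i.2) := by
  simp only [bfun, norm_mul, (gamS_spec n).2 θ, norm_fourier_apply, one_mul, Complex.norm_real, Real.norm_eq_abs]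
  rw [abs_of_nonneg (Real.sqrt_nonneg _), abs_of_nonneg (ind_nonneg _)]

theorem memLp_bfun (n : ℕ) (i : II (hE := hE) (hS := hS) n) : MemLp (bfun n i) 2 hm :=
  MemLp.of_bound (measurable_bfun n i).aestronglyMeasurable (Real.sqrt (kk hE n)) (Eventually.of_forall fun θ => by
    rw [norm_bfun]
    exact mul_le_of_le_one_right (Real.sqrt_nonneg _) (ind_le_one _))

/-- spectral image of a single coloured mode in `L²` -/
def bb (n : ℕ) (i : II (hE := hE) (hS := hS) n) : Lp ℂ 2 hm := (memLp_bfun n i).toLp _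

/-- colour measure -/
def muS (hE : EncodingStatement) (n : ℕ) (x : Fin (kk hE n)) : ℝ :=
  (kk hE n : ℝ) * ∫ y, ind ((stage hE n).C.col y = x) ∂hm

theorem inner_bb (n : ℕ) (i j : II (hE := hE) (hS := hS) n) :
    ⟪bb n i, bb n j⟫_ℂ = if i = j then (muS hE n i.2 : ℂ) else 0 := by
  rw [L2.inner_def]
  have e : (fun θ => ⟪(bb n i : UnitAddCircle → ℂ) θ, (bb n j : UnitAddCircle → ℂ) θ⟫_ℂ) =ᵐ[hm] fun θ =>
      (fun y => (((kk hE n : ℝ) * (ind ((Cl hE hS n).col y = i.2) * ind ((Cl hE hS n).col y = j.2)) : ℝ) : ℂ))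
        ((chain hE hS).h n • θ) * fourier (((j.1 : ℕ) : ℤ) - (i.1 : ℕ)) θ := by
    filter_upwards [(memLp_bfun n i).coeFn_toLp, (memLp_bfun n j).coeFn_toLp] with θ h1 h2
    rw [bb, bb, h1, h2, RCLike.inner_apply', bfun, bfun, map_mul, map_mul, Complex.conj_ofReal, ← fourier_neg]
    have hg : conj (gamS hS hE n θ) * gamS hS hE n θ = 1 := by
      rw [Complex.conj_mul', (gamS_spec n).2 θ]; simp
    have hk : (kk hE n : ℝ) = Real.sqrt (kk hE n) * Real.sqrt (kk hE n) :=
      (Real.mul_self_sqrt (Nat.cast_nonneg _)).symm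
    have hf : fourier (((j.1 : ℕ) : ℤ) - (i.1 : ℕ)) θ = fourier (-((i.1 : ℕ) : ℤ)) θ * fourier ((j.1 : ℕ) : ℤ) θ := by
      rw [← fourier_add]; ring_nf
    rw [hf]
    conv_rhs => rw [hk]
    push_cast
    linear_combination (fourier (-((i.1 : ℕ) : ℤ)) θ * fourier ((j.1 : ℕ) : ℤ) θ * (Real.sqrt (kk hE n) : ℂ)
      * (Real.sqrt (kk hE n) : ℂ) * (ind ((Cl hE hS n).col ((chain hE hS).h n • θ) = i.2) : ℂ)
      * (ind ((Cl hE hS n).col ((chain hE hS).h n • θ) = j.2) : ℂ)) * hg
  rw [integral_congr_ae e]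
  have hint : Integrable (fun y => (((kk hE n : ℝ)
      * (ind ((Cl hE hS n).col y = i.2) * ind ((Cl hE hS n).col y = j.2)) : ℝ) : ℂ)) hm := by
    have hmI : ∀ x, Measurable fun y => ind ((Cl hE hS n).col y = x) := fun x => by
      simp only [ind]
      exact Measurable.ite ((stage hE n).good.meas (measurableSet_singleton x)) measurable_const measurable_const
    refine Integrable.of_bound (Complex.measurable_ofReal.comp (((hmI _).mul (hmI _)).const_mul _)).aestronglyMeasurable
      (kk hE n) (Eventually.of_forall fun y => ?_)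
    rw [Complex.norm_real, Real.norm_eq_abs, abs_mul, Nat.abs_cast]
    exact mul_le_of_le_one_right (Nat.cast_nonneg _)
      (by rw [abs_mul]; exact mul_le_one₀ (abs_ind _) (abs_nonneg _) (abs_ind _))
  have hh : 0 < (chain hE hS).h n := (stage hE n).h_pos
  rw [integral_fast_pair _ hh hint _ _ j.1.isLt i.1.isLt]
  by_cases h : i = j
  · subst h
    simp only [if_pos]
    rw [integral_complex_ofReal, integral_const_mul, muS]
    congr 2
    refine integral_congr_ae (Eventually.of_forall fun y => ?_)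
    simp [ind]
  · rw [if_neg h]
    split_ifs with h1
    · have hx : i.2 ≠ j.2 := fun e => h (Prod.ext (Fin.ext h1.symm) e)
      have : ∀ y, ind ((Cl hE hS n).col y = i.2) * ind ((Cl hE hS n).col y = j.2) = 0 := fun y => by
        simp only [ind]
        split_ifs with a b <;> simp_all
      simp [this]
    · rfl

theorem muS_bounds (n : ℕ) (x : Fin (kk hE n)) : |muS hE n x - 1| ≤ epsS hE n :=
  ((stage hE n).good.mu x).trans (div_le_self (epsS_pos hE n).le (by exact_mod_cast (stage hE n).good.k_pos))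

/-- approximate spectral map -/
def Un (n : ℕ) (f : HR R) : Lp ℂ 2 hm := ∑ i, ⟪em R n i, f⟫_ℂ • bb n i

theorem Un_sub (n : ℕ) (f g : HR R) : Un R n (f - g) = Un R n f - Un R n g := by
  simp [Un, inner_sub_right, sub_smul, Finset.sum_sub_distrib]

theorem Un_add (n : ℕ) (f g : HR R) : Un R n (f + g) = Un R n f + Un R n g := by
  simp [Un, inner_add_right, add_smul, Finset.sum_add_distrib]

theorem Un_smul (n : ℕ) (c : ℂ) (f : HR R) : Un R n (c • f) = c • Un R n f := by
  simp [Un, inner_smul_right, mul_smul, Finset.smul_sum]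

theorem Un_PP (n : ℕ) (f : HR R) : Un R n (PP' R n f) = Un R n f := by
  simp only [Un, inner_em_PP]

theorem norm_Un_sq (n : ℕ) (f : HR R) :
    ‖Un R n f‖ ^ 2 = ∑ i, muS hE n i.2 * ‖⟪em R n i, f⟫_ℂ‖ ^ 2 := by
  have h : ⟪Un R n f, Un R n f⟫_ℂ = ∑ i, ((muS hE n i.2 * ‖⟪em R n i, f⟫_ℂ‖ ^ 2 : ℝ) : ℂ) := by
    rw [Un, sum_inner]
    refine Finset.sum_congr rfl fun i _ => ?_
    rw [inner_sum, Finset.sum_eq_single i]
    · rw [inner_smul_left, inner_smul_right, inner_bb, if_pos rfl, ← mul_assoc, Complex.conj_mul']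
      push_cast; ring
    · intro j _ hj
      rw [inner_smul_left, inner_smul_right, inner_bb, if_neg (Ne.symm hj), mul_zero, mul_zero]
    · simp
  rw [inner_self_eq_norm_sq_to_K, ← Complex.ofReal_sum] at h
  exact Complex.ofReal_injective (by simpa using h)

theorem norm_Un_le (n : ℕ) (f : HR R) : ‖Un R n f‖ ≤ 2 * ‖f‖ := by
  refine le_of_pow_le_pow_left₀ two_ne_zero (by positivity) ?_
  rw [norm_Un_sq, mul_pow]
  have h2 := (orthonormal_em R n).sum_inner_products_le f (s := Finset.univ)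
  have h3 : ∀ i : II (hE := hE) (hS := hS) n, muS hE n i.2 * ‖⟪em R n i, f⟫_ℂ‖ ^ 2 ≤ 2 * ‖⟪em R n i, f⟫_ℂ‖ ^ 2 :=
    fun i => mul_le_mul_of_nonneg_right (by linarith [(abs_le.1 (muS_bounds n i.2)).2, epsS_le_one hE n]) (sq_nonneg _)
  refine (Finset.sum_le_sum fun i _ => h3 i).trans ?_
  rw [← Finset.mul_sum]
  nlinarith [sq_nonneg ‖f‖]

end

end Vale.Agent.P130.Full
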