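import Vale.Agent.P130.Full.Defs

/-! One step of the construction: coloured modes of a tower are carried into coloured modes of the next one. -/

namespace Vale.Agent.P130.Full

open MeasureTheory Filter Topology Set UnitAddTorus
open Vale.Agent.P130 Vale.Agent.P130.Sol
open scoped ENNReal ComplexConjugate Real

noncomputable section

namespace Stp

/-- product Haar measure on a torus -/
abbrev tv (D : ℕ) : Measure (Tor D) := Measure.pi fun _ => hm

theorem vol_eq_tv (D : ℕ) : (volume : Measure (Tor D)) = tv D := by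
  rw [volume_pi, tv, hm_eq_volume]

theorem coeff_tv {D : ℕ} (f : Tor D → ℂ) (n : Fin D → ℤ) :
    mFourierCoeff f n = ∫ t, mFourier (-n) t * f t ∂(tv D) := rfl

theorem bessel_tv {D : ℕ} (S : Finset (Fin D → ℤ)) (f : Tor D → ℂ) (hf : Measurable f) {c : ℝ}
    (hc : ∀ t, ‖f t‖ ≤ c) :
    ∑ z ∈ S, ‖mFourierCoeff f z‖ ^ 2 ≤ ∫ t, ‖f t‖ ^ 2 ∂(tv D) := by
  have hL : MemLp f 2 (tv D) := MemLp.of_bound hf.aestronglyMeasurable c (Eventually.of_forall hc)
  set F := hL.toLp f with hF
  have h1 : ∀ z, mFourierCoeff F z = mFourierCoeff f z := fun z => by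
    rw [coeff_tv, coeff_tv]
    refine integral_congr_ae ?_
    filter_upwards [hL.coeFn_toLp] with t ht
    rw [ht]
  have h2 : ∫ t, ‖(F : Tor D → ℂ) t‖ ^ 2 ∂(tv D) = ∫ t, ‖f t‖ ^ 2 ∂(tv D) := by
    refine integral_congr_ae ?_
    filter_upwards [hL.coeFn_toLp] with t ht
    rw [ht]
  calc ∑ z ∈ S, ‖mFourierCoeff f z‖ ^ 2 = ∑ z ∈ S, ‖mFourierCoeff F z‖ ^ 2 := by simp only [h1]
    _ ≤ ∫ t, ‖(F : Tor D → ℂ) t‖ ^ 2 ∂(tv D) :=
        sum_le_hasSum S (fun z _ => by positivity) (hasSum_sq_mFourierCoeff (F : _))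
    _ = _ := h2

theorem integrable_mul_mFourier {D : ℕ} {f : Tor D → ℂ} (hf : Measurable f) {c : ℝ} (hc : ∀ t, ‖f t‖ ≤ c)
    (n : Fin D → ℤ) : Integrable (fun t => mFourier n t * f t) (tv D) := by
  refine Integrable.of_bound ((mFourier n).continuous.measurable.mul hf).aestronglyMeasurable c
    (Eventually.of_forall fun t => ?_)
  rw [norm_mul]
  refine (mul_le_of_le_one_left (norm_nonneg _) ?_).trans (hc t)
  exact ((mFourier n).norm_coe_le_norm t).trans_eq mFourier_norm

theorem coeff_sub {D : ℕ} {f g : Tor D → ℂ} (hf : Measurable f) (hg : Measurable g) {c d : ℝ}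
    (hc : ∀ t, ‖f t‖ ≤ c) (hd : ∀ t, ‖g t‖ ≤ d) (n : Fin D → ℤ) :
    mFourierCoeff (fun t => f t - g t) n = mFourierCoeff f n - mFourierCoeff g n := by
  simp only [coeff_tv, mul_sub]
  exact integral_sub (integrable_mul_mFourier hf hc _) (integrable_mul_mFourier hg hd _)

theorem coeff_const {D : ℕ} (c : ℂ) (n : Fin D → ℤ) (hn : n ≠ 0) :
    mFourierCoeff (fun _ : Tor D => c) n = 0 := by
  obtain ⟨i, hi⟩ := Function.ne_iff.1 hn
  rw [coeff_tv, integral_mul_const]
  have h : ∫ t, mFourier (-n) t ∂(tv D) = ∏ j, ∫ x, fourier ((-n) j) x ∂hm :=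
    integral_fintype_prod_eq_prod (fun j x => fourier ((-n) j) x)
  rw [h, Finset.prod_eq_zero (Finset.mem_univ i), zero_mul]
  rw [integral_fourier, if_neg]
  simpa using hi

theorem mFourier_arg_add {D : ℕ} (n : Fin D → ℤ) (x y : Tor D) :
    mFourier n (x + y) = mFourier n x * mFourier n y := by
  show ∏ i, fourier (n i) (x i + y i) = (∏ i, fourier (n i) (x i)) * ∏ i, fourier (n i) (y i)
  simp only [fourier_arg_add, Finset.prod_mul_distrib]

theorem mFourier_coe {D : ℕ} (n : Fin D → ℤ) (t : Fin D → ℝ) :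
    mFourier n (fun i => (t i : UnitAddCircle)) = er (∑ i, (n i : ℝ) * t i) := by
  show ∏ i, fourier (n i) (t i : UnitAddCircle) = _
  simp only [fourier_coe_er]
  generalize (Finset.univ : Finset (Fin D)) = S
  induction S using Finset.induction with
  | empty => simp [er]
  | insert a S ha ih => rw [Finset.prod_insert ha, Finset.sum_insert ha, ih, er_add]

theorem norm_mFourier_apply {D : ℕ} (n : Fin D → ℤ) (x : Tor D) : ‖mFourier n x‖ = 1 := by
  show ‖∏ i, fourier (n i) (x i)‖ = 1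
  simp [norm_prod, norm_fourier_apply, -fourier_apply]

theorem norm_mFourier_coe_sub_one {D : ℕ} (n : Fin D → ℤ) (t : Fin D → ℝ) :
    ‖mFourier n (fun i => (t i : UnitAddCircle)) - 1‖ ≤ 2 * π * ∑ i, |(n i : ℝ)| * |t i| := by
  rw [mFourier_coe, er, mul_comm ((2 * π * _ : ℝ) : ℂ) Complex.I]
  refine Real.norm_exp_I_mul_ofReal_sub_one_le.trans ?_
  rw [Real.norm_eq_abs, abs_mul, abs_of_pos (by positivity : 0 < 2 * π)]
  refine mul_le_mul_of_nonneg_left ((Finset.abs_sum_le_sum_abs _ _).trans_eq ?_) (by positivity)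
  simp only [abs_mul]

/-! ### The slot coordinates preserve measure -/

theorem isProb_unif {q : ℕ} (hq : 0 < q) : IsProbabilityMeasure (unif q) := by
  constructor
  rw [unif, Measure.smul_apply, Measure.count_apply_finite _ Set.finite_univ, smul_eq_mul]
  simp only [Set.Finite.toFinset_univ, Finset.card_univ, Fintype.card_fin]
  exact ENNReal.inv_mul_cancel (by exact_mod_cast hq.ne') (ENNReal.natCast_ne_top q)

instance isFinite_unif (q : ℕ) : IsFiniteMeasure (unif q) := by
  rcases Nat.eq_zero_or_pos q with rfl | hq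
  · exact ⟨by rw [Set.univ_eq_empty_iff.2 inferInstance, measure_empty]; exact ENNReal.zero_lt_top⟩
  · have := isProb_unif hq
    infer_instance

theorem unif_singleton {q : ℕ} (a : Fin q) : unif q {a} = (q : ℝ≥0∞)⁻¹ := by
  rw [unif, Measure.smul_apply, Measure.count_singleton, smul_eq_mul, mul_one]

theorem cell_mp (N : ℕ) (hN : 0 < N) :
    MeasurePreserving (fun p : Fin N × UnitAddCircle =>
      ((((p.1 : ℕ) : ℝ) + rep p.2) / N : ℝ) : Fin N × UnitAddCircle → UnitAddCircle)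
      ((unif N).prod hm) hm := by
  classical
  have := isProb_unif hN
  have hN' : (N:ℝ) ≠ 0 := by exact_mod_cast hN.ne'
  set g : Fin N × UnitAddCircle → UnitAddCircle :=
    fun p => (((((p.1 : ℕ) : ℝ) + rep p.2) / N : ℝ) : UnitAddCircle) with hg
  have hgm : Measurable g :=
    AddCircle.measurable_mk'.comp (((measurable_of_countable fun j : Fin N => ((j : ℕ) : ℝ)).comp
      measurable_fst).add (measurable_rep.comp measurable_snd) |>.div_const _)
  set f : UnitAddCircle → Fin N × UnitAddCircle := fun x => (⟨cidx N x, cidx_lt N hN x⟩, N • x) with hf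
  have hfi : Measurable fun x => (⟨cidx N x, cidx_lt N hN x⟩ : Fin N) := by
    refine measurable_to_countable' fun j => ?_
    have : (fun x => (⟨cidx N x, cidx_lt N hN x⟩ : Fin N)) ⁻¹' {j} = cidx N ⁻¹' {(j : ℕ)} := by
      ext x; simp [Fin.ext_iff]
    rw [this]
    exact measurable_cidx N (measurableSet_singleton _)
  have hfm : Measurable f := hfi.prodMk (measurePreserving_mul N hN).measurable
  have hgf : ∀ x, g (f x) = x := by
    intro x
    simp only [hg, hf]
    have h1 : N • x = (((N:ℝ) * rep x : ℝ) : UnitAddCircle) := by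
      conv_lhs => rw [← coe_rep x, ← AddCircle.coe_nsmul, nsmul_eq_mul]
    have h2 : ((cidx N x : ℕ) : ℝ) = ((⌊(N:ℝ) * rep x⌋ : ℤ) : ℝ) := by
      rw [cidx]; exact natCast_floor_eq_intCast_floor (mul_nonneg (Nat.cast_nonneg _) (rep_nonneg x))
    rw [h1, rep_coe, h2, Int.floor_add_fract, mul_div_cancel_left₀ _ hN', coe_rep]
  have hfmp : Measure.map f hm = (unif N).prod hm := by
    refine (Measure.prod_eq fun s t hs ht => ?_).symm
    have hpre : f ⁻¹' (s ×ˢ t) = {x | (⟨cidx N x, cidx_lt N hN x⟩ : Fin N) ∈ s} ∩ (fun x => N • x) ⁻¹' t := rfl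
    rw [Measure.map_apply hfm (hs.prod ht), ← ENNReal.toReal_eq_toReal_iff' (measure_ne_top _ _)
      (ENNReal.mul_ne_top (measure_ne_top _ _) (measure_ne_top _ _)), ENNReal.toReal_mul]
    set A : ℕ → ℝ := fun j => if h : j < N then (if (⟨j, h⟩ : Fin N) ∈ s then 1 else 0) else 0 with hA
    have hint : Integrable (t.indicator fun _ => (1:ℝ)) hm := (integrable_const 1).indicator ht
    have key := integral_cell_mul_fast N N hN dvd_rfl A hint hN
    have hlhs : ∫ y, A (cidx N y) * t.indicator (fun _ => (1:ℝ)) (N • y) ∂hm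
        = (hm (f ⁻¹' (s ×ˢ t))).toReal := by
      have e : (fun y => A (cidx N y) * t.indicator (fun _ => (1:ℝ)) (N • y))
          = (f ⁻¹' (s ×ˢ t)).indicator fun _ => (1:ℝ) := by
        funext y
        simp only [hA, dif_pos (cidx_lt N hN y), hpre, Set.indicator, Set.mem_inter_iff, Set.mem_preimage,
          Set.mem_ofPred_eq]
        split_ifs <;> simp_all
      rw [e, integral_indicator_const _ (hfm (hs.prod ht)), smul_eq_mul, mul_one]
      rfl
    have hs' : (∑ j ∈ Finset.range N, A j) / N = (unif N s).toReal := by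
      rw [unif, Measure.smul_apply, Measure.count_apply_finite _ (Set.toFinite s), smul_eq_mul,
        ENNReal.toReal_mul, ENNReal.toReal_inv, ENNReal.toReal_natCast, ENNReal.toReal_natCast,
        ← Fin.sum_univ_eq_sum_range, inv_mul_eq_div]
      congr 1
      simp only [hA, Fin.is_lt, dite_true, Fin.eta, Finset.sum_boole, Nat.cast_inj]
      congr 1
      ext j; simp
    rw [hlhs, hs', integral_indicator_const _ ht, smul_eq_mul, mul_one] at key
    exact key
  refine ⟨hgm, ?_⟩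
  show Measure.map g ((unif N).prod hm) = hm
  rw [← hfmp, Measure.map_map hgm hfm, show g ∘ f = id from funext hgf, Measure.map_id]

theorem card_label {e D N M : ℕ} (lab : Fin (2 ^ e) ≃ (Fin D → Fin N) × Fin M) : N ^ D * M = 2 ^ e := by
  have h := Fintype.card_congr lab
  simpa using h.symm

theorem labV_mp {e D N M : ℕ} (lab : Fin (2 ^ e) ≃ (Fin D → Fin N) × Fin M) :
    MeasurePreserving (fun l => (lab l).1) (unif (2 ^ e)) (Measure.pi fun _ : Fin D => unif N) := by
  classical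
  have hc := card_label lab
  have hpos : 0 < 2 ^ e := Nat.two_pow_pos e
  have hND : 0 < N ^ D := Nat.pos_of_mul_pos_right (hc ▸ hpos)
  have hM : 0 < M := Nat.pos_of_mul_pos_left (hc ▸ hpos)
  rcases Nat.eq_zero_or_pos D with rfl | hD
  · have := isProb_unif hpos
    refine ⟨measurable_of_countable _, ?_⟩
    refine Measure.ext_of_singleton fun v => ?_
    have : Subsingleton (Fin 0 → Fin N) := inferInstance
    rw [Measure.map_apply (measurable_of_countable _) (measurableSet_singleton v),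
      Measure.pi_singleton]
    have : (fun l => (lab l).1) ⁻¹' {v} = Set.univ := Set.eq_univ_of_forall fun l => Subsingleton.elim _ _
    simp [this]
  have hN : 0 < N := Nat.pos_of_ne_zero fun h0 => by
    rw [h0, zero_pow hD.ne'] at hND; exact lt_irrefl 0 hND
  have := isProb_unif hN
  refine ⟨measurable_of_countable _, Measure.ext_of_singleton fun v => ?_⟩
  rw [Measure.map_apply (measurable_of_countable _) (measurableSet_singleton v), Measure.pi_singleton,
    unif, Measure.smul_apply, Measure.count_apply_finite _ (Set.toFinite _), smul_eq_mul]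
  have hcard : (Set.toFinite ((fun l => (lab l).1) ⁻¹' {v})).toFinset.card = M := by
    rw [show (Set.toFinite ((fun l => (lab l).1) ⁻¹' {v})).toFinset
        = (Finset.univ : Finset (Fin M)).image fun o => lab.symm (v, o) from ?_]
    · rw [Finset.card_image_of_injective _ fun a b h => (Prod.ext_iff.1 (lab.symm.injective h)).2,
        Finset.card_univ, Fintype.card_fin]
    · ext l
      simp only [Set.Finite.mem_toFinset, Set.mem_preimage, Set.mem_singleton_iff, Finset.mem_image,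
        Finset.mem_univ, true_and, Equiv.symm_apply_eq]
      exact ⟨fun h => ⟨(lab l).2, by rw [← h]⟩, fun ⟨o, ho⟩ => by rw [← ho]⟩
  rw [hcard]
  simp only [unif_singleton, Finset.prod_const, Finset.card_univ, Fintype.card_fin]
  rw [← hc, Nat.cast_mul, Nat.cast_pow, ENNReal.mul_inv (Or.inr (ENNReal.natCast_ne_top M))
    (Or.inl (ENNReal.pow_ne_top (ENNReal.natCast_ne_top N))), mul_assoc,
    ENNReal.inv_mul_cancel (by exact_mod_cast hM.ne') (ENNReal.natCast_ne_top M), mul_one, ENNReal.inv_pow]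

theorem proj_mp {D e : ℕ} (he : D ≤ e) :
    MeasurePreserving (fun (c : Tor e) (i : Fin D) => c (Fin.castLE he i)) (tv e) (tv D) := by
  classical
  have hm' : Measurable fun (c : Tor e) (i : Fin D) => c (Fin.castLE he i) :=
    measurable_pi_lambda _ fun i => measurable_pi_apply _
  refine ⟨hm', (Measure.pi_eq fun s hs => ?_).symm⟩
  have hinj : Function.Injective (Fin.castLE he) := Fin.castLE_injective he
  set t : Fin e → Set UnitAddCircle := Function.extend (Fin.castLE he) s fun _ => Set.univ with ht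
  have hpre : (fun (c : Tor e) (i : Fin D) => c (Fin.castLE he i)) ⁻¹' Set.univ.pi s = Set.univ.pi t := by
    ext c
    simp only [Set.mem_preimage, Set.mem_univ_pi]
    constructor
    · intro h j
      by_cases hj : ∃ i, Fin.castLE he i = j
      · obtain ⟨i, rfl⟩ := hj
        rw [ht, hinj.extend_apply]; exact h i
      · rw [ht, Function.extend_apply' _ _ _ hj]; exact Set.mem_univ _
    · intro h i
      have := h (Fin.castLE he i)
      rwa [ht, hinj.extend_apply] at this
  rw [Measure.map_apply hm' (MeasurableSet.univ_pi hs), hpre, Measure.pi_pi]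
  calc ∏ j, hm (t j) = ∏ j ∈ (Finset.univ : Finset (Fin D)).image (Fin.castLE he), hm (t j) := by
        refine (Finset.prod_subset (Finset.subset_univ _) fun j _ hj => ?_).symm
        rw [ht, Function.extend_apply' _ _ _ (by simpa using hj)]
        exact measure_univ
    _ = _ := by
        rw [Finset.prod_image fun a _ b _ h => hinj h]
        exact Finset.prod_congr rfl fun i _ => by rw [ht, hinj.extend_apply]

theorem slot_mp {ε : ℝ} (S : StepData ε) (s : ℕ) : MeasurePreserving (S.z s) volume volume := by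
  have hc := card_label S.lab
  have hpos : 0 < 2 ^ S.e := Nat.two_pow_pos _
  have := isProb_unif hpos
  have : ∀ _ : Fin S.D, IsProbabilityMeasure (unif S.N) := fun i => isProb_unif
    (Nat.pos_of_ne_zero fun h0 => by
      have := S.N_big; omega)
  have h1 : MeasurePreserving (fun ω => (S.E.sel ω, S.E.cc ω)) (tv S.E.D) ((unif (2 ^ S.e)).prod (tv S.e)) := by
    have := S.E.mp
    rwa [vol_eq_tv, vol_eq_tv] at this
  have h2 := (labV_mp S.lab).prod (proj_mp S.he)
  have h3 := (measurePreserving_arrowProdEquivProdArrow (Fin S.N) UnitAddCircle (Fin S.D)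
    (fun _ => unif S.N) (fun _ => hm)).symm
  have h4 : MeasurePreserving (fun (q : Fin S.D → Fin S.N × UnitAddCircle) (i : Fin S.D) =>
      ((((((q i).1 : ℕ) : ℝ) + rep (q i).2) / S.N : ℝ) : UnitAddCircle) + S.C.φ s i)
      (Measure.pi fun _ => (unif S.N).prod hm) (tv S.D) :=
    measurePreserving_pi (fun _ : Fin S.D => (unif S.N).prod hm) (fun _ => hm)
      (f := fun i (q : Fin S.N × UnitAddCircle) =>
        ((((((q.1 : ℕ) : ℝ) + rep q.2) / S.N : ℝ)) : UnitAddCircle) + S.C.φ s i)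
      (fun i => (measurePreserving_add_right hm (S.C.φ s i)).comp
        (cell_mp S.N (by have := S.N_big; omega)))
  have h21 := h2.comp h1
  have h321 := h3.comp h21
  have h := h4.comp h321
  rw [vol_eq_tv, vol_eq_tv]
  exact h

/-! ### Transported functions as functions of the label -/

/-- slot coordinate of a label, fine part dropped -/
def zLab {ε : ℝ} (S : StepData ε) (s : ℕ) (l : Fin (2 ^ S.e)) : Tor S.D :=
  fun i => ((((S.lab l).1 i : ℕ) : ℝ) / S.N : ℝ) + S.C.φ s i

/-- combination of modes -/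
def modes {D : ℕ} {ι : Type*} [Fintype ι] (u : ι → Fin D → ℤ) (a : ℕ → ι → ℂ) (p : ℕ) (z : Tor D) : ℂ :=
  ∑ i, a p i * mFourier (u i) z

/-- transported function with fine part dropped -/
def labFun {ε : ℝ} (S : StepData ε) (F : ℕ → Tor S.D → ℂ) (P : ℕ) (l : Fin (2 ^ S.e)) : ℂ :=
  pullF S.h S.C.Q (fun l => ((S.lab l).2 : ℕ)) (zLab S) F P l

theorem pullF_elim {Y Y' : Type*} (h Q : ℕ) (o : Y' → ℕ) (z : ℕ → Y' → Y) (F : ℕ → Y → ℂ) (P : ℕ) (ω : Y') :
    pullF h Q o z F P ω = (visit h Q (o ω) P).elim 0 fun sp => F sp.2 (z sp.1 ω) := by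
  unfold pullF
  split <;> simp_all

theorem sum_visit {β : Type*} [AddCommMonoid β] (h Q o M : ℕ) (ho : o ≤ M) (g : ℕ → ℕ → ℕ → β) :
    ∑ P ∈ Finset.range (Q * h + M), (visit h Q o P).elim 0 (fun sp => g P sp.1 sp.2)
      = ∑ s ∈ Finset.range Q, ∑ p ∈ Finset.range h, g (o + (s * h + p)) s p := by
  rw [← Finset.sum_subset (s₁ := Finset.Ico o (o + Q * h)) (fun P hP => by
      rw [Finset.mem_range]; have := (Finset.mem_Ico.1 hP).2; omega) (fun P _ hP => by
      rw [visit, if_neg (fun hc => hP (Finset.mem_Ico.2 hc))]; rfl),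
    Finset.sum_Ico_eq_sum_range, Nat.add_sub_cancel_left, sum_range_mul_block]
  refine Finset.sum_congr rfl fun s hs => Finset.sum_congr rfl fun p hp => ?_
  have hs' := Finset.mem_range.1 hs
  have hp' := Finset.mem_range.1 hp
  have hlt : s * h + p < Q * h := by
    calc s * h + p < (s + 1) * h := by rw [Nat.succ_mul]; omega
      _ ≤ Q * h := Nat.mul_le_mul_right _ hs'
  rw [visit, if_pos ⟨Nat.le_add_right _ _, by omega⟩, Nat.add_sub_cancel_left, Option.elim_some]
  have h1 : (s * h + p) / h = s := by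
    rw [Nat.mul_comm s h, Nat.mul_add_div (by omega), Nat.div_eq_of_lt hp', add_zero]
  have h2 : (s * h + p) % h = p := by rw [Nat.mul_add_mod', Nat.mod_eq_of_lt hp']
  simp only [h1, h2]

theorem visit_lt {h Q o P s p : ℕ} (hh : 0 < h) (hv : visit h Q o P = some (s, p)) : s < Q ∧ p < h := by
  unfold visit at hv
  split_ifs at hv with hc
  simp only [Option.some.injEq, Prod.mk.injEq] at hv
  obtain ⟨rfl, rfl⟩ := hv
  exact ⟨(Nat.div_lt_iff_lt_mul hh).2 (by omega), Nat.mod_lt _ hh⟩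

theorem slot_eq {ε : ℝ} (S : StepData ε) (s : ℕ) (ω : Tor S.E.D) :
    S.z s ω = zLab S s (S.E.sel ω)
      + fun i => ((rep (S.E.cc ω (Fin.castLE S.he i)) / S.N : ℝ) : UnitAddCircle) := by
  funext i
  show (((((S.lab (S.E.sel ω)).1 i : ℕ) : ℝ) + rep (S.E.cc ω (Fin.castLE S.he i))) / S.N : ℝ)
      + S.C.φ s i = _
  rw [Pi.add_apply, add_div, AddCircle.coe_add, zLab]
  abel

theorem _root_.Vale.Agent.P130.Full.StepData.N_pos {ε : ℝ} (S : StepData ε) : 0 < S.N := by have := S.N_big; omega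

theorem _root_.Vale.Agent.P130.Full.StepData.M_pos {ε : ℝ} (S : StepData ε) : 0 < S.M :=
  Nat.pos_of_mul_pos_left ((card_label S.lab).symm ▸ Nat.two_pow_pos S.e)

theorem measurable_sel {ε : ℝ} (S : StepData ε) : Measurable S.E.sel :=
  measurable_fst.comp S.E.mp.measurable

theorem o_le {ε : ℝ} (S : StepData ε) (ω : Tor S.E.D) : S.o ω ≤ S.M := (S.lab (S.E.sel ω)).2.2.le

theorem sum_label {ε : ℝ} (S : StepData ε) {β : Type*} [AddCommMonoid β]
    (g : (Fin S.D → Fin S.N) × Fin S.M → β) : ∑ l, g (S.lab l) = ∑ o, ∑ v, g (v, o) := by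
  rw [Equiv.sum_comp S.lab g, Fintype.sum_prod_type_right]

theorem sum_char {ε : ℝ} (S : StepData ε) (w : Fin S.D → ℤ) (hw : ∀ i, |w i| < S.N) :
    ∑ v : Fin S.D → Fin S.N, mFourier w (fun i => ((((v i : ℕ) : ℝ) / S.N : ℝ) : UnitAddCircle))
      = if w = 0 then ((S.N : ℂ) ^ S.D) else 0 := by
  have h1 : ∀ v : Fin S.D → Fin S.N, mFourier w (fun i => ((((v i : ℕ) : ℝ) / S.N : ℝ) : UnitAddCircle))
      = ∏ i, er ((w i : ℝ) * (v i : ℕ) / S.N) := by
    intro v
    show ∏ i, fourier (w i) ((((v i : ℕ) : ℝ) / S.N : ℝ) : UnitAddCircle) = _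
    simp only [fourier_coe_er, mul_div_assoc]
  rw [Finset.sum_congr rfl fun v _ => h1 v,
    ← Fintype.prod_sum fun i (j : Fin S.N) => er ((w i : ℝ) * (j : ℕ) / S.N)]
  have h2 : ∀ i, ∑ j : Fin S.N, er ((w i : ℝ) * (j : ℕ) / S.N) = if w i = 0 then (S.N : ℂ) else 0 := by
    intro i
    rw [Fin.sum_univ_eq_sum_range fun j => er ((w i : ℝ) * j / S.N), sum_er_mul S.N S.N_pos]
    simp only [show ((S.N : ℤ) ∣ w i) ↔ w i = 0 from
      ⟨fun h => Int.eq_zero_of_abs_lt_dvd h (hw i), fun h => h ▸ dvd_zero _⟩]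
  rw [Finset.prod_congr rfl fun i _ => h2 i]
  by_cases hw0 : w = 0
  · subst hw0; simp
  · obtain ⟨i, hi⟩ := Function.ne_iff.1 hw0
    rw [if_neg hw0, Finset.prod_eq_zero (Finset.mem_univ i) (if_neg (by simpa using hi))]

theorem abs_box {D B : ℕ} {w : Fin D → ℤ} (hw : w ∈ box D B) (i : Fin D) : |w i| ≤ (B : ℤ) := by
  have := Fintype.mem_piFinset.1 hw i
  rw [Finset.mem_Icc] at this
  exact abs_le.2 this

/-- an injective family of frequencies in the box of a step -/
structure Fam {ε : ℝ} (S : StepData ε) {ι : Type} (u : ι → Fin S.D → ℤ) : Prop where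
  inj : Function.Injective u
  mem : ∀ i, u i ∈ box S.D S.B

/-- total mass of coefficients -/
def mass {ι : Type} [Fintype ι] (h : ℕ) (a : ℕ → ι → ℂ) : ℝ :=
  ∑ p ∈ Finset.range h, ∑ i, ‖a p i‖ ^ 2

section kit

variable {ε : ℝ} {S : StepData ε} {ι : Type} [Fintype ι] {u : ι → Fin S.D → ℤ}

theorem mass_nonneg (a : ℕ → ι → ℂ) (h : ℕ) : 0 ≤ mass h a :=
  Finset.sum_nonneg fun _ _ => Finset.sum_nonneg fun _ _ => by positivity

theorem sum_modes_sq (hu : Fam S u) (a : ℕ → ι → ℂ) (p s : ℕ) :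
    ∑ l, ‖modes u a p (zLab S s l)‖ ^ 2 = (2 ^ S.e : ℕ) * ∑ i, ‖a p i‖ ^ 2 := by
  classical
  set φs : Tor S.D := fun i => S.C.φ s i
  set vN : (Fin S.D → Fin S.N) → Tor S.D := fun v i => ((((v i : ℕ) : ℝ) / S.N : ℝ) : UnitAddCircle) with hvN
  have hz : ∀ l, zLab S s l = vN (S.lab l).1 + φs := fun l => rfl
  have hv : ∑ v, ‖modes u a p (vN v + φs)‖ ^ 2 = (S.N : ℝ) ^ S.D * ∑ i, ‖a p i‖ ^ 2 := by
    apply Complex.ofReal_injective
    push_cast
    simp only [← Complex.conj_mul', modes, map_sum, map_mul, Finset.sum_mul_sum]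
    rw [Finset.sum_comm, Finset.mul_sum]
    refine Finset.sum_congr rfl fun i _ => ?_
    rw [Finset.sum_comm]
    have key : ∀ j, ∑ v, conj (a p i) * conj (mFourier (u i) (vN v + φs)) * (a p j * mFourier (u j) (vN v + φs))
        = conj (a p i) * a p j * mFourier (u j + -u i) φs * if u j + -u i = 0 then ((S.N : ℂ) ^ S.D) else 0 := by
      intro j
      rw [← sum_char S (u j + -u i) (fun k => by
        have h1 := abs_le.1 (abs_box (hu.mem i) k)
        have h2 := abs_le.1 (abs_box (hu.mem j) k)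
        have := S.N_big
        rw [Pi.add_apply, Pi.neg_apply, abs_lt]
        omega), Finset.mul_sum]
      refine Finset.sum_congr rfl fun v _ => ?_
      simp only [mFourier_add, mFourier_neg, mFourier_arg_add, map_mul, hvN]
      ring
    rw [Finset.sum_congr rfl fun j _ => key j, Finset.sum_eq_single i]
    · simp only [add_neg_cancel, if_true, mFourier_zero, ContinuousMap.one_apply, mul_one]
      ring
    · intro j _ hj
      rw [if_neg fun h0 => hj (hu.inj (add_neg_eq_zero.1 h0)), mul_zero]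
    · simp
  rw [Finset.sum_congr rfl fun l _ => by rw [hz l],
    sum_label S (fun vo => ‖modes u a p (vN vo.1 + φs)‖ ^ 2)]
  simp only []
  rw [Finset.sum_const, Finset.card_univ,
    Fintype.card_fin, nsmul_eq_mul, hv, ← card_label S.lab]
  push_cast
  ring

theorem labFun_sq_sum (hu : Fam S u) (a : ℕ → ι → ℂ) :
    ∑ P ∈ Finset.range S.H, ∑ l, ‖labFun S (modes u a) P l‖ ^ 2
      = (2 ^ S.e : ℕ) * (S.C.Q * mass S.h a) := by
  rw [Finset.sum_comm]
  have h1 : ∀ l, ∑ P ∈ Finset.range S.H, ‖labFun S (modes u a) P l‖ ^ 2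
      = ∑ s ∈ Finset.range S.C.Q, ∑ p ∈ Finset.range S.h, ‖modes u a p (zLab S s l)‖ ^ 2 := by
    intro l
    refine Eq.trans (Finset.sum_congr rfl fun P _ => ?_)
      (sum_visit S.h S.C.Q ((S.lab l).2 : ℕ) S.M (S.lab l).2.2.le
        fun _ s p => ‖modes u a p (zLab S s l)‖ ^ 2)
    rw [labFun, pullF_elim]
    cases visit S.h S.C.Q ((S.lab l).2 : ℕ) P <;> simp
  rw [Finset.sum_congr rfl fun l _ => h1 l, Finset.sum_comm,
    Finset.sum_congr rfl fun s _ => Finset.sum_comm,
    Finset.sum_congr rfl fun s _ => Finset.sum_congr rfl fun p _ => sum_modes_sq hu a p s]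
  simp only [← Finset.mul_sum, Finset.sum_const, Finset.card_range, nsmul_eq_mul, mass]

theorem norm_window (h : ℕ) (hh : 0 < h) (β : ℕ → ℂ) (hβ : ∑ r ∈ Finset.range h, β r = 0) (a b : ℕ) :
    ‖∑ j ∈ Finset.Ico a b, β (j % h)‖ ≤ ∑ r ∈ Finset.range h, ‖β r‖ := by
  rcases le_or_gt b a with hba | hab
  · simp only [Finset.Ico_eq_empty (not_lt.2 hba), Finset.sum_empty, norm_zero]
    exact Finset.sum_nonneg fun _ _ => norm_nonneg _
  have hpre : ∀ n, ∑ j ∈ Finset.range n, β (j % h) = ∑ j ∈ Finset.range (n % h), β j := by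
    intro n
    conv_lhs => rw [← Nat.div_add_mod' n h, Finset.sum_range_add, sum_range_mul_block]
    rw [Finset.sum_eq_zero fun k _ => ?_, zero_add]
    · exact Finset.sum_congr rfl fun j hj => by
        rw [Nat.mul_add_mod', Nat.mod_eq_of_lt (lt_trans (Finset.mem_range.1 hj) (Nat.mod_lt _ hh))]
    · rw [← hβ]
      exact Finset.sum_congr rfl fun j hj => by rw [Nat.mul_add_mod', Nat.mod_eq_of_lt (Finset.mem_range.1 hj)]
  have hsub : ∀ x y : ℕ, x ≤ y → y ≤ h →
      ‖∑ j ∈ Finset.range y, β j - ∑ j ∈ Finset.range x, β j‖ ≤ ∑ r ∈ Finset.range h, ‖β r‖ := by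
    intro x y hxy hy
    rw [← Finset.sum_Ico_eq_sub _ hxy]
    refine (norm_sum_le _ _).trans (Finset.sum_le_sum_of_subset_of_nonneg (fun j hj => ?_)
      fun j _ _ => norm_nonneg _)
    exact Finset.mem_range.2 (lt_of_lt_of_le (Finset.mem_Ico.1 hj).2 hy)
  rw [Finset.sum_Ico_eq_sub _ hab.le, hpre, hpre]
  rcases le_total (a % h) (b % h) with hle | hle
  · exact hsub _ _ hle (Nat.mod_lt _ hh).le
  · rw [norm_sub_rev]; exact hsub _ _ hle (Nat.mod_lt _ hh).le

/-- the coefficient of the zero frequency -/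
def zeroCoef (u : ι → Fin S.D → ℤ) (a : ℕ → ι → ℂ) (p : ℕ) : ℂ := by
  classical exact ∑ i, if u i = 0 then a p i else 0

theorem sum_labFun (hu : Fam S u) (a : ℕ → ι → ℂ) (P : ℕ) :
    ∑ l, labFun S (modes u a) P l = (S.N : ℂ) ^ S.D
      * ∑ o ∈ Finset.range S.M, (visit S.h S.C.Q o P).elim 0 (fun sp => zeroCoef u a sp.2) := by
  classical
  set vN : (Fin S.D → Fin S.N) → Tor S.D := fun v i => ((((v i : ℕ) : ℝ) / S.N : ℝ) : UnitAddCircle) with hvN
  have h1 : ∀ l, labFun S (modes u a) P l = (visit S.h S.C.Q ((S.lab l).2 : ℕ) P).elim 0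
      (fun sp => modes u a sp.2 (vN (S.lab l).1 + fun i => S.C.φ sp.1 i)) := fun l => by
    rw [labFun, pullF_elim]; rfl
  rw [Finset.sum_congr rfl fun l _ => h1 l,
    sum_label S (fun vo => (visit S.h S.C.Q (vo.2 : ℕ) P).elim 0
      (fun sp => modes u a sp.2 (vN vo.1 + fun i => S.C.φ sp.1 i))), Finset.mul_sum,
    ← Fin.sum_univ_eq_sum_range]
  refine Finset.sum_congr rfl fun o _ => ?_
  dsimp only
  generalize visit S.h S.C.Q (o : ℕ) P = vv
  cases vv with
  | none => simp
  | some sp =>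
    simp only [Option.elim_some, modes, zeroCoef]
    rw [Finset.sum_comm, Finset.mul_sum]
    refine Finset.sum_congr rfl fun i _ => ?_
    simp only [mFourier_arg_add, ← mul_assoc, ← Finset.sum_mul, ← Finset.mul_sum, hvN]
    rw [sum_char S (u i) fun k => lt_of_le_of_lt (abs_box (hu.mem i) k) (by have := S.N_big; omega)]
    split_ifs with h0
    · rw [h0, mFourier_zero, ContinuousMap.one_apply]; ring
    · simp

theorem norm_vis_sum (β : ℕ → ℂ) (hβ : ∑ p ∈ Finset.range S.h, β p = 0) (P : ℕ) :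
    ‖∑ o ∈ Finset.range S.M, (visit S.h S.C.Q o P).elim 0 (fun sp => β sp.2)‖
      ≤ ∑ p ∈ Finset.range S.h, ‖β p‖ := by
  classical
  have h1 : ∀ o, (visit S.h S.C.Q o P).elim 0 (fun sp => β sp.2)
      = if o ≤ P ∧ P < o + S.C.Q * S.h then β ((P - o) % S.h) else 0 := by
    intro o; unfold visit; split_ifs <;> rfl
  rw [Finset.sum_congr rfl fun o _ => h1 o, ← Finset.sum_filter,
    Finset.sum_nbij' (t := Finset.Ico (P + 1 - S.M) (min (P + 1) (S.C.Q * S.h)))
      (g := fun j => β (j % S.h)) (fun o => P - o) (fun j => P - j)]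
  · exact norm_window _ S.h_pos _ hβ _ _
  all_goals intro o ho
  all_goals simp only [Finset.mem_filter, Finset.mem_range, Finset.mem_Ico] at ho ⊢
  all_goals omega

theorem zeroCoef_sq_le (hu : Fam S u) (a : ℕ → ι → ℂ) (p : ℕ) : ‖zeroCoef u a p‖ ^ 2 ≤ ∑ i, ‖a p i‖ ^ 2 := by
  classical
  unfold zeroCoef
  by_cases hex : ∃ i, u i = 0
  · obtain ⟨i, hi⟩ := hex
    rw [Finset.sum_eq_single i (fun j _ hj => if_neg fun h => hj (hu.inj (h.trans hi.symm))) (by simp), if_pos hi]
    exact Finset.single_le_sum (f := fun j => ‖a p j‖ ^ 2) (fun j _ => by positivity) (Finset.mem_univ i)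
  · rw [Finset.sum_eq_zero fun i _ => if_neg fun h => hex ⟨i, h⟩]
    simp only [norm_zero, ne_eq, OfNat.ofNat_ne_zero, not_false_eq_true, zero_pow]
    exact Finset.sum_nonneg fun j _ => by positivity

theorem mean_sq_sum (hu : Fam S u) (a : ℕ → ι → ℂ)
    (h0 : ∑ p ∈ Finset.range S.h, zeroCoef u a p = 0) :
    ∑ P ∈ Finset.range S.H, ‖(∑ l, labFun S (modes u a) P l) / ((2 ^ S.e : ℕ) : ℂ)‖ ^ 2
      ≤ 2 * ε * S.C.Q * mass S.h a := by
  have hM : (0:ℝ) < S.M := by exact_mod_cast S.M_pos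
  have hN : (0:ℝ) < (S.N:ℝ) ^ S.D := by have := S.N_pos; positivity
  have hterm : ∀ P, ‖(∑ l, labFun S (modes u a) P l) / ((2 ^ S.e : ℕ) : ℂ)‖ ^ 2
      ≤ (S.h:ℝ) * mass S.h a / (S.M:ℝ) ^ 2 := by
    intro P
    rw [sum_labFun hu a P, ← card_label S.lab]
    push_cast
    rw [norm_div, norm_mul, norm_mul, norm_pow, Complex.norm_natCast, Complex.norm_natCast,
      mul_div_mul_left _ _ hN.ne', div_pow]
    gcongr
    refine (pow_le_pow_left₀ (norm_nonneg _) (norm_vis_sum _ h0 P) 2).trans ?_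
    refine sq_sum_le_card_mul_sum_sq.trans ?_
    rw [Finset.card_range, mass]
    gcongr with p
    exact zeroCoef_sq_le hu a p
  refine (Finset.sum_le_sum fun P _ => hterm P).trans ?_
  rw [Finset.sum_const, Finset.card_range, nsmul_eq_mul, mul_div_assoc', div_le_iff₀ (by positivity)]
  have h1 : (S.H:ℝ) ≤ 2 * (S.C.Q * S.h) := by
    have := S.M_small
    exact_mod_cast (show S.H ≤ 2 * (S.C.Q * S.h) by unfold StepData.H; omega)
  have hm0 := mass_nonneg a S.h
  have h2 := mul_le_mul_of_nonneg_left S.M_big (by positivity : 0 ≤ 2 * (S.C.Q:ℝ) * mass S.h a)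
  have h3 := mul_le_mul_of_nonneg_right h1 (by positivity : 0 ≤ (S.h:ℝ) * mass S.h a)
  linarith

theorem pull_sub_sq (hu : Fam S u) (a : ℕ → ι → ℂ) (ω : Tor S.E.D) :
    ∑ P ∈ Finset.range S.H,
      ‖pullF S.h S.C.Q S.o S.z (modes u a) P ω - labFun S (modes u a) P (S.E.sel ω)‖ ^ 2
      ≤ 40 * ε * S.C.Q * mass S.h a := by
  have hN : (0:ℝ) < S.N := by exact_mod_cast S.N_pos
  set w : Tor S.D := fun i => ((rep (S.E.cc ω (Fin.castLE S.he i)) / S.N : ℝ) : UnitAddCircle) with hw
  set c : ℝ := 2 * π * ((S.D:ℝ) * S.B / S.N) with hc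
  have hc0 : 0 ≤ c := by rw [hc]; positivity
  have hchar : ∀ i, ‖mFourier (u i) w - 1‖ ≤ c := by
    intro i
    refine (norm_mFourier_coe_sub_one (u i) _).trans ?_
    rw [hc]
    refine mul_le_mul_of_nonneg_left ?_ (by positivity)
    refine (Finset.sum_le_card_nsmul _ _ ((S.B:ℝ) / S.N) fun k _ => ?_).trans_eq (by
      rw [Finset.card_univ, Fintype.card_fin, nsmul_eq_mul, mul_div_assoc])
    rw [abs_div, abs_of_pos hN, abs_of_nonneg (rep_nonneg _), div_eq_mul_one_div (S.B:ℝ)]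
    refine mul_le_mul ?_ ?_ (div_nonneg (rep_nonneg _) hN.le) (Nat.cast_nonneg _)
    · exact_mod_cast abs_box (hu.mem i) k
    · exact div_le_div_of_nonneg_right (rep_lt_one _).le hN.le
  have hkey : ∀ s p, ‖modes u a p (S.z s ω) - modes u a p (zLab S s (S.E.sel ω))‖ ^ 2
      ≤ 40 * ε * ∑ i, ‖a p i‖ ^ 2 := by
    intro s p
    rw [slot_eq, ← hw]
    simp only [modes, ← Finset.sum_sub_distrib, mFourier_arg_add]
    have h1 : ∀ i, ‖a p i * (mFourier (u i) (zLab S s (S.E.sel ω)) * mFourier (u i) w)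
        - a p i * mFourier (u i) (zLab S s (S.E.sel ω))‖ ≤ c * ‖a p i‖ := by
      intro i
      rw [show ∀ x y z : ℂ, x * (y * z) - x * y = x * y * (z - 1) from fun x y z => by ring,
        norm_mul, norm_mul, norm_mFourier_apply, mul_one, mul_comm c]
      exact mul_le_mul_of_nonneg_left (hchar i) (norm_nonneg _)
    refine (pow_le_pow_left₀ (norm_nonneg _) ((norm_sum_le _ _).trans (Finset.sum_le_sum fun i _ => h1 i)) 2).trans ?_
    rw [← Finset.mul_sum, mul_pow]
    have h2 := sq_sum_le_card_mul_sum_sq (s := (Finset.univ : Finset ι)) (f := fun i => ‖a p i‖)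
    have hcard : ((Finset.univ : Finset ι).card : ℝ) ≤ (box S.D S.B).card := by
      exact_mod_cast Finset.card_le_card_of_injOn u (fun i _ => hu.mem i) hu.inj.injOn
    have h3 : c ^ 2 * (box S.D S.B).card ≤ 40 * ε := by
      have hπ : π ^ 2 ≤ 10 := by
        calc π ^ 2 ≤ (3.15:ℝ) ^ 2 := pow_le_pow_left₀ Real.pi_pos.le Real.pi_lt_d2.le 2
          _ ≤ 10 := by norm_num
      have hb := mul_le_mul_of_nonneg_right hπ
        (by positivity : 0 ≤ 4 * (((box S.D S.B).card : ℝ) * ((S.D:ℝ) * S.B / S.N) ^ 2))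
      rw [hc]
      linarith [S.N_err]
    calc c ^ 2 * (∑ i, ‖a p i‖) ^ 2 ≤ c ^ 2 * ((box S.D S.B).card * ∑ i, ‖a p i‖ ^ 2) :=
          mul_le_mul_of_nonneg_left (h2.trans (mul_le_mul_of_nonneg_right hcard
            (Finset.sum_nonneg fun i _ => by positivity))) (sq_nonneg c)
      _ ≤ _ := by
          rw [← mul_assoc]
          exact mul_le_mul_of_nonneg_right h3 (Finset.sum_nonneg fun i _ => by positivity)
  have h1 : ∑ P ∈ Finset.range S.H,
      ‖pullF S.h S.C.Q S.o S.z (modes u a) P ω - labFun S (modes u a) P (S.E.sel ω)‖ ^ 2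
      = ∑ s ∈ Finset.range S.C.Q, ∑ p ∈ Finset.range S.h,
        ‖modes u a p (S.z s ω) - modes u a p (zLab S s (S.E.sel ω))‖ ^ 2 := by
    refine Eq.trans (Finset.sum_congr rfl fun P _ => ?_) (sum_visit S.h S.C.Q (S.o ω) S.M (o_le S ω)
      fun _ s p => ‖modes u a p (S.z s ω) - modes u a p (zLab S s (S.E.sel ω))‖ ^ 2)
    rw [labFun, pullF_elim, pullF_elim, show ((S.lab (S.E.sel ω)).2 : ℕ) = S.o ω from rfl]
    cases visit S.h S.C.Q (S.o ω) P <;> simp
  rw [h1]
  refine (Finset.sum_le_sum fun s _ => Finset.sum_le_sum fun p _ => hkey s p).trans_eq ?_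
  rw [Finset.sum_const, Finset.card_range, nsmul_eq_mul, ← Finset.mul_sum, mass]
  ring

theorem norm_elim_modes {D : ℕ} (u' : ι → Fin D → ℤ) (a : ℕ → ι → ℂ) {h : ℕ} (hh : 0 < h)
    (Q o P : ℕ) (z : ℕ → Tor D) :
    ‖(visit h Q o P).elim 0 (fun sp => modes u' a sp.2 (z sp.1))‖ ≤ ∑ p ∈ Finset.range h, ∑ i, ‖a p i‖ := by
  cases hv : visit h Q o P with
  | none => simp only [Option.elim_none, norm_zero]; positivity
  | some sp =>
    simp only [Option.elim_some]
    refine le_trans ?_ (Finset.single_le_sum (f := fun p => ∑ i, ‖a p i‖) (fun p _ => by positivity)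
      (Finset.mem_range.2 (visit_lt hh (show visit h Q o P = some (sp.1, sp.2) from hv)).2))
    refine (norm_sum_le _ _).trans (le_of_eq (Finset.sum_congr rfl fun i _ => ?_))
    rw [norm_mul, norm_mFourier_apply, mul_one]

theorem norm_pull_le (a : ℕ → ι → ℂ) (P : ℕ) (ω : Tor S.E.D) :
    ‖pullF S.h S.C.Q S.o S.z (modes u a) P ω‖ ≤ ∑ p ∈ Finset.range S.h, ∑ i, ‖a p i‖ := by
  rw [pullF_elim]; exact norm_elim_modes u a S.h_pos _ _ _ fun s => S.z s ω

theorem norm_labFun_le (a : ℕ → ι → ℂ) (P : ℕ) (l : Fin (2 ^ S.e)) :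
    ‖labFun S (modes u a) P l‖ ≤ ∑ p ∈ Finset.range S.h, ∑ i, ‖a p i‖ := by
  rw [labFun, pullF_elim]; exact norm_elim_modes u a S.h_pos _ _ _ fun s => zLab S s l

theorem measurable_labFun (F : ℕ → Tor S.D → ℂ) (P : ℕ) :
    Measurable fun ω => labFun S F P (S.E.sel ω) :=
  (measurable_of_countable (labFun S F P)).comp (measurable_sel S)

theorem measurable_pull (a : ℕ → ι → ℂ) (P : ℕ) :
    Measurable fun ω => pullF S.h S.C.Q S.o S.z (modes u a) P ω := by
  set f : Tor S.E.D × Fin (2 ^ S.e) → ℂ := fun q =>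
    (visit S.h S.C.Q ((S.lab q.2).2 : ℕ) P).elim 0 (fun sp => modes u a sp.2 (S.z sp.1 q.1)) with hf
  have hfm : Measurable f := by
    refine measurable_from_prod_countable_left fun l => ?_
    simp only [hf]
    cases visit S.h S.C.Q ((S.lab l).2 : ℕ) P with
    | none => exact measurable_const
    | some sp =>
      have hcont : Continuous (modes u a sp.2) := by unfold modes; fun_prop
      exact hcont.measurable.comp (slot_mp S sp.1).measurable
  have : (fun ω => pullF S.h S.C.Q S.o S.z (modes u a) P ω) = fun ω => f (ω, S.E.sel ω) := by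
    funext ω; rw [pullF_elim]; rfl
  rw [this]
  exact hfm.comp (measurable_id.prodMk (measurable_sel S))

theorem sum_vec' (f : (Fin S.E.D → ℤ) → ℝ) : ∑ x, f (S.C'.vec x) = ∑ z ∈ symF S.E.P, f z := by
  classical
  rw [← Finset.sum_image (g := S.C'.vec) (f := f) fun x _ y _ h => S.good'.inj h]
  congr 1
  ext z
  simp [← S.range' z]

theorem card_symF : (symF S.E.P).card = S.C'.k := by
  have h : ((S.C'.k : ℕ) : ℝ) = ((symF S.E.P).card : ℝ) := by
    have := sum_vec' (S := S) (fun _ => (1:ℝ))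
    simpa using this
  exact_mod_cast h.symm

/-- coefficients of the label part -/
def labCoef (S : StepData ε) (F : ℕ → Tor S.D → ℂ) (P : ℕ) (z : Fin S.E.D → ℤ) : ℂ :=
  mFourierCoeff (fun ω => labFun S F P (S.E.sel ω)) z

theorem coef_sub_sq (hu : Fam S u) (a : ℕ → ι → ℂ) :
    ∑ P ∈ Finset.range S.H, ∑ x, ‖S.coef (modes u a) P x - labCoef S (modes u a) P (S.C'.vec x)‖ ^ 2
      ≤ 40 * ε * S.C.Q * mass S.h a := by
  set Z := ∑ p ∈ Finset.range S.h, ∑ i, ‖a p i‖
  have hd : ∀ P ω, ‖pullF S.h S.C.Q S.o S.z (modes u a) P ω - labFun S (modes u a) P (S.E.sel ω)‖ ≤ 2 * Z :=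
    fun P ω => (norm_sub_le _ _).trans
      ((add_le_add (norm_pull_le a P ω) (norm_labFun_le a P (S.E.sel ω))).trans_eq (two_mul Z).symm)
  have hdm : ∀ P, Measurable fun ω =>
      pullF S.h S.C.Q S.o S.z (modes u a) P ω - labFun S (modes u a) P (S.E.sel ω) :=
    fun P => (measurable_pull a P).sub (measurable_labFun _ P)
  have h1 : ∀ P, ∑ x, ‖S.coef (modes u a) P x - labCoef S (modes u a) P (S.C'.vec x)‖ ^ 2
      ≤ ∫ ω, ‖pullF S.h S.C.Q S.o S.z (modes u a) P ω - labFun S (modes u a) P (S.E.sel ω)‖ ^ 2 ∂(tv S.E.D) := by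
    intro P
    refine le_trans (le_of_eq ?_) (bessel_tv (symF S.E.P) _ (hdm P) (hd P))
    rw [← sum_vec']
    refine Finset.sum_congr rfl fun x _ => ?_
    rw [coeff_sub (measurable_pull a P) (measurable_labFun _ P) (norm_pull_le a P)
      (fun ω => norm_labFun_le a P (S.E.sel ω))]
    rfl
  have hi : ∀ P, Integrable (fun ω =>
      ‖pullF S.h S.C.Q S.o S.z (modes u a) P ω - labFun S (modes u a) P (S.E.sel ω)‖ ^ 2) (tv S.E.D) :=
    fun P => Integrable.of_bound ((hdm P).norm.pow_const 2).aestronglyMeasurable ((2 * Z) ^ 2)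
      (Eventually.of_forall fun ω => by
        rw [Real.norm_eq_abs, abs_of_nonneg (by positivity)]
        exact pow_le_pow_left₀ (norm_nonneg _) (hd P ω) 2)
  refine (Finset.sum_le_sum fun P _ => h1 P).trans ?_
  rw [← integral_finsetSum _ fun P _ => hi P]
  refine (integral_mono (integrable_finsetSum _ fun P _ => hi P) (integrable_const _) (pull_sub_sq hu a)).trans_eq ?_
  simp

theorem split_sq {t : ℝ} (ht : 0 < t) (a b : ℂ) : (1 - t) * ‖a‖ ^ 2 ≤ ‖b‖ ^ 2 + ‖b - a‖ ^ 2 / t := by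
  rcases le_or_gt 1 t with h1 | h1
  · exact (mul_nonpos_of_nonpos_of_nonneg (by linarith) (sq_nonneg _)).trans (by positivity)
  have htri : ‖a‖ ≤ ‖b‖ + ‖b - a‖ := by
    calc ‖a‖ = ‖b - (b - a)‖ := by rw [sub_sub_cancel]
      _ ≤ _ := norm_sub_le _ _
  refine (mul_le_mul_of_nonneg_left (pow_le_pow_left₀ (norm_nonneg _) htri 2) (by linarith)).trans ?_
  rw [← sub_nonneg]
  have key : ‖b‖ ^ 2 + ‖b - a‖ ^ 2 / t - (1 - t) * (‖b‖ + ‖b - a‖) ^ 2
      = ((t * ‖b‖ - (1 - t) * ‖b - a‖) ^ 2 + t * ‖b - a‖ ^ 2) / t := by field_simp; ring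
  rw [key]
  positivity

theorem ne_zero_of_mem_symF {z : Fin S.E.D → ℤ} (hz : z ∈ symF S.E.P) : z ≠ 0 := by
  rcases Finset.mem_union.1 hz with h | h
  · exact S.E.ne_zero z h
  · obtain ⟨v, hv, rfl⟩ := Finset.mem_image.1 h
    exact neg_ne_zero.2 (S.E.ne_zero v hv)

theorem label_total (F : ℕ → Tor S.D → ℂ) {Z : ℝ} (P : ℕ) (hZ : ∀ l, ‖labFun S F P l‖ ≤ Z) :
    (1 - ε) * ((∑ l, ‖labFun S F P l‖ ^ 2) / (2 ^ S.e : ℕ)
        - ‖(∑ l, labFun S F P l) / ((2 ^ S.e : ℕ) : ℂ)‖ ^ 2)
      ≤ ∑ x, ‖labCoef S F P (S.C'.vec x)‖ ^ 2 := by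
  set n : ℕ := 2 ^ S.e with hn
  set m : ℂ := (∑ l, labFun S F P l) / (n : ℂ) with hm'
  have hn0 : (n : ℂ) ≠ 0 := Nat.cast_ne_zero.2 (Nat.two_pow_pos S.e).ne'
  have htot : ∑ l, labFun S F P l = n * m := (mul_div_cancel₀ _ hn0).symm
  have hsum : ∑ l, (labFun S F P l - m) = 0 := by
    rw [Finset.sum_sub_distrib, Finset.sum_const, Finset.card_univ, Fintype.card_fin, nsmul_eq_mul, htot, sub_self]
  have hcross : ∑ l, (labFun S F P l * conj m).re = n * Complex.normSq m := by
    rw [← Complex.re_sum, ← Finset.sum_mul, htot, mul_assoc, Complex.mul_conj,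
      ← Complex.ofReal_natCast, ← Complex.ofReal_mul, Complex.ofReal_re]
  have hen : ∑ l, ‖labFun S F P l - m‖ ^ 2 = ∑ l, ‖labFun S F P l‖ ^ 2 - n * ‖m‖ ^ 2 := by
    simp only [← Complex.normSq_eq_norm_sq, Complex.normSq_sub, Finset.sum_add_distrib, Finset.sum_sub_distrib,
      Finset.sum_const, Finset.card_univ, Fintype.card_fin, nsmul_eq_mul, ← Finset.mul_sum, hcross, ← hn]
    ring
  have h := S.E.total (fun l => labFun S F P l - m) hsum
  rw [hen, sub_div, mul_div_cancel_left₀ _ (Nat.cast_ne_zero.2 (Nat.two_pow_pos S.e).ne')] at h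
  refine h.trans_eq ?_
  rw [← sum_vec']
  refine Finset.sum_congr rfl fun x _ => ?_
  rw [coeff_sub (measurable_labFun F P) measurable_const (fun ω => hZ (S.E.sel ω)) (fun _ => le_refl ‖m‖),
    coeff_const _ _ (ne_zero_of_mem_symF ((S.range' _).1 ⟨x, rfl⟩)), sub_zero]
  rfl

theorem lower_modes (hε : 0 < ε) (hε1 : ε ≤ 1) (hu : Fam S u) (a : ℕ → ι → ℂ)
    (h0 : ∑ p ∈ Finset.range S.h, zeroCoef u a p = 0) :
    (1 - stepErr ε) * mass S.h a
      ≤ (∑ P ∈ Finset.range S.H, ∑ x, ‖S.coef (modes u a) P x‖ ^ 2) / S.C.Q := by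
  have hQ : (0:ℝ) < S.C.Q := Nat.cast_pos.2 S.good.Q_pos
  set t := Real.sqrt ε with ht'
  have ht : 0 < t := Real.sqrt_pos.2 hε
  have ht1 : t ≤ 1 := Real.sqrt_le_one.2 hε1
  have htt : t ^ 2 = ε := Real.sq_sqrt hε.le
  have hm0 := mass_nonneg a S.h
  have hn : ((2 ^ S.e : ℕ) : ℝ) ≠ 0 := Nat.cast_ne_zero.2 (Nat.two_pow_pos S.e).ne'
  set g := ∑ P ∈ Finset.range S.H, ∑ x, ‖labCoef S (modes u a) P (S.C'.vec x)‖ ^ 2
  have hg : (1 - ε) * ((1 - 2 * ε) * (S.C.Q * mass S.h a)) ≤ g := by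
    refine le_trans ?_ (Finset.sum_le_sum fun P _ => label_total (S := S) (modes u a) P (norm_labFun_le a P))
    rw [← Finset.mul_sum, Finset.sum_sub_distrib, ← Finset.sum_div, labFun_sq_sum hu, mul_div_cancel_left₀ _ hn]
    refine mul_le_mul_of_nonneg_left ?_ (by linarith)
    linarith [mean_sq_sum hu a h0]
  have hd := coef_sub_sq hu a
  have hsplit : (1 - t) * g ≤ (∑ P ∈ Finset.range S.H, ∑ x, ‖S.coef (modes u a) P x‖ ^ 2)
      + (40 * ε * S.C.Q * mass S.h a) / t := by
    refine le_trans ?_ (add_le_add le_rfl (div_le_div_of_nonneg_right hd ht.le))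
    simp only [g, Finset.mul_sum, Finset.sum_div, ← Finset.sum_add_distrib]
    exact Finset.sum_le_sum fun P _ => Finset.sum_le_sum fun x _ => split_sq ht _ _
  have h40 : (40 * ε * S.C.Q * mass S.h a) / t = 40 * t * (S.C.Q * mass S.h a) := by
    rw [div_eq_iff ht.ne']
    linear_combination (-(40 * (S.C.Q:ℝ) * mass S.h a)) * htt
  have hpoly : 1 - 1000 * t ≤ (1 - t) * ((1 - ε) * (1 - 2 * ε)) - 40 * t := by
    rw [← htt]
    nlinarith [mul_le_mul_of_nonneg_left ht1 ht.le, pow_le_pow_left₀ ht.le ht1 2, pow_nonneg ht.le 3,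
      mul_nonneg (pow_nonneg ht.le 4) (sub_nonneg.2 ht1)]
  have hfin := mul_le_mul_of_nonneg_right hpoly (by positivity : 0 ≤ (S.C.Q:ℝ) * mass S.h a)
  have hg' := mul_le_mul_of_nonneg_left hg (sub_nonneg.2 ht1)
  rw [stepErr, le_div_iff₀ hQ]
  linarith [hsplit.trans_eq (congrArg _ h40)]

theorem norm_TS_le (h : ℕ) (c : ℕ → ℂ) (θ : UnitAddCircle) : ‖TS h c θ‖ ≤ ∑ p ∈ Finset.range h, ‖c p‖ :=
  (norm_sum_le _ _).trans (le_of_eq (Finset.sum_congr rfl fun p _ => by
    rw [norm_mul, norm_fourier_apply, mul_one]))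

theorem integrable_fast_normSq {h : ℕ} (hh : 0 < h) {φ : UnitAddCircle → ℝ} (hφ : Integrable φ hm)
    (c : ℕ → ℂ) : Integrable (fun θ => φ (h • θ) * ‖TS h c θ‖ ^ 2) hm :=
  (integrable_fast h hh hφ).mul_bdd ((continuous_TS h c).norm.pow 2).aestronglyMeasurable
    (Eventually.of_forall fun θ => by
      rw [Real.norm_eq_abs, abs_of_nonneg (sq_nonneg _)]
      exact pow_le_pow_left₀ (norm_nonneg _) (norm_TS_le h c θ) 2)

theorem integral_fast_normSq {h : ℕ} (hh : 0 < h) {φ : UnitAddCircle → ℝ} (hφ : Integrable φ hm)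
    (c : ℕ → ℂ) :
    ∫ θ, φ (h • θ) * ‖TS h c θ‖ ^ 2 ∂hm = (∫ y, φ y ∂hm) * ∑ p ∈ Finset.range h, ‖c p‖ ^ 2 := by
  apply Complex.ofReal_injective
  have hi := integral_fast_TS h hh (φ := fun y => (φ y : ℂ)) hφ.ofReal c c
  simp only [Complex.conj_mul', integral_complex_ofReal] at hi
  rw [← integral_complex_ofReal]
  push_cast
  exact hi

theorem sum_colour {D : ℕ} (C : Colours D) (f : Fin C.k → ℂ) (y : UnitAddCircle) :
    ∑ x, f x * ((Real.sqrt C.k * ind (C.col y = x) : ℝ) : ℂ) = f (C.col y) * (Real.sqrt C.k : ℂ) := by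
  rw [Finset.sum_eq_single (C.col y) (fun x _ hx => by rw [ind, if_neg (fun h => hx h.symm)]; simp) (by simp)]
  rw [ind, if_pos rfl, mul_one]

theorem image_eq {D : ℕ} (h : ℕ) (C : Colours D) (c : ℕ → Fin C.k → ℂ) (θ : UnitAddCircle) :
    image h C c θ = TS h (fun p => c p (C.col (h • θ))) θ * (Real.sqrt C.k : ℂ) :=
  sum_colour C (fun x => TS h (fun p => c p x) θ) _

theorem integrable_ind {D : ℕ} (C : Colours D) (hC : Measurable C.col) (x : Fin C.k) :
    Integrable (fun y => ind (C.col y = x)) hm := by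
  refine Integrable.of_bound (Measurable.ite (hC (measurableSet_singleton x)) measurable_const
    measurable_const).aestronglyMeasurable 1 (Eventually.of_forall fun y => abs_ind _)

/-- flatness defect of one colour -/
def dev1 {D : ℕ} (C : Colours D) (x : Fin C.k) (y : UnitAddCircle) : ℝ :=
  ‖TS C.Q (fun s => mFourier (C.vec x) (C.φ s)) y‖ / Real.sqrt C.Q - Real.sqrt C.k * ind (C.col y = x)

theorem integrable_dev1_sq {D : ℕ} (C : Colours D) (hC : Measurable C.col) (x : Fin C.k) :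
    Integrable (fun y => dev1 C x y ^ 2) hm := by
  set R := (∑ s ∈ Finset.range C.Q, ‖mFourier (C.vec x) (C.φ s)‖) / Real.sqrt C.Q + Real.sqrt C.k
  refine Integrable.of_bound (((continuous_TS _ _).measurable.norm.div_const _).sub
    ((Measurable.ite (hC (measurableSet_singleton x)) measurable_const measurable_const).const_mul _)
    |>.pow_const 2).aestronglyMeasurable (R ^ 2) (Eventually.of_forall fun y => ?_)
  rw [Real.norm_eq_abs, abs_pow]
  refine pow_le_pow_left₀ (abs_nonneg _) ((abs_sub _ _).trans (add_le_add ?_ ?_)) 2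
  · rw [abs_div, abs_norm, abs_of_nonneg (Real.sqrt_nonneg _)]
    exact div_le_div_of_nonneg_right (norm_TS_le _ _ _) (Real.sqrt_nonneg _)
  · rw [abs_mul, abs_of_nonneg (Real.sqrt_nonneg _)]
    exact mul_le_of_le_one_right (Real.sqrt_nonneg _) (abs_ind _)

/-- phase removing the argument -/
def conjPhase (w : ℂ) : ℂ := if w = 0 then 1 else conj w / (‖w‖ : ℂ)

theorem norm_conjPhase (w : ℂ) : ‖conjPhase w‖ = 1 := by
  unfold conjPhase
  split_ifs with h
  · simp
  · simp [h]

theorem conjPhase_mul (w : ℂ) : conjPhase w * w = (‖w‖ : ℂ) := by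
  unfold conjPhase
  split_ifs with h
  · simp [h]
  · rw [div_mul_eq_mul_div, Complex.conj_mul', sq, mul_div_assoc, div_self (by simpa using h), mul_one]

theorem measurable_conjPhase : Measurable conjPhase :=
  Measurable.ite (measurableSet_singleton 0) measurable_const
    (Complex.continuous_conj.measurable.div (Complex.continuous_ofReal.comp continuous_norm).measurable)

/-- label selected by a colour of the next tower -/
def lbl (S : StepData ε) (x' : Fin S.C'.k) : Fin (2 ^ S.e) := S.E.sl (S.C'.vec x')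

/-- factor in front of the contribution of one colour -/
def fac (S : StepData ε) (x' : Fin S.C'.k) (x : Fin S.C.k) (θ : UnitAddCircle) : ℂ :=
  S.E.ph (S.C'.vec x') * fourier (((S.lab (lbl S x')).2 : ℕ) : ℤ) θ
    * mFourier (S.C.vec x) (fun i => ((((S.lab (lbl S x')).1 i : ℕ) : ℝ) / S.N : ℝ))
    * TS S.C.Q (fun s => mFourier (S.C.vec x) (S.C.φ s)) (S.h • θ)

theorem norm_fac (x' : Fin S.C'.k) (x : Fin S.C.k) (θ : UnitAddCircle) :
    ‖fac S x' x θ‖ = ‖TS S.C.Q (fun s => mFourier (S.C.vec x) (S.C.φ s)) (S.h • θ)‖ := by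
  simp only [fac, norm_mul, S.E.norm_ph, norm_fourier_apply, norm_mFourier_apply, one_mul]

theorem TS_label (α : ℕ → Fin S.C.k → ℂ) (x' : Fin S.C'.k) (θ : UnitAddCircle) :
    S.E.ph (S.C'.vec x') * TS S.H (fun P => labFun S (combC S.C α) P (lbl S x')) θ
      = ∑ x, fac S x' x θ * TS S.h (fun p => α p x) θ := by
  set l := lbl S x' with hl
  set vv : Tor S.D := fun i => ((((S.lab l).1 i : ℕ) : ℝ) / S.N : ℝ) with hvv
  have hz : ∀ s, zLab S s l = vv + S.C.φ s := fun s => rfl
  have hfr : ∀ s p : ℕ, fourier (((((S.lab l).2 : ℕ) + (s * S.h + p) : ℕ) : ℤ)) θ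
      = fourier (((S.lab l).2 : ℕ) : ℤ) θ * (fourier (s : ℤ) (S.h • θ) * fourier (p : ℤ) θ) := by
    intro s p
    rw [fourier_arg_nsmul, ← fourier_add, ← fourier_add]
    push_cast; rfl
  have h1 : TS S.H (fun P => labFun S (combC S.C α) P l) θ
      = ∑ s ∈ Finset.range S.C.Q, ∑ p ∈ Finset.range S.h, combC S.C α p (zLab S s l)
          * fourier (((((S.lab l).2 : ℕ) + (s * S.h + p) : ℕ) : ℤ)) θ := by
    refine Eq.trans (Finset.sum_congr rfl fun P _ => ?_)
      (sum_visit S.h S.C.Q ((S.lab l).2 : ℕ) S.M (S.lab l).2.2.le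
        fun P s p => combC S.C α p (zLab S s l) * fourier (P : ℤ) θ)
    dsimp only
    rw [labFun, pullF_elim]
    cases visit S.h S.C.Q ((S.lab l).2 : ℕ) P <;> simp
  rw [h1]
  simp only [hfr, hz, combC, mFourier_arg_add, fac, TS, ← hl, ← hvv, Finset.mul_sum, Finset.sum_mul]
  rw [Finset.sum_congr rfl fun s _ => Finset.sum_comm, Finset.sum_comm]
  refine Finset.sum_congr rfl fun x _ => ?_
  rw [Finset.sum_comm]
  refine Finset.sum_congr rfl fun p _ => Finset.sum_congr rfl fun s _ => ?_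
  ring

/-- model coefficients in the next tower -/
def model (S : StepData ε) (α : ℕ → Fin S.C.k → ℂ) (P : ℕ) (x : Fin S.C'.k) : ℂ :=
  S.E.ph (S.C'.vec x) * labFun S (combC S.C α) P (lbl S x) / (Real.sqrt S.C'.k : ℂ)

/-- the phase of a step -/
def gamma (S : StepData ε) (θ : UnitAddCircle) : ℂ :=
  conjPhase (fac S (S.C'.col (S.H • θ)) (S.C.col (S.h • θ)) θ)

theorem continuous_fac_aux (a b : ℂ) (n : ℤ) (Q h : ℕ) (c : ℕ → ℂ) :
    Continuous fun θ : UnitAddCircle => a * fourier n θ * b * TS Q c (h • θ) :=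
  ((continuous_const.mul (fourier n).continuous).mul continuous_const).mul
    ((continuous_TS Q c).comp (continuous_nsmul h))

theorem continuous_fac (x' : Fin S.C'.k) (x : Fin S.C.k) : Continuous (fac S x' x) :=
  continuous_fac_aux (S.E.ph (S.C'.vec x'))
    (mFourier (S.C.vec x) (fun i => ((((S.lab (lbl S x')).1 i : ℕ) : ℝ) / S.N : ℝ)))
    (((S.lab (lbl S x')).2 : ℕ) : ℤ) S.C.Q S.h (fun s => mFourier (S.C.vec x) (S.C.φ s))

theorem measurable_gamma : Measurable (gamma S) := by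
  have key : ∀ {β : Type} [MeasurableSpace β] [Countable β] [MeasurableSingletonClass β]
      (f : β → UnitAddCircle → ℂ) (g : UnitAddCircle → β),
      (∀ b, Measurable (f b)) → Measurable g → Measurable fun θ => f (g θ) θ := by
    intro β _ _ _ f g hf hg
    have h : Measurable fun q : UnitAddCircle × β => f q.2 q.1 := measurable_from_prod_countable_left fun b => hf b
    exact h.comp (measurable_id.prodMk hg)
  have hg : Measurable fun θ : UnitAddCircle => (S.C'.col (S.H • θ), S.C.col (S.h • θ)) :=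
    (S.good'.meas.comp (continuous_nsmul S.H).measurable).prodMk
      (S.good.meas.comp (continuous_nsmul S.h).measurable)
  have h := key (fun b θ => conjPhase (fac S b.1 b.2 θ))
    (fun θ : UnitAddCircle => (S.C'.col (S.H • θ), S.C.col (S.h • θ)))
    (fun b => measurable_conjPhase.comp (continuous_fac b.1 b.2).measurable) hg
  unfold gamma
  exact h

theorem model_dist (α : ℕ → Fin S.C.k → ℂ) (θ : UnitAddCircle) :
    ‖gamma S θ * image S.H S.C' (model S α) θ / (Real.sqrt S.C.Q : ℂ) - image S.h S.C α θ‖ ^ 2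
      ≤ S.C.k * ∑ x, dev1 S.C x (S.h • θ) ^ 2 * ‖TS S.h (fun p => α p x) θ‖ ^ 2 := by
  have hk' : (0:ℝ) < Real.sqrt S.C'.k := Real.sqrt_pos.2 (Nat.cast_pos.2 S.good'.k_pos)
  have hk'' : (Real.sqrt S.C'.k : ℂ) ≠ 0 := Complex.ofReal_ne_zero.2 hk'.ne'
  set x' := S.C'.col (S.H • θ) with hx'
  set x0 := S.C.col (S.h • θ) with hx0
  have h1 : image S.H S.C' (model S α) θ = ∑ x, fac S x' x θ * TS S.h (fun p => α p x) θ := by
    rw [image_eq, ← TS_label α x' θ, ← hx']
    simp only [TS, model, Finset.sum_mul, Finset.mul_sum]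
    exact Finset.sum_congr rfl fun P _ => by field_simp
  have h2 : gamma S θ * image S.H S.C' (model S α) θ / (Real.sqrt S.C.Q : ℂ) - image S.h S.C α θ
      = ∑ x, (gamma S θ * fac S x' x θ / (Real.sqrt S.C.Q : ℂ)
          - ((Real.sqrt S.C.k * ind (x0 = x) : ℝ) : ℂ)) * TS S.h (fun p => α p x) θ := by
    rw [h1, image, Finset.mul_sum, Finset.sum_div, ← Finset.sum_sub_distrib, ← hx0]
    exact Finset.sum_congr rfl fun x _ => by ring
  have h3 : ∀ x, ‖gamma S θ * fac S x' x θ / (Real.sqrt S.C.Q : ℂ) - ((Real.sqrt S.C.k * ind (x0 = x) : ℝ) : ℂ)‖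
      ≤ |dev1 S.C x (S.h • θ)| := by
    intro x
    rw [dev1, ← norm_fac x' x θ, ← hx0]
    by_cases hx : x0 = x
    · subst hx
      rw [show gamma S θ * fac S x' x0 θ = (‖fac S x' x0 θ‖ : ℂ) from conjPhase_mul _, ← Complex.ofReal_div,
        ← Complex.ofReal_sub, Complex.norm_real, Real.norm_eq_abs]
    · simp only [ind, if_neg hx, mul_zero, Complex.ofReal_zero, sub_zero]
      rw [norm_div, norm_mul, show ‖gamma S θ‖ = 1 from norm_conjPhase _, one_mul, Complex.norm_real,
        Real.norm_eq_abs, abs_of_nonneg (Real.sqrt_nonneg _)]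
      exact le_abs_self _
  rw [h2]
  refine (pow_le_pow_left₀ (norm_nonneg _) ((norm_sum_le _ _).trans (Finset.sum_le_sum fun x _ =>
    (norm_mul_le _ _).trans (mul_le_mul_of_nonneg_right (h3 x) (norm_nonneg _)))) 2).trans ?_
  refine sq_sum_le_card_mul_sum_sq.trans_eq ?_
  simp only [Finset.card_univ, Fintype.card_fin, mul_pow, sq_abs]

theorem image_sub {D : ℕ} (h : ℕ) (C : Colours D) (b c : ℕ → Fin C.k → ℂ) (θ : UnitAddCircle) :
    image h C b θ = image h C (fun p x => b p x - c p x) θ + image h C c θ := by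
  simp only [image_eq, TS, ← add_mul, ← Finset.sum_add_distrib, sub_add_cancel]

theorem coef_sub_model (α : ℕ → Fin S.C.k → ℂ) :
    ∑ P ∈ Finset.range S.H, ∑ x, ‖S.coef (combC S.C α) P x - model S α P x‖ ^ 2
      ≤ 82 * ε * S.C.Q * mass S.h α := by
  have hu : Fam S S.C.vec := ⟨S.good.inj, S.box_vec⟩
  have hz : ∀ P, ∑ l, labFun S (combC S.C α) P l = 0 := by
    intro P
    show ∑ l, labFun S (modes S.C.vec α) P l = 0
    rw [sum_labFun hu α P]
    refine mul_eq_zero_of_right _ (Finset.sum_eq_zero fun o _ => ?_)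
    cases visit S.h S.C.Q o P with
    | none => rfl
    | some sp =>
      simp only [Option.elim_some, zeroCoef]
      exact Finset.sum_eq_zero fun x _ => if_neg (S.good.ne_zero x)
  have hn : ((2 ^ S.e : ℕ) : ℝ) ≠ 0 := Nat.cast_ne_zero.2 (Nat.two_pow_pos S.e).ne'
  have hnear : ∑ P ∈ Finset.range S.H, ∑ x, ‖labCoef S (combC S.C α) P (S.C'.vec x) - model S α P x‖ ^ 2
      ≤ ε * (S.C.Q * mass S.h α) := by
    refine (Finset.sum_le_sum fun P _ => ?_).trans_eq (b := ∑ P ∈ Finset.range S.H,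
      ε * ((∑ l, ‖labFun S (combC S.C α) P l‖ ^ 2) / (2 ^ S.e : ℕ))) ?_
    · refine le_trans (le_of_eq ?_) (S.E.near (fun l => labFun S (combC S.C α) P l) (hz P))
      rw [← sum_vec', card_symF]
      rfl
    · rw [← Finset.mul_sum, ← Finset.sum_div,
        show ∑ P ∈ Finset.range S.H, ∑ l, ‖labFun S (combC S.C α) P l‖ ^ 2
          = (2 ^ S.e : ℕ) * (S.C.Q * mass S.h α) from labFun_sq_sum hu α, mul_div_cancel_left₀ _ hn]
  have hfirst : ∑ P ∈ Finset.range S.H, ∑ x, ‖S.coef (combC S.C α) P x - labCoef S (combC S.C α) P (S.C'.vec x)‖ ^ 2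
      ≤ 40 * ε * S.C.Q * mass S.h α := coef_sub_sq hu α
  have hsplit : ∑ P ∈ Finset.range S.H, ∑ x, ‖S.coef (combC S.C α) P x - model S α P x‖ ^ 2
      ≤ 2 * (∑ P ∈ Finset.range S.H, ∑ x, ‖S.coef (combC S.C α) P x - labCoef S (combC S.C α) P (S.C'.vec x)‖ ^ 2)
        + 2 * ∑ P ∈ Finset.range S.H, ∑ x, ‖labCoef S (combC S.C α) P (S.C'.vec x) - model S α P x‖ ^ 2 := by
    simp only [Finset.mul_sum, ← Finset.sum_add_distrib]
    refine Finset.sum_le_sum fun P _ => Finset.sum_le_sum fun x _ => ?_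
    refine (pow_le_pow_left₀ (norm_nonneg _) (norm_sub_le_norm_sub_add_norm_sub _
      (labCoef S (combC S.C α) P (S.C'.vec x)) _) 2).trans ?_
    exact add_sq_le.trans_eq (mul_add _ _ _)
  linarith

theorem upper (hε1 : ε ≤ 1) (hε : 0 < ε) (α : ℕ → Fin S.C.k → ℂ) :
    ∫ θ, ‖gamma S θ * image S.H S.C' (S.coef (combC S.C α)) θ / (Real.sqrt S.C.Q : ℂ)
        - image S.h S.C α θ‖ ^ 2 ∂hm ≤ stepErr ε * mass S.h α := by
  have hQ : (0:ℝ) < S.C.Q := Nat.cast_pos.2 S.good.Q_pos
  have hk : (0:ℝ) < S.C.k := Nat.cast_pos.2 S.good.k_pos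
  have hH : 0 < S.H := by unfold StepData.H; have := S.M_pos; omega
  set δ := fun P x => S.coef (combC S.C α) P x - model S α P x with hδ
  set A := fun θ => S.C.k * ∑ x, dev1 S.C x (S.h • θ) ^ 2 * ‖TS S.h (fun p => α p x) θ‖ ^ 2 with hA
  set B := fun θ => ∑ x, (S.C'.k * ind (S.C'.col (S.H • θ) = x)) * ‖TS S.H (fun P => δ P x) θ‖ ^ 2 with hB
  have hAi : Integrable A hm := (integrable_finsetSum _ fun x _ =>
    integrable_fast_normSq S.h_pos (integrable_dev1_sq S.C S.good.meas x) _).const_mul _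
  have hBi : Integrable B hm := integrable_finsetSum _ fun x _ =>
    integrable_fast_normSq (φ := fun y => S.C'.k * ind (S.C'.col y = x)) hH
      ((integrable_ind S.C' S.good'.meas x).const_mul _) _
  have hpt : ∀ θ, ‖gamma S θ * image S.H S.C' (S.coef (combC S.C α)) θ / (Real.sqrt S.C.Q : ℂ)
      - image S.h S.C α θ‖ ^ 2 ≤ 2 * A θ + 2 / S.C.Q * B θ := by
    intro θ
    have he : gamma S θ * image S.H S.C' (S.coef (combC S.C α)) θ / (Real.sqrt S.C.Q : ℂ) - image S.h S.C α θ
        = (gamma S θ * image S.H S.C' (model S α) θ / (Real.sqrt S.C.Q : ℂ) - image S.h S.C α θ)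
          + gamma S θ * image S.H S.C' δ θ / (Real.sqrt S.C.Q : ℂ) := by
      rw [image_sub S.H S.C' (S.coef (combC S.C α)) (model S α)]
      ring
    rw [he]
    refine (pow_le_pow_left₀ (norm_nonneg _) (norm_add_le _ _) 2).trans (add_sq_le.trans ?_)
    rw [mul_add]
    refine add_le_add (mul_le_mul_of_nonneg_left (model_dist α θ) (by norm_num)) (le_of_eq ?_)
    rw [norm_div, norm_mul, show ‖gamma S θ‖ = 1 from norm_conjPhase _, one_mul, Complex.norm_real,
      Real.norm_eq_abs, abs_of_nonneg (Real.sqrt_nonneg _), div_pow, Real.sq_sqrt hQ.le]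
    have hb : B θ = ‖image S.H S.C' δ θ‖ ^ 2 := by
      rw [image_eq, norm_mul, Complex.norm_real, Real.norm_eq_abs, abs_of_nonneg (Real.sqrt_nonneg _),
        mul_pow, Real.sq_sqrt (Nat.cast_nonneg _), hB]
      dsimp only
      rw [Finset.sum_eq_single (S.C'.col (S.H • θ))
        (fun x _ hx => by rw [ind, if_neg (fun h => hx h.symm)]; simp) (by simp), ind, if_pos rfl]
      ring
    rw [hb]; ring
  refine (integral_mono_of_nonneg (Eventually.of_forall fun θ => sq_nonneg _)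
    ((hAi.const_mul 2).add (hBi.const_mul (2 / S.C.Q))) (Eventually.of_forall hpt)).trans ?_
  simp only [Pi.add_apply]
  rw [integral_add (hAi.const_mul 2) (hBi.const_mul _), integral_const_mul (2:ℝ) A,
    integral_const_mul (2 / (S.C.Q:ℝ)) B]
  have hAb : ∫ θ, A θ ∂hm ≤ ε * mass S.h α := by
    rw [hA, integral_const_mul, integral_finsetSum _ fun x _ =>
      integrable_fast_normSq S.h_pos (integrable_dev1_sq S.C S.good.meas x) _]
    have hx : ∀ x, ∫ θ, dev1 S.C x (S.h • θ) ^ 2 * ‖TS S.h (fun p => α p x) θ‖ ^ 2 ∂hm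
        ≤ ε / S.C.k * ∑ p ∈ Finset.range S.h, ‖α p x‖ ^ 2 := by
      intro x
      rw [integral_fast_normSq (φ := fun y => dev1 S.C x y ^ 2) S.h_pos (integrable_dev1_sq S.C S.good.meas x)]
      exact mul_le_mul_of_nonneg_right (S.good.flat x) (Finset.sum_nonneg fun p _ => sq_nonneg _)
    refine (mul_le_mul_of_nonneg_left (Finset.sum_le_sum fun x _ => hx x) hk.le).trans_eq ?_
    rw [← Finset.mul_sum, Finset.sum_comm, ← mul_assoc, mul_div_cancel₀ _ hk.ne', mass]
  have hBb : ∫ θ, B θ ∂hm ≤ 2 * (82 * ε * S.C.Q * mass S.h α) := by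
    rw [hB, integral_finsetSum _ fun x _ =>
      integrable_fast_normSq (φ := fun y => S.C'.k * ind (S.C'.col y = x)) hH
        ((integrable_ind S.C' S.good'.meas x).const_mul _) _]
    refine le_trans ?_ (mul_le_mul_of_nonneg_left (coef_sub_model α) (by norm_num))
    rw [Finset.sum_comm, Finset.mul_sum]
    refine Finset.sum_le_sum fun x _ => ?_
    rw [integral_fast_normSq (φ := fun y => S.C'.k * ind (S.C'.col y = x)) hH
      ((integrable_ind S.C' S.good'.meas x).const_mul _), integral_const_mul]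
    refine mul_le_mul_of_nonneg_right ?_ (Finset.sum_nonneg fun p _ => sq_nonneg _)
    linarith [(abs_le.1 (S.good'.mu x)).2]
  have hB' := mul_le_mul_of_nonneg_left hBb (by positivity : 0 ≤ 2 / (S.C.Q:ℝ))
  have he : 2 / (S.C.Q:ℝ) * (2 * (82 * ε * S.C.Q * mass S.h α)) = 328 * ε * mass S.h α := by
    field_simp; ring
  have hεt : 330 * ε ≤ stepErr ε := by
    rw [stepErr]
    have h1 : ε ≤ Real.sqrt ε := Real.le_sqrt_of_sq_le (by
      rw [sq]; exact mul_le_of_le_one_right hε.le hε1)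
    linarith [Real.sqrt_nonneg ε]
  have := mul_le_mul_of_nonneg_right hεt (mass_nonneg α S.h)
  linarith

end kit

end Stp

open Stp in
/-- the step module: one step of the construction keeps almost all mass of coloured modes and intertwines
their spectral images up to a measurable unimodular factor -/
theorem step : StepStatement := by
  intro ε hε hε1 S
  refine ⟨slot_mp S, fun α h0 => ?_, gamma S, measurable_gamma, fun θ => norm_conjPhase _,
    fun α => upper hε1 hε α⟩
  have hu : Fam S (fun v : box S.D S.B => (v : Fin S.D → ℤ)) := ⟨Subtype.val_injective, fun v => v.2⟩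
  set a : ℕ → (box S.D S.B) → ℂ := fun p v => α p v
  have hcomb : comb (box S.D S.B) α = modes (fun v : box S.D S.B => (v : Fin S.D → ℤ)) a := by
    funext p z
    exact (Finset.sum_coe_sort (box S.D S.B) fun v => α p v * mFourier v z).symm
  have hmass : mass S.h a = ∑ p ∈ Finset.range S.h, ∑ v ∈ box S.D S.B, ‖α p v‖ ^ 2 :=
    Finset.sum_congr rfl fun p _ => Finset.sum_coe_sort (box S.D S.B) fun v => ‖α p v‖ ^ 2
  have hz : ∀ p, zeroCoef (fun v : box S.D S.B => (v : Fin S.D → ℤ)) a p = α p 0 := fun p => by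
    classical
    have h00 : (0 : Fin S.D → ℤ) ∈ box S.D S.B :=
      Fintype.mem_piFinset.2 fun i => Finset.mem_Icc.2 ⟨by simp, by simp⟩
    unfold zeroCoef
    rw [Finset.sum_eq_single ⟨0, h00⟩ (fun v _ hv => if_neg fun h => hv (Subtype.ext h)) (by simp), if_pos rfl]
  have := lower_modes hε hε1 hu a (by simp only [hz]; exact h0)
  rwa [hmass, ← hcomb] at this

end

end Vale.Agent.P130.Full
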