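import Vale.Agent.P130.Full.Defs

/-! The normalised measure on tori: bridge to the measure used by the multivariate Fourier library. -/

namespace Vale.Agent.P130.Full

open MeasureTheory Filter Topology Set UnitAddTorus
open Vale.Agent.P130 Vale.Agent.P130.Sol
open scoped ENNReal ComplexConjugate

noncomputable section

theorem volume_eq_pi (D : ℕ) : (volume : Measure (Tor D)) = Measure.pi fun _ => hm := by
  rw [volume_pi]
  exact congrArg Measure.pi (funext fun _ => hm_eq_volume.symm)

instance instIsProbabilityTor (D : ℕ) : IsProbabilityMeasure (volume : Measure (Tor D)) := by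
  rw [volume_eq_pi]; infer_instance

theorem mFourierCoeff_eq {D : ℕ} (f : Tor D → ℂ) (n : Fin D → ℤ) :
    mFourierCoeff f n = ∫ t, mFourier (-n) t * f t := by
  rw [volume_eq_pi]
  rfl

theorem hasSum_sq_coef {D : ℕ} {f : Tor D → ℂ} (hf : MemLp f 2 volume) :
    HasSum (fun v => ‖mFourierCoeff f v‖ ^ 2) (∫ z, ‖f z‖ ^ 2) := by
  rw [volume_eq_pi] at hf ⊢
  have hs := hasSum_sq_mFourierCoeff (d := Fin D) (MemLp.toLp f hf)
  have hae := hf.coeFn_toLp
  have e1 : ∀ v, mFourierCoeff (MemLp.toLp f hf : Tor D → ℂ) v = mFourierCoeff f v := fun v =>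
    integral_congr_ae (hae.mono fun z hz => by simp only [hz])
  simp only [e1] at hs
  refine (congrArg (HasSum fun v => ‖mFourierCoeff f v‖ ^ 2) ?_).mp hs
  exact integral_congr_ae (hae.mono fun z hz => by simp only [hz])

theorem integral_mFourier {D : ℕ} (n : Fin D → ℤ) :
    ∫ t : Tor D, mFourier n t = if n = 0 then 1 else 0 := by
  rw [volume_eq_pi, show (fun t : Tor D => mFourier n t) = fun t => ∏ i, fourier (n i) (t i) from rfl,
    integral_fintype_prod_eq_prod (fun i => fun x => fourier (n i) x)]
  simp only [integral_fourier]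
  split_ifs with h
  · simp [h]
  · obtain ⟨i, hi⟩ := Function.ne_iff.1 h
    exact Finset.prod_eq_zero (Finset.mem_univ i) (if_neg hi)

theorem conj_mFourier {D : ℕ} (n : Fin D → ℤ) (t : Tor D) : conj (mFourier n t) = mFourier (-n) t :=
  mFourier_neg.symm

theorem mFourier_mul {D : ℕ} (m n : Fin D → ℤ) (t : Tor D) :
    mFourier m t * mFourier n t = mFourier (m + n) t := mFourier_add.symm

theorem integral_conj_mFourier_mul {D : ℕ} (m n : Fin D → ℤ) :
    ∫ t : Tor D, conj (mFourier m t) * mFourier n t = if m = n then 1 else 0 := by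
  simp only [conj_mFourier, mFourier_mul, integral_mFourier, neg_add_eq_zero]

theorem norm_mFourier' {D : ℕ} (v : Fin D → ℤ) (z : Tor D) : ‖mFourier v z‖ = 1 := by
  rw [show mFourier v z = ∏ i, fourier (v i) (z i) from rfl, norm_prod]
  simp [norm_fourier_apply, -fourier_apply]

end

end Vale.Agent.P130.Full
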